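import Crest.Agent.R320.Hk2_851
import Mathlib

-- ▼ part R320/Block_467
section

/-!
# Row 320, block calculus over a prefix code (helper467)

Walls are left-looking, so a chain of the text is the parse of the text into words of a prefix
code `C` (the blocks).  `Lg C T v v'` : products of blocks whose thread leads from `v` to `v'`.

* `star_step` : one star.  If every junction word `P ++ Q` (left label `v`, right label `v'`) is a
  product of blocks leading from `v` to `v'`, and every block of `C` which is not in `Bad` is cut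
  for every token, then the thread languages of `C` are one star above those of `Bad`.
* `fibre_of_threads` : affine tokens `T v X = v.X + nu X` give the fibres of `phi` on `C*`.
* `thread_of_solved` : the fibres of all finite monoids on `C*` give all thread languages.
* `step` : `Solved k Bad -> Solved (k+1) C`.
-/

set_option autoImplicit false

namespace Crest.Agent.R320.Blk467

open Crest.RegLang Crest.Agent.R320.Hk_851

universe u

variable {α : Type u} {k : ℕ}

/-- products of blocks of `C` -/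
def Str (C : Set (List α)) : Language α :=
  {w | ∃ l : List (List α), (∀ X ∈ l, X ∈ C) ∧ l.flatten = w}

/-- products of blocks of `C`, thread from `v` to `v'` -/
def Lg {V : Type*} (C : Set (List α)) (T : V → List α → V) (v v' : V) : Language α :=
  {w | ∃ l : List (List α), (∀ X ∈ l, X ∈ C) ∧ l.flatten = w ∧ l.foldl T v = v'}

theorem Lg.nil {V : Type*} (C : Set (List α)) (T : V → List α → V) (v : V) :
    ([] : List α) ∈ Lg C T v v := ⟨[], by simp, rfl, rfl⟩

theorem Lg.append {V : Type*} {C : Set (List α)} {T : V → List α → V} {a b c : V}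
    {x y : List α} (hx : x ∈ Lg C T a b) (hy : y ∈ Lg C T b c) : x ++ y ∈ Lg C T a c := by
  obtain ⟨l, h1, h2, h3⟩ := hx
  obtain ⟨m, g1, g2, g3⟩ := hy
  refine ⟨l ++ m, ?_, ?_, ?_⟩
  · intro X hX
    rcases List.mem_append.1 hX with h | h
    · exact h1 X h
    · exact g1 X h
  · rw [List.flatten_append, h2, g2]
  · rw [List.foldl_append, h3, g3]

theorem Lg.single {V : Type*} {C : Set (List α)} {T : V → List α → V} {X : List α}
    (hX : X ∈ C) (v : V) : X ∈ Lg C T v (T v X) :=
  ⟨[X], by simpa using hX, by simp, rfl⟩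

theorem Lg.mono {V : Type*} {C D : Set (List α)} {T : V → List α → V} (h : C ⊆ D) {v v' : V}
    {w : List α} (hw : w ∈ Lg C T v v') : w ∈ Lg D T v v' := by
  obtain ⟨l, h1, h2, h3⟩ := hw
  exact ⟨l, fun X hX => h (h1 X hX), h2, h3⟩

/-- the words of the star: right part, bad blocks, left part -/
def KK {V : Type*} (Bad : Set (List α)) (T : V → List α → V) (LP RQ : V → Language α) :
    Language α :=
  {x | ∃ p : V × V, ∃ Q ∈ RQ p.1, ∃ m ∈ Lg Bad T p.1 p.2, ∃ P ∈ LP p.2, Q ++ m ++ P = x}

theorem mem_mul3 {A B C : Language α} {x : List α} :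
    x ∈ A * B * C ↔ ∃ a ∈ A, ∃ b ∈ B, ∃ c ∈ C, a ++ b ++ c = x := by
  constructor
  · intro h
    obtain ⟨y, hy, c, hc, rfl⟩ := Language.mem_mul.1 h
    obtain ⟨a, ha, b, hb, rfl⟩ := Language.mem_mul.1 hy
    exact ⟨a, ha, b, hb, c, hc, rfl⟩
  · rintro ⟨a, ha, b, hb, c, hc, rfl⟩
    exact Language.mem_mul.2 ⟨_, Language.mem_mul.2 ⟨a, ha, b, hb, rfl⟩, c, hc, rfl⟩

theorem HL_KK {V : Type*} [Finite V] {Bad : Set (List α)} {T : V → List α → V}
    {LP RQ : V → Language α} (hB : ∀ v v', HL k (Lg Bad T v v')) (hP : ∀ v, HL k (LP v))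
    (hQ : ∀ v, HL k (RQ v)) : HL k (KK Bad T LP RQ) := by
  refine (HL.iUnion (k := k) (ι := V × V)
    (L := fun p => RQ p.1 * Lg Bad T p.1 p.2 * LP p.2)
    (fun p => ((hQ p.1).mul (hB p.1 p.2)).mul (hP p.2))).congr fun w => ?_
  constructor
  · rintro ⟨p, Q, hQ', m, hm, P, hP', rfl⟩
    exact ⟨p, mem_mul3.2 ⟨Q, hQ', m, hm, P, hP', rfl⟩⟩
  · intro h
    obtain ⟨p, hp⟩ := h
    obtain ⟨Q, hQ', m, hm, P, hP', rfl⟩ := mem_mul3.1 hp
    exact ⟨p, Q, hQ', m, hm, P, hP', rfl⟩

/-- **one star** -/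
theorem star_step {V : Type*} [Finite V] (C Bad : Set (List α)) (T : V → List α → V)
    (LP RQ : V → Language α) (hBC : Bad ⊆ C)
    (sound : ∀ v v' P Q, P ∈ LP v → Q ∈ RQ v' → P ++ Q ∈ Lg C T v v')
    (compl : ∀ X ∈ C, X ∉ Bad → ∀ v, ∃ P Q, P ++ Q = X ∧ P ∈ LP v ∧ Q ∈ RQ (T v X))
    (hB : ∀ v v', HL k (Lg Bad T v v')) (hP : ∀ v, HL k (LP v)) (hQ : ∀ v, HL k (RQ v))
    (v v' : V) : HL (k + 1) (Lg C T v v') := by
  classical
  have hK : HL (k + 1) (KStar.kstar (KK Bad T LP RQ)) := (HL_KK hB hP hQ).star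
  have hS : HL (k + 1) ({x | ∃ u : V, ∃ m ∈ Lg Bad T v u, ∃ P ∈ LP u, m ++ P = x} :
      Language α) := by
    refine (HL.mono (Nat.le_succ k) (HL.iUnion (k := k) (ι := V)
      (L := fun u => Lg Bad T v u * LP u) (fun u => (hB v u).mul (hP u)))).congr fun w => ?_
    constructor
    · rintro ⟨u, m, hm, P, hP', rfl⟩
      exact ⟨u, Language.mem_mul.2 ⟨m, hm, P, hP', rfl⟩⟩
    · intro h
      obtain ⟨u, hu⟩ := h
      obtain ⟨m, hm, P, hP', rfl⟩ := Language.mem_mul.1 hu
      exact ⟨u, m, hm, P, hP', rfl⟩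
  have hE : HL (k + 1) ({x | ∃ u : V, ∃ Q ∈ RQ u, ∃ m ∈ Lg Bad T u v', Q ++ m = x} :
      Language α) := by
    refine (HL.mono (Nat.le_succ k) (HL.iUnion (k := k) (ι := V)
      (L := fun u => RQ u * Lg Bad T u v') (fun u => (hQ u).mul (hB u v')))).congr fun w => ?_
    constructor
    · rintro ⟨u, m, hm, P, hP', rfl⟩
      exact ⟨u, Language.mem_mul.2 ⟨m, hm, P, hP', rfl⟩⟩
    · intro h
      obtain ⟨u, hu⟩ := h
      obtain ⟨m, hm, P, hP', rfl⟩ := Language.mem_mul.1 hu
      exact ⟨u, m, hm, P, hP', rfl⟩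
  have key := (HL.mono (Nat.le_succ k) (hB v v')).add ((hS.mul hK).mul hE)
  refine key.congr fun w => ?_
  constructor
  · -- completeness
    rintro ⟨l, hl, rfl, hf⟩
    have main : ∀ (l : List (List α)) (v : V), (∀ X ∈ l, X ∈ C) → l.foldl T v = v' →
        l.flatten ∈ Lg Bad T v v' ∨
        ∃ u : V, ∃ m ∈ Lg Bad T v u, ∃ P ∈ LP u, ∃ ks : List (List α),
          (∀ x ∈ ks, x ∈ KK Bad T LP RQ) ∧ ∃ a : V, ∃ Q ∈ RQ a, ∃ m' ∈ Lg Bad T a v',
            m ++ P ++ ks.flatten ++ (Q ++ m') = l.flatten := by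
      intro l
      induction l with
      | nil =>
        intro v _ h
        left
        exact ⟨[], by simp, rfl, h⟩
      | cons X l ih =>
        intro v hC hf
        have hX : X ∈ C := hC X (by simp)
        have hC' : ∀ Y ∈ l, Y ∈ C := fun Y hY => hC Y (by simp [hY])
        have hf' : l.foldl T (T v X) = v' := hf
        rcases ih (T v X) hC' hf' with h | ⟨u, m, hm, P, hP', ks, hks, a, Q, hQ', m', hm', e⟩
        · by_cases hb : X ∈ Bad
          · left
            rw [List.flatten_cons]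
            exact Lg.append (Lg.single hb v) h
          · right
            obtain ⟨P, Q, e, hP', hQ'⟩ := compl X hX hb v
            refine ⟨v, [], Lg.nil _ _ _, P, hP', [], by simp, T v X, Q, hQ', l.flatten, h, ?_⟩
            rw [List.flatten_cons, ← e]
            simp
        · right
          by_cases hb : X ∈ Bad
          · refine ⟨u, X ++ m, Lg.append (Lg.single hb v) hm, P, hP', ks, hks, a, Q, hQ', m',
              hm', ?_⟩
            rw [List.flatten_cons, ← e]
            simp [List.append_assoc]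
          · obtain ⟨P1, Q1, e1, hP1, hQ1⟩ := compl X hX hb v
            refine ⟨v, [], Lg.nil _ _ _, P1, hP1, (Q1 ++ m ++ P) :: ks, ?_, a, Q, hQ', m',
              hm', ?_⟩
            · intro x hx
              rcases List.mem_cons.1 hx with rfl | hx
              · exact ⟨(T v X, u), Q1, hQ1, m, hm, P, hP', rfl⟩
              · exact hks x hx
            · have e2 : (X :: l).flatten = (P1 ++ Q1) ++
                  (m ++ P ++ ks.flatten ++ (Q ++ m')) := by
                rw [List.flatten_cons, e, e1]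
              rw [e2]
              simp [List.append_assoc]
    rcases main l v hl hf with h | ⟨u, m, hm, P, hP', ks, hks, a, Q, hQ', m', hm', e⟩
    · exact Or.inl h
    · right
      refine mem_mul3.2 ⟨m ++ P, ⟨u, m, hm, P, hP', rfl⟩, ks.flatten,
        Language.mem_kstar.2 ⟨ks, rfl, hks⟩, Q ++ m', ⟨a, Q, hQ', m', hm', rfl⟩, e⟩
  · -- soundness
    intro hw
    rcases hw with h | h
    · exact Lg.mono hBC h
    · obtain ⟨x, hx, y, hy, z, hz, rfl⟩ := mem_mul3.1 h
      obtain ⟨ks, rfl, hks⟩ := Language.mem_kstar.1 hy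
      have main : ∀ (ks : List (List α)) (x : List α), (∀ y ∈ ks, y ∈ KK Bad T LP RQ) →
          (∃ u : V, ∃ m ∈ Lg C T v u, ∃ P ∈ LP u, m ++ P = x) →
          (∃ u : V, ∃ m ∈ Lg C T v u, ∃ P ∈ LP u, m ++ P = x ++ ks.flatten) := by
        intro ks
        induction ks with
        | nil => intro x _ h; simpa using h
        | cons y ks ih =>
          intro x hks hx
          have hy : y ∈ KK Bad T LP RQ := hks y (by simp)
          have hks' : ∀ z ∈ ks, z ∈ KK Bad T LP RQ := fun z hz => hks z (by simp [hz])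
          obtain ⟨u, m, hm, P, hP', rfl⟩ := hx
          obtain ⟨⟨a, b⟩, Q, hQ', m', hm', P', hP'', rfl⟩ := hy
          have h1 : m ++ (P ++ Q) ++ m' ∈ Lg C T v b :=
            Lg.append (Lg.append hm (sound u a P Q hP' hQ')) (Lg.mono hBC hm')
          have := ih (m ++ (P ++ Q) ++ m' ++ P') hks' ⟨b, _, h1, P', hP'', rfl⟩
          rw [List.flatten_cons]
          simpa [List.append_assoc] using this
      have hx' : ∃ u : V, ∃ m ∈ Lg C T v u, ∃ P ∈ LP u, m ++ P = x := by
        obtain ⟨u, m, hm, P, hP', e⟩ := hx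
        exact ⟨u, m, Lg.mono hBC hm, P, hP', e⟩
      obtain ⟨u, m, hm, P, hP', e⟩ := main ks x hks hx'
      obtain ⟨a, Q, hQ', m', hm', rfl⟩ := hz
      have h1 : m ++ (P ++ Q) ++ m' ∈ Lg C T v v' :=
        Lg.append (Lg.append hm (sound u a P Q hP' hQ')) (Lg.mono hBC hm')
      have e2 : x ++ ks.flatten ++ (Q ++ m') = m ++ (P ++ Q) ++ m' := by
        rw [← e]; simp [List.append_assoc]
      rw [e2]
      exact h1

/-- the fibres of every finite monoid on the products of blocks of `C` -/
def Solved (k : ℕ) (C : Set (List α)) : Prop :=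
  ∀ (S : Type u) [Monoid S] [Finite S] (φ : α → S) (s : S),
    HL k ({w | w ∈ Str C ∧ (w.map φ).prod = s} : Language α)

/-- unique parse -/
def UParse (C : Set (List α)) : Prop :=
  ∀ l m : List (List α), (∀ X ∈ l, X ∈ C) → (∀ X ∈ m, X ∈ C) → l.flatten = m.flatten → l = m

/-- a prefix code: no block is a prefix of another one, no block is empty -/
def PCode (C : Set (List α)) : Prop :=
  [] ∉ C ∧ ∀ X ∈ C, ∀ Y ∈ C, X <+: Y → X = Y

theorem PCode.mono {C D : Set (List α)} (h : C ⊆ D) (hD : PCode D) : PCode C :=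
  ⟨fun h0 => hD.1 (h h0), fun X hX Y hY => hD.2 X (h hX) Y (h hY)⟩

theorem PCode.uparse {C : Set (List α)} (h : PCode C) : UParse C := by
  intro l
  induction l with
  | nil =>
    intro m _ hm e
    cases m with
    | nil => rfl
    | cons Y m =>
      exfalso
      rw [List.flatten_nil, List.flatten_cons] at e
      have : Y = [] := (List.append_eq_nil_iff.1 e.symm).1
      exact h.1 (this ▸ hm Y (by simp))
  | cons X l ih =>
    intro m hl hm e
    cases m with
    | nil =>
      exfalso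
      rw [List.flatten_nil, List.flatten_cons] at e
      have : X = [] := (List.append_eq_nil_iff.1 e).1
      exact h.1 (this ▸ hl X (by simp))
    | cons Y m =>
      rw [List.flatten_cons, List.flatten_cons] at e
      have hX := hl X (by simp)
      have hY := hm Y (by simp)
      have hXY : X = Y := by
        rcases List.prefix_or_prefix_of_prefix (l₁ := X) (l₂ := Y) (l₃ := X ++ l.flatten)
          (List.prefix_append _ _) (e ▸ List.prefix_append _ _) with h1 | h1
        · exact h.2 X hX Y hY h1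
        · exact (h.2 Y hY X hX h1).symm
      subst hXY
      have e' := List.append_cancel_left e
      rw [ih m (fun Z hZ => hl Z (by simp [hZ])) (fun Z hZ => hm Z (by simp [hZ])) e']

/-- affine tokens: thread value = linear part + thread of `0` -/
theorem foldl_affine {S V : Type*} [Monoid S] [AddCommGroup V] (act : V → S → V)
    (hadd : ∀ a b s, act (a + b) s = act a s + act b s)
    (hone : ∀ v, act v 1 = v) (hmul : ∀ v s t, act v (s * t) = act (act v s) t)
    (φ : α → S) (nu : List α → V) (l : List (List α)) : ∀ (a b : V),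
    l.foldl (fun v X => act v (X.map φ).prod + nu X) (a + b) =
      act a (l.flatten.map φ).prod + l.foldl (fun v X => act v (X.map φ).prod + nu X) b := by
  induction l with
  | nil => intro a b; simp [hone]
  | cons X l ih =>
    intro a b
    rw [List.foldl_cons, List.foldl_cons, hadd, add_assoc, ih, List.flatten_cons, List.map_append,
      List.prod_append, hmul]

/-- the fibres of `phi` from the threads of affine tokens -/
theorem fibre_of_threads {S V : Type*} [Monoid S] [AddCommGroup V] [Finite V] (act : V → S → V)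
    (hadd : ∀ a b s, act (a + b) s = act a s + act b s)
    (hone : ∀ v, act v 1 = v) (hmul : ∀ v s t, act v (s * t) = act (act v s) t)
    (hfaith : ∀ s t, (∀ v, act v s = act v t) → s = t)
    (φ : α → S) (nu : List α → V) (C : Set (List α)) (hC : UParse C)
    (h : ∀ v v', HL k (Lg C (fun v X => act v (X.map φ).prod + nu X) v v')) (s : S) :
    HL k ({w | w ∈ Str C ∧ (w.map φ).prod = s} : Language α) := by
  set T : V → List α → V := fun v X => act v (X.map φ).prod + nu X with hT
  have key := HL.iInter (k := k) (ι := V) (L := fun v =>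
    ({w | ∃ c : V, w ∈ (Lg C T 0 c ⊓ Lg C T v (act v s + c) : Language α)} : Language α))
    (fun v => HL.iUnion (k := k) (ι := V) (fun c => (h 0 c).inf (h v (act v s + c))))
  refine key.congr fun w => ?_
  constructor
  · rintro ⟨⟨l, hl, rfl⟩, hs⟩ v
    refine ⟨l.foldl T 0, ⟨l, hl, rfl, rfl⟩, ⟨l, hl, rfl, ?_⟩⟩
    have := foldl_affine act hadd hone hmul φ nu l v 0
    rw [add_zero] at this
    rw [hT, this, hs]
  · intro hw
    obtain ⟨c0, ⟨l0, hl0, e0, _⟩, _⟩ := hw 0
    refine ⟨⟨l0, hl0, e0⟩, hfaith _ _ fun v => ?_⟩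
    obtain ⟨c, ⟨l, hl, e, f⟩, ⟨m, hm, e', f'⟩⟩ := hw v
    have hlm : l = m := hC l m hl hm (e.trans e'.symm)
    subst hlm
    have := foldl_affine act hadd hone hmul φ nu l v 0
    rw [add_zero, e] at this
    rw [hT] at f f'
    rw [f, f'] at this
    exact (add_right_cancel this).symm


/-- the faithful module `S → ZMod 2` of a finite monoid -/
theorem exists_module (S : Type u) [Monoid S] [Finite S] :
    ∃ (act : (S → ZMod 2) → S → (S → ZMod 2)),
      (∀ a b s, act (a + b) s = act a s + act b s) ∧ (∀ v, act v 1 = v) ∧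
      (∀ v s t, act v (s * t) = act (act v s) t) ∧
      (∀ s t, (∀ v, act v s = act v t) → s = t) := by
  classical
  haveI := Fintype.ofFinite S
  refine ⟨fun v s t => ∑ x : S, if x * s = t then v x else 0, ?_, ?_, ?_, ?_⟩
  · intro a b s
    funext t
    simp only [Pi.add_apply]
    rw [← Finset.sum_add_distrib]
    refine Finset.sum_congr rfl fun x _ => ?_
    split_ifs <;> simp
  · intro v
    funext t
    simp
  · intro v s t
    funext r
    simp only
    have h1 : ∀ y : S, (if y * t = r then ∑ x : S, (if x * s = y then v x else 0) else 0) =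
        ∑ x : S, (if x * s = y ∧ y * t = r then v x else 0) := by
      intro y
      by_cases h : y * t = r
      · simp [h]
      · simp [h]
    simp only [h1]
    rw [Finset.sum_comm]
    refine Finset.sum_congr rfl fun x _ => ?_
    rw [Finset.sum_eq_single (x * s)]
    · simp [mul_assoc]
    · intro y _ hy
      rw [if_neg]
      rintro ⟨h, _⟩
      exact hy h.symm
    · simp
  · intro s t h
    have h1 := congrFun (h (fun x => if x = 1 then 1 else 0)) s
    simp only at h1
    rw [Finset.sum_eq_single (1 : S), Finset.sum_eq_single (1 : S)] at h1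
    · by_contra hne
      simp only [one_mul, if_true] at h1
      rw [if_neg (fun e => hne e.symm)] at h1
      exact one_ne_zero h1
    · intro y _ hy
      simp [hy]
    · simp
    · intro y _ hy
      simp [hy]
    · simp





theorem exists_parse {C : Set (List α)} (h0 : [] ∉ C) (w : List α) :
    ∃ M E : List α, M ++ E = w ∧ M ∈ Str C ∧ ∀ X ∈ C, ¬ X <+: E := by
  induction hn : w.length using Nat.strong_induction_on generalizing w with
  | _ n ih =>
    by_cases h : ∃ X ∈ C, X <+: w
    · obtain ⟨X, hX, w', rfl⟩ := h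
      have hX0 : X ≠ [] := fun e => h0 (e ▸ hX)
      have hlt : w'.length < n := by
        rw [← hn, List.length_append]
        have := List.length_pos_iff.2 hX0
        omega
      obtain ⟨M, E, e, ⟨l, hl, hM⟩, hE⟩ := ih _ hlt w' rfl
      refine ⟨X ++ M, E, by rw [List.append_assoc, e], ⟨X :: l, ?_, ?_⟩, hE⟩
      · intro Y hY
        rcases List.mem_cons.1 hY with rfl | hY
        · exact hX
        · exact hl Y hY
      · rw [List.flatten_cons, hM]
    · exact ⟨[], w, rfl, ⟨[], by simp, rfl⟩, fun X hX hp => h ⟨X, hX, hp⟩⟩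

/-- **top**: from the block code to all words; what is left is the tail without a block -/
theorem top {C : Set (List α)} (h0 : [] ∉ C) (hC : Solved k C)
    (hT : ∀ (S : Type u) [Monoid S] [Finite S] (φ : α → S) (s : S),
      HL k ({w | (∀ X ∈ C, ¬ X <+: w) ∧ (w.map φ).prod = s} : Language α))
    (S : Type u) [Monoid S] [Finite S] (φ : α → S) (s : S) :
    HL k ({w | (w.map φ).prod = s} : Language α) := by
  let A : S → Language α := fun a => {w | w ∈ Str C ∧ (w.map φ).prod = a}
  let B : S → Language α := fun b => {w | (∀ X ∈ C, ¬ X <+: w) ∧ (w.map φ).prod = b}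
  refine (HL.biUnion (k := k) (Set.toFinite {p : S × S | p.1 * p.2 = s})
    (L := fun p => A p.1 * B p.2)
    (fun p _ => HL.mul (L := A p.1) (M := B p.2) (hC S φ p.1) (hT S φ p.2))).congr fun w => ?_
  constructor
  · intro hw
    obtain ⟨M, E, rfl, hM, hE⟩ := exists_parse h0 w
    refine ⟨((M.map φ).prod, (E.map φ).prod), ?_, ?_⟩
    · have hw' : ((M ++ E).map φ).prod = s := hw
      rw [List.map_append, List.prod_append] at hw'
      exact hw'
    · exact Language.mem_mul.2 ⟨M, ⟨hM, rfl⟩, E, ⟨hE, rfl⟩, rfl⟩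
  · rintro ⟨p, hp, hw⟩
    obtain ⟨M, ⟨_, hM⟩, E, ⟨_, hE⟩, rfl⟩ := Language.mem_mul.1 hw
    change ((M ++ E).map φ).prod = s
    rw [List.map_append, List.prod_append, hM, hE]
    exact hp

end Crest.Agent.R320.Blk467
end

-- ▼ part R320/SemTop_727
section

set_option autoImplicit false

/-!
# Row 320, top in semantic form (helper727)

A prefix code `XX` of blocks, a zone map `T : V → List α → V` (arbitrary), two families of finite
sets of left words `L1`, `L2`.  All right words are DEFINED semantically, so soundness costs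
nothing; what remains is the completeness `hC2` of scheme 2 on two consecutive bad blocks.
`HL k` of the fibres `{X ∈ XX | T x X = y}` gives `HL (k + 2)` for the thread languages of `XX*`.
-/

namespace Crest.Agent.R320.SemTop_727

open Crest.RegLang Crest.Agent.R320.Hk_851 Crest.Agent.R320.Blk467

universe u v

variable {α : Type u} {V : Type v} {k : ℕ}

/-- a set of words as a language -/
def toL (s : Set (List α)) : Language α := s

/-- the data of the two schemes -/
structure Sch (α : Type u) (V : Type v) where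
  XX : Set (List α)
  T : V → List α → V
  L1 : V → Set (List α)
  L2 : V → Set (List α)

namespace Sch

variable (D : Sch α V)

/-- right-legal words of scheme 1 with label `y` -/
def R1 (y : V) : Language α := {Q | ∀ x, ∀ P ∈ D.L1 x, P ++ Q ∈ D.XX ∧ D.T x (P ++ Q) = y}

/-- blocks in which scheme 1 cuts every token -/
def Good : Set (List α) :=
  {X | X ∈ D.XX ∧ ∀ x, ∃ P ∈ D.L1 x, ∃ Q ∈ D.R1 (D.T x X), P ++ Q = X}

def Bad : Set (List α) := {X | X ∈ D.XX ∧ X ∉ D.Good}

/-- right-legal words of scheme 2 with label `y` -/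
def R2 (y : V) : Language α := {Q | ∀ x, ∀ P ∈ D.L2 x,
  (∃ X1 ∈ D.Bad, ∃ X2 ∈ D.Bad, P ++ Q = X1 ++ X2 ∧ D.T (D.T x X1) X2 = y) ∨
  (∃ X ∈ D.Good, X <+: P ++ Q) ∨ (∃ X1 ∈ D.Bad, ∃ X2 ∈ D.Good, X1 ++ X2 <+: P ++ Q)}

def fib (x y : V) : Language α := {X | X ∈ D.XX ∧ D.T x X = y}

def E1 (x y : V) : Language α := {w | (w = [] ∧ x = y) ∨ (w ∈ D.Bad ∧ D.T x w = y)}

def K2 : Language α := {w | ∃ v, ∃ Q ∈ D.R2 v, ∃ P ∈ D.L2 v, Q ++ P = w}

section HL

variable [Finite V] [Nonempty V] (hfib : ∀ x y, HL k (D.fib x y))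
include hfib

theorem HL_XX : HL k (toL (D.XX)) := by
  obtain ⟨x⟩ := ‹Nonempty V›
  refine (HL.iUnion (k := k) (ι := V) (L := fun y => D.fib x y) (hfib x)).congr fun w => ?_
  constructor
  · intro h
    exact ⟨D.T x w, h, rfl⟩
  · rintro ⟨y, h, _⟩
    exact h

theorem HL_R1 (hL : ∀ x, (D.L1 x).Finite) (y : V) : HL k (D.R1 y) := by
  refine (HL.iInter (k := k) (ι := V) (L := fun x => ({Q | ∀ P ∈ D.L1 x, Q ∈
    ({Q | P ++ Q ∈ D.fib x y} : Language α)} : Language α)) (fun x =>
      HL.biInter (hL x) fun P _ => HL.lquot P (hfib x y))).congr fun w => ?_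
  exact Iff.rfl

theorem HL_Good (hL : ∀ x, (D.L1 x).Finite) : HL k (toL (D.Good)) := by
  have h := (HL_XX D hfib).inf (HL.iInter (k := k) (ι := V)
    (L := fun x => ({w | ∃ y : V, w ∈ (D.fib x y ⊓ ((toL (D.L1 x)) * D.R1 y) :
      Language α)} : Language α))
    (fun x => HL.iUnion (k := k) (ι := V) (fun y =>
      (hfib x y).inf (HL.mul (HL.finite (hL x)) (D.HL_R1 hfib hL y)))))
  refine h.congr fun w => ?_
  constructor
  · rintro ⟨h1, h2⟩
    refine ⟨h1, fun x => ?_⟩
    obtain ⟨P, hP, Q, hQ, e⟩ := h2 x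
    exact ⟨D.T x w, ⟨h1, rfl⟩, Language.mem_mul.2 ⟨P, hP, Q, hQ, e⟩⟩
  · rintro ⟨h1, h2⟩
    refine ⟨h1, fun x => ?_⟩
    obtain ⟨y, ⟨_, hy⟩, hm⟩ := h2 x
    obtain ⟨P, hP, Q, hQ, e⟩ := Language.mem_mul.1 hm
    exact ⟨P, hP, Q, by rw [show D.T x w = y from hy]; exact hQ, e⟩

theorem HL_Bad (hL : ∀ x, (D.L1 x).Finite) : HL k (toL (D.Bad)) :=
  (D.HL_XX hfib).sdiff (D.HL_Good hfib hL)

theorem HL_bfib (hL : ∀ x, (D.L1 x).Finite) (x y : V) :
    HL k ({w | w ∈ D.Bad ∧ D.T x w = y} : Language α) := by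
  refine ((D.HL_Bad hfib hL).inf (hfib x y)).congr fun w => ?_
  constructor
  · rintro ⟨h1, h2⟩
    exact ⟨h1, h1.1, h2⟩
  · rintro ⟨h1, h2⟩
    exact ⟨h1, h2.2⟩

theorem HL_R2 (hL : ∀ x, (D.L1 x).Finite) (hL2 : ∀ x, (D.L2 x).Finite) (y : V) :
    HL k (D.R2 y) := by
  have hA : ∀ x, HL k (toL {w | ∃ u : V, w ∈ (toL {w | w ∈ D.Bad ∧ D.T x w = u}) *
      (toL {w | w ∈ D.Bad ∧ D.T u w = y})}) := fun x =>
    HL.iUnion (k := k) (ι := V) fun u => (D.HL_bfib hfib hL x u).mul (D.HL_bfib hfib hL u y)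
  have hB := (D.HL_Good hfib hL).prefix
  have hC := ((D.HL_Bad hfib hL).mul (D.HL_Good hfib hL)).prefix
  refine (HL.iInter (k := k) (ι := V) (L := fun x => ({Q | ∀ P ∈ D.L2 x, Q ∈
    ({Q | P ++ Q ∈ (toL {w | ∃ u : V, w ∈ (toL {w | w ∈ D.Bad ∧ D.T x w = u}) *
      (toL {w | w ∈ D.Bad ∧ D.T u w = y})} +
      (toL {w | ∃ v ∈ (toL (D.Good)), v <+: w} +
      toL {w | ∃ v ∈ ((toL (D.Bad)) * (toL (D.Good))), v <+: w}))} : Language α)} : Language α)) (fun x =>
      HL.biInter (hL2 x) fun P _ => HL.lquot P ((hA x).add (hB.add hC)))).congr fun w => ?_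
  refine forall_congr' fun x => forall_congr' fun P => forall_congr' fun hP => ?_
  constructor
  · rintro (⟨X1, h1, X2, h2, e, h3⟩ | ⟨X, hX, hp⟩ | ⟨X1, h1, X2, h2, hp⟩)
    · exact Or.inl ⟨D.T x X1, Language.mem_mul.2 ⟨X1, ⟨h1, rfl⟩, X2, ⟨h2, h3⟩, e.symm⟩⟩
    · exact Or.inr (Or.inl ⟨X, hX, hp⟩)
    · exact Or.inr (Or.inr ⟨X1 ++ X2, Language.mem_mul.2 ⟨X1, h1, X2, h2, rfl⟩, hp⟩)
  · rintro (⟨u, h⟩ | ⟨X, hX, hp⟩ | ⟨X, hX, hp⟩)
    · obtain ⟨X1, ⟨h1, h1'⟩, X2, ⟨h2, h2'⟩, e⟩ := Language.mem_mul.1 h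
      refine Or.inl ⟨X1, h1, X2, h2, e.symm, ?_⟩
      rw [show D.T x X1 = u from h1']
      exact h2'
    · exact Or.inr (Or.inl ⟨X, hX, hp⟩)
    · obtain ⟨X1, h1, X2, h2, e⟩ := Language.mem_mul.1 hX
      exact Or.inr (Or.inr ⟨X1, h1, X2, h2, by rw [e]; exact hp⟩)

theorem HL_E1 (hL : ∀ x, (D.L1 x).Finite) (x y : V) : HL k (D.E1 x y) := by
  have h0 : HL k ({w | w = [] ∧ x = y} : Language α) :=
    HL.setOf_and (HL.one (k := k)) (HL.const (k := k) (x = y))
  exact HL.setOf_or h0 (D.HL_bfib hfib hL x y)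

theorem HL_K2 (hL : ∀ x, (D.L1 x).Finite) (hL2 : ∀ x, (D.L2 x).Finite) : HL k D.K2 := by
  refine (HL.iUnion (k := k) (ι := V) (L := fun v => D.R2 v * (toL (D.L2 v)))
    (fun v => (D.HL_R2 hfib hL hL2 v).mul (HL.finite (hL2 v)))).congr fun w => ?_
  constructor
  · rintro ⟨v, Q, hQ, P, hP, e⟩
    exact ⟨v, Language.mem_mul.2 ⟨Q, hQ, P, hP, e⟩⟩
  · rintro ⟨v, h⟩
    obtain ⟨Q, hQ, P, hP, e⟩ := Language.mem_mul.1 h
    exact ⟨v, Q, hQ, P, hP, e⟩

end HL

/-! ## the promise scheme -/

theorem cancel {D : Sch α V} (hC : PCode D.XX) {X w : List α} (hX : X ∈ D.Bad)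
    (h : X ++ w ∈ Str D.Bad) : w ∈ Str D.Bad := by
  obtain ⟨l, hl, e⟩ := h
  cases l with
  | nil =>
    exfalso
    have : X = [] := (List.append_eq_nil_iff.1 e.symm).1
    exact hC.1 (this ▸ hX.1)
  | cons Y l =>
    rw [List.flatten_cons] at e
    have hY := hl Y (by simp)
    have hXY : X = Y := by
      rcases List.prefix_or_prefix_of_prefix (l₁ := X) (l₂ := Y) (l₃ := X ++ w)
        (List.prefix_append _ _) (e ▸ List.prefix_append _ _) with h1 | h1
      · exact hC.2 X hX.1 Y hY.1 h1
      · exact (hC.2 Y hY.1 X hX.1 h1).symm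
    subst hXY
    exact ⟨l, fun Z hZ => hl Z (by simp [hZ]), List.append_cancel_left e⟩

theorem no_good {D : Sch α V} (hC : PCode D.XX) {X w : List α} (hX : X ∈ D.Good)
    (hp : X <+: w) (h : w ∈ Str D.Bad) : False := by
  obtain ⟨l, hl, e⟩ := h
  cases l with
  | nil =>
    have h1 : w = [] := e.symm
    rw [h1] at hp
    have : X = [] := List.prefix_nil.1 hp
    exact hC.1 (this ▸ hX.1)
  | cons Y l =>
    rw [List.flatten_cons] at e
    have hY := hl Y (by simp)
    have hXY : X = Y := by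
      rcases List.prefix_or_prefix_of_prefix (l₁ := X) (l₂ := Y) (l₃ := w)
        hp (e ▸ List.prefix_append _ _) with h1 | h1
      · exact hC.2 X hX.1 Y hY.1 h1
      · exact (hC.2 Y hY.1 X hX.1 h1).symm
    exact hY.2 (hXY ▸ hX)

/-- a junction of scheme 2 inside a product of bad blocks -/
theorem junction2 {D : Sch α V} (hC : PCode D.XX) {x y : V} {P Q w : List α} (hP : P ∈ D.L2 x)
    (hQ : Q ∈ D.R2 y) (h : P ++ Q ++ w ∈ Str D.Bad) :
    P ++ Q ∈ Lg D.Bad D.T x y ∧ w ∈ Str D.Bad := by
  rcases hQ x P hP with ⟨X1, h1, X2, h2, e, h3⟩ | ⟨X, hX, hp⟩ | ⟨X1, h1, X2, h2, hp⟩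
  · refine ⟨⟨[X1, X2], ?_, by simp [e], h3⟩, ?_⟩
    · intro X hX
      rcases List.mem_cons.1 hX with rfl | hX
      · exact h1
      · rw [List.mem_singleton.1 hX]; exact h2
    · rw [e, List.append_assoc] at h
      exact cancel hC h2 (cancel hC h1 h)
  · exact (no_good hC hX (hp.trans (List.prefix_append _ _)) h).elim
  · exfalso
    obtain ⟨r, hr⟩ := hp
    rw [← hr, List.append_assoc, List.append_assoc] at h
    exact no_good hC h2 (List.prefix_append _ _) (cancel hC h1 h)

theorem E1_sound {D : Sch α V} {x y : V} {w : List α} (h : w ∈ D.E1 x y) :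
    w ∈ Lg D.Bad D.T x y := by
  rcases h with ⟨rfl, rfl⟩ | ⟨h1, rfl⟩
  · exact Lg.nil _ _ _
  · exact Lg.single h1 x

theorem lg_bad (hC : PCode D.XX) [Finite V]
    (hfib : ∀ x y, HL k (D.fib x y)) (hL1 : ∀ x, (D.L1 x).Finite) (hL2 : ∀ x, (D.L2 x).Finite)
    (hC2 : ∀ X1 ∈ D.Bad, ∀ X2 ∈ D.Bad, ∀ x, ∃ P ∈ D.L2 x, ∃ Q ∈ D.R2 (D.T (D.T x X1) X2),
      P ++ Q = X1 ++ X2) (x y : V) : HL (k + 1) (Lg D.Bad D.T x y) := by
  haveI : Nonempty V := ⟨x⟩
  have hS : HL (k + 1) (KStar.kstar (toL (D.Bad))) := (D.HL_Bad hfib hL1).star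
  have hK : HL (k + 1) (KStar.kstar D.K2) := (D.HL_K2 hfib hL1 hL2).star
  have hB : HL (k + 1) ({z | ∃ v : V, z ∈ D.R2 v * D.E1 v y} : Language α) :=
    HL.mono (Nat.le_succ k) (HL.iUnion (k := k) (ι := V)
      (L := fun v => D.R2 v * D.E1 v y)
      (fun v => (D.HL_R2 hfib hL1 hL2 v).mul (D.HL_E1 hfib hL1 v y)))
  have hP : HL (k + 1) (toL (D.L2 x)) := HL.finite (hL2 x)
  refine (hS.inf (((D.HL_E1 hfib hL1 x y).mono (Nat.le_succ k)).add
    ((hP.mul hK).mul hB))).congr fun w => ?_
  constructor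
  · rintro ⟨l, hl, rfl, hf⟩
    refine ⟨Language.mem_kstar.2 ⟨l, rfl, hl⟩, ?_⟩
    have main : ∀ (n : ℕ) (l : List (List α)) (x : V), l.length ≤ n → (∀ X ∈ l, X ∈ D.Bad) →
        l.foldl D.T x = y → l.flatten ∈ D.E1 x y ∨ ∃ P ∈ D.L2 x, ∃ ks : List (List α),
          (∀ z ∈ ks, z ∈ D.K2) ∧ ∃ v : V, ∃ Q ∈ D.R2 v, ∃ E ∈ D.E1 v y,
            P ++ ks.flatten ++ (Q ++ E) = l.flatten := by
      intro n
      induction n with
      | zero =>
        intro l x hn _ hf
        have : l = [] := List.length_eq_zero_iff.1 (Nat.le_zero.1 hn)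
        subst this
        exact Or.inl (Or.inl ⟨rfl, hf⟩)
      | succ n ih =>
        intro l x hn hl hf
        match l, hn, hl, hf with
        | [], _, _, hf => exact Or.inl (Or.inl ⟨rfl, hf⟩)
        | [X], _, hl, hf => exact Or.inl (Or.inr ⟨by simpa using hl X (by simp), by simpa using hf⟩)
        | X1 :: X2 :: l, hn, hl, hf =>
          right
          obtain ⟨P, hP, Q, hQ, e⟩ := hC2 X1 (hl X1 (by simp)) X2 (hl X2 (by simp)) x
          have hn' : l.length ≤ n := by
            simp only [List.length_cons] at hn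
            omega
          rcases ih l (D.T (D.T x X1) X2) hn' (fun X hX => hl X (by simp [hX])) hf with
            h | ⟨P', hP', ks, hks, v, Q', hQ', E, hE, e'⟩
          · refine ⟨P, hP, [], by simp, _, Q, hQ, _, h, ?_⟩
            have : P ++ ([] : List (List α)).flatten ++ (Q ++ l.flatten) = (P ++ Q) ++ l.flatten := by
              simp
            rw [this, e]
            simp
          · refine ⟨P, hP, (Q ++ P') :: ks, ?_, v, Q', hQ', E, hE, ?_⟩
            · intro z hz
              rcases List.mem_cons.1 hz with rfl | hz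
              · exact ⟨_, Q, hQ, P', hP', rfl⟩
              · exact hks z hz
            · have : P ++ ((Q ++ P') :: ks).flatten ++ (Q' ++ E) =
                  (P ++ Q) ++ (P' ++ ks.flatten ++ (Q' ++ E)) := by
                simp [List.append_assoc]
              rw [this, e, e']
              simp
    rcases main l.length l x le_rfl hl hf with h | ⟨P, hP, ks, hks, v, Q, hQ, E, hE, e⟩
    · exact Or.inl h
    · right
      exact mem_mul3.2 ⟨P, hP, ks.flatten, Language.mem_kstar.2 ⟨ks, rfl, hks⟩, Q ++ E,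
        ⟨v, Language.mem_mul.2 ⟨Q, hQ, E, hE, rfl⟩⟩, e⟩
  · rintro ⟨hw1, hw2⟩
    obtain ⟨l, hl, hl2⟩ := Language.mem_kstar.1 hw1
    have hw : w ∈ Str D.Bad := ⟨l, hl2, hl.symm⟩
    rcases hw2 with h | h
    · exact E1_sound h
    · obtain ⟨P, hP, m, hm, z, hz, rfl⟩ := mem_mul3.1 h
      obtain ⟨ks, rfl, hks⟩ := Language.mem_kstar.1 hm
      obtain ⟨v, hv⟩ := hz
      obtain ⟨Q, hQ, E, hE, rfl⟩ := Language.mem_mul.1 hv
      clear hw1 h hm hl hl2 hv
      have main : ∀ (ks : List (List α)) (x : V) (P : List α), P ∈ D.L2 x →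
          (∀ z ∈ ks, z ∈ D.K2) → P ++ ks.flatten ++ (Q ++ E) ∈ Str D.Bad →
          P ++ ks.flatten ++ (Q ++ E) ∈ Lg D.Bad D.T x y := by
        intro ks
        induction ks with
        | nil =>
          intro x P hP _ hS
          have e1 : P ++ ([] : List (List α)).flatten ++ (Q ++ E) = P ++ Q ++ E := by simp
          rw [e1] at hS ⊢
          exact Lg.append (junction2 hC hP hQ hS).1 (E1_sound hE)
        | cons z ks ih =>
          intro x P hP hks hS
          obtain ⟨u, Q1, hQ1, P1, hP1, rfl⟩ := hks z (by simp)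
          have e1 : P ++ ((Q1 ++ P1) :: ks).flatten ++ (Q ++ E) =
              P ++ Q1 ++ (P1 ++ ks.flatten ++ (Q ++ E)) := by
            simp [List.append_assoc]
          rw [e1] at hS ⊢
          obtain ⟨h1, h2⟩ := junction2 hC hP hQ1 hS
          exact Lg.append h1 (ih u P1 hP1 (fun z hz => hks z (by simp [hz])) h2)
      exact main ks x P hP hks hw

/-- **TOP, thread form**: everything about two wall schemes except the two completeness
statements (`Good` is defined by the completeness of scheme 1). -/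
theorem lg_XX (hC : PCode D.XX) [Finite V]
    (hfib : ∀ x y, HL k (D.fib x y)) (hL1 : ∀ x, (D.L1 x).Finite) (hL2 : ∀ x, (D.L2 x).Finite)
    (hC2 : ∀ X1 ∈ D.Bad, ∀ X2 ∈ D.Bad, ∀ x, ∃ P ∈ D.L2 x, ∃ Q ∈ D.R2 (D.T (D.T x X1) X2),
      P ++ Q = X1 ++ X2) (x y : V) : HL (k + 2) (Lg D.XX D.T x y) := by
  haveI : Nonempty V := ⟨x⟩
  refine star_step (k := k + 1) D.XX D.Bad D.T (fun v => (toL (D.L1 v))) (fun v => D.R1 v)
    (fun X hX => hX.1) ?_ ?_ ?_ (fun v => HL.finite (hL1 v))
    (fun v => (D.HL_R1 hfib hL1 v).mono (Nat.le_succ k)) x y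
  · intro v v' P Q hP hQ
    obtain ⟨h1, h2⟩ := hQ v P hP
    rw [← h2]
    exact Lg.single h1 v
  · intro X hX hB v
    have hG : X ∈ D.Good := by
      by_contra h
      exact hB ⟨hX, h⟩
    obtain ⟨P, hP, Q, hQ, e⟩ := hG.2 v
    exact ⟨P, Q, e, hP, hQ⟩
  · intro v v'
    exact D.lg_bad hC hfib hL1 hL2 hC2 v v'

end Sch

/-- **TOP**: all words. -/
theorem top {S : Type*} [Monoid S] [Finite S] {V : Type v} [AddCommGroup V] [Finite V]
    (act : V → S → V) (hadd : ∀ a b s, act (a + b) s = act a s + act b s)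
    (hone : ∀ v, act v 1 = v) (hmul : ∀ v s t, act v (s * t) = act (act v s) t)
    (hfaith : ∀ s t, (∀ v, act v s = act v t) → s = t) (φ : α → S) (nu : List α → V)
    (D : Sch α V) (hT : ∀ v X, D.T v X = act v (X.map φ).prod + nu X) (hC : PCode D.XX)
    (hfib : ∀ x y, HL k (D.fib x y)) (hL1 : ∀ x, (D.L1 x).Finite) (hL2 : ∀ x, (D.L2 x).Finite)
    (hC2 : ∀ X1 ∈ D.Bad, ∀ X2 ∈ D.Bad, ∀ x, ∃ P ∈ D.L2 x, ∃ Q ∈ D.R2 (D.T (D.T x X1) X2),
      P ++ Q = X1 ++ X2)
    (htail : ∀ s, HL (k + 2) ({w | (∀ X ∈ D.XX, ¬ X <+: w) ∧ (w.map φ).prod = s} : Language α))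
    (s : S) : HL (k + 2) ({w | (w.map φ).prod = s} : Language α) := by
  have hT' : D.T = fun v X => act v (X.map φ).prod + nu X := funext fun v => funext fun X => hT v X
  have hA : ∀ a, HL (k + 2) ({w | w ∈ Str D.XX ∧ (w.map φ).prod = a} : Language α) := fun a => by
    refine fibre_of_threads act hadd hone hmul hfaith φ nu D.XX hC.uparse ?_ a
    rw [← hT']
    exact fun v v' => D.lg_XX hC hfib hL1 hL2 hC2 v v'
  let A : S → Language α := fun a => {w | w ∈ Str D.XX ∧ (w.map φ).prod = a}
  let B : S → Language α := fun b => {w | (∀ X ∈ D.XX, ¬ X <+: w) ∧ (w.map φ).prod = b}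
  refine (HL.biUnion (k := k + 2) (Set.toFinite {p : S × S | p.1 * p.2 = s})
    (L := fun p => A p.1 * B p.2)
    (fun p _ => HL.mul (L := A p.1) (M := B p.2) (hA p.1) (htail p.2))).congr fun w => ?_
  constructor
  · intro hw
    obtain ⟨M, E, rfl, hM, hE⟩ := exists_parse hC.1 w
    refine ⟨((M.map φ).prod, (E.map φ).prod), ?_, ?_⟩
    · have hw' : ((M ++ E).map φ).prod = s := hw
      rw [List.map_append, List.prod_append] at hw'
      exact hw'
    · exact Language.mem_mul.2 ⟨M, ⟨hM, rfl⟩, E, ⟨hE, rfl⟩, rfl⟩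
  · rintro ⟨p, hp, hw⟩
    obtain ⟨M, ⟨_, hM⟩, E, ⟨_, hE⟩, rfl⟩ := Language.mem_mul.1 hw
    change ((M ++ E).map φ).prod = s
    rw [List.map_append, List.prod_append, hM, hE]
    exact hp

end Crest.Agent.R320.SemTop_727
end

-- ▼ part R320/GoodF_137
section

/-!
Row 320, finite union bound ("random noise") lemma, used by the exact gadget (237 #12538),
by 811 #12631 / 755 #12640 and by 823 #12619.
-/

set_option autoImplicit false

namespace Crest.Agent.R320.GoodF_137

open Finset

section
variable {X V E : Type*} [Fintype X] [DecidableEq X] [Fintype V] [DecidableEq V]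

/-- overwrite `F` on `P` by `g` -/
def ow (P : Finset X) (F g : X → V) : X → V := fun x => if x ∈ P then g x else F x

/-- success of a demand -/
def Suc (x0 : X) (P : Finset X) (dem : V → X → V) (F : X → V) : Prop :=
  ∀ x ∈ P, F x = dem (F x0) x

instance (x0 : X) (P : Finset X) (dem : V → X → V) : DecidablePred (Suc x0 P dem) := by
  intro F; unfold Suc; infer_instance

theorem step (x0 : X) (P : Finset X) (hx0 : x0 ∉ P) (dem : V → X → V)
    (B : Finset (X → V)) (hB : ∀ F ∈ B, ow P F (dem (F x0)) ∈ B) :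
    B.card ≤ (Fintype.card V) ^ P.card * (B.filter (Suc x0 P dem)).card := by
  classical
  set T := B.filter (Suc x0 P dem) with hT
  have hmap : ∀ F ∈ B, ow P F (dem (F x0)) ∈ T := by
    intro F hF
    rw [hT, mem_filter]
    refine ⟨hB F hF, ?_⟩
    intro x hx
    simp [ow, hx, hx0]
  have key : B.card ≤ (T ×ˢ (univ : Finset (P → V))).card := by
    refine Finset.card_le_card_of_injOn
      (fun F => (ow P F (dem (F x0)), fun x : P => F x.1)) ?_ ?_
    · intro F hF
      have := hmap F hF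
      exact Finset.mem_coe.2 (Finset.mem_product.2 ⟨this, mem_univ _⟩)
    · intro F _ F' _ h
      simp only [Prod.mk.injEq] at h
      obtain ⟨h1, h2⟩ := h
      funext x
      by_cases hx : x ∈ P
      · exact congrFun h2 ⟨x, hx⟩
      · have := congrFun h1 x
        simpa [ow, hx] using this
  refine key.trans (le_of_eq ?_)
  rw [Finset.card_product, Finset.card_univ, Fintype.card_fun,
    Fintype.card_coe, mul_comm]

/-- the functions which fail for every phase `i < m`. -/
def fail (x0 : X) (P : ℕ → Finset X) (dem : ℕ → V → X → V) (m : ℕ) : Finset (X → V) :=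
  univ.filter (fun F => ∀ i < m, ¬ Suc x0 (P i) (dem i) F)

theorem fail_card [Nonempty V] (x0 : X) (C : ℕ) (P : ℕ → Finset X) (dem : ℕ → V → X → V) (m : ℕ)
    (hx0 : ∀ i < m, x0 ∉ P i) (hC : ∀ i < m, (P i).card ≤ C)
    (hd : ∀ i < m, ∀ j < m, i ≠ j → Disjoint (P i) (P j)) :
    (fail x0 P dem m).card * ((Fintype.card V) ^ C) ^ m
      ≤ (Fintype.card (X → V)) * ((Fintype.card V) ^ C - 1) ^ m := by
  classical
  induction m with
  | zero =>
    simp only [pow_zero, mul_one]
    exact Finset.card_le_univ (fail x0 P dem 0)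
  | succ m ih =>
    have ih' := ih (fun i hi => hx0 i (by omega)) (fun i hi => hC i (by omega))
      (fun i hi j hj => hd i (by omega) j (by omega))
    set q := (Fintype.card V) ^ C with hq
    set B := fail x0 P dem m with hBdef
    have hV : 0 < Fintype.card V := Fintype.card_pos
    have hq1 : 1 ≤ q := Nat.one_le_pow _ _ hV
    have hstep : B.card ≤ (Fintype.card V) ^ (P m).card * (B.filter (Suc x0 (P m) (dem m))).card := by
      refine step x0 (P m) (hx0 m (by omega)) (dem m) B ?_
      intro F hF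
      rw [hBdef, fail, mem_filter] at hF ⊢
      refine ⟨mem_univ _, ?_⟩
      intro i hi hs
      refine hF.2 i hi ?_
      intro x hx
      have h0 : x0 ∉ P m := hx0 m (by omega)
      have hxm : x ∉ P m := by
        have := hd i (by omega) m (by omega) (by omega)
        exact Finset.disjoint_left.1 this hx
      have := hs x hx
      simpa [ow, h0, hxm] using this
    have hle : (Fintype.card V) ^ (P m).card ≤ q := Nat.pow_le_pow_right hV (hC m (by omega))
    have h1 : B.card ≤ q * (B.filter (Suc x0 (P m) (dem m))).card :=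
      hstep.trans (Nat.mul_le_mul_right _ hle)
    have hsplit : (B.filter (Suc x0 (P m) (dem m))).card
        + (B.filter (fun F => ¬ Suc x0 (P m) (dem m) F)).card = B.card :=
      Finset.card_filter_add_card_filter_not _
    have hnew : fail x0 P dem (m + 1) = B.filter (fun F => ¬ Suc x0 (P m) (dem m) F) := by
      ext F
      simp only [fail, hBdef, mem_filter, mem_univ, true_and]
      constructor
      · intro h
        exact ⟨fun i hi => h i (by omega), h m (by omega)⟩
      · rintro ⟨h, h'⟩ i hi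
        rcases Nat.lt_succ_iff_lt_or_eq.1 hi with h2 | h2
        · exact h i h2
        · subst h2; exact h'
    rw [hnew]
    set a := (B.filter (Suc x0 (P m) (dem m))).card
    set b := (B.filter (fun F => ¬ Suc x0 (P m) (dem m) F)).card
    have hb : b * q ≤ B.card * (q - 1) := by
      obtain ⟨r, hr⟩ : ∃ r, q = r + 1 := ⟨q - 1, by omega⟩
      rw [hr] at h1 ⊢
      simp only [Nat.add_sub_cancel]
      nlinarith [hsplit, h1]
    calc b * q ^ (m + 1) = (b * q) * q ^ m := by ring
      _ ≤ (B.card * (q - 1)) * q ^ m := Nat.mul_le_mul_right _ hb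
      _ = (B.card * q ^ m) * (q - 1) := by ring
      _ ≤ (Fintype.card (X → V) * (q - 1) ^ m) * (q - 1) := Nat.mul_le_mul_right _ ih'
      _ = Fintype.card (X → V) * (q - 1) ^ (m + 1) := by ring

/-- **Union bound.**  Index set `E`; for each `e` a base point `x0 e` and `m` phases with pairwise
disjoint point sets `P e i` (of size `≤ C`, not containing the base point) and demanded values
`dem e i (F (x0 e)) x`.  If `|E| (|V|^C - 1)^m < (|V|^C)^m` some `F` satisfies for every `e` all
demands of some phase. -/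
theorem exists_good [Nonempty V] [Fintype E] (x0 : E → X) (C m : ℕ) (P : E → ℕ → Finset X)
    (dem : E → ℕ → V → X → V)
    (hx0 : ∀ e, ∀ i < m, x0 e ∉ P e i) (hC : ∀ e, ∀ i < m, (P e i).card ≤ C)
    (hd : ∀ e, ∀ i < m, ∀ j < m, i ≠ j → Disjoint (P e i) (P e j))
    (hm : Fintype.card E * ((Fintype.card V) ^ C - 1) ^ m < ((Fintype.card V) ^ C) ^ m) :
    ∃ F : X → V, ∀ e, ∃ i < m, ∀ x ∈ P e i, F x = dem e i (F (x0 e)) x := by
  classical
  by_contra hcon
  push Not at hcon
  have hcov : (univ : Finset (X → V)) ⊆ (univ : Finset E).biUnion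
      (fun e => fail (x0 e) (P e) (dem e) m) := by
    intro F _
    obtain ⟨e, he⟩ := hcon F
    rw [mem_biUnion]
    refine ⟨e, mem_univ _, ?_⟩
    rw [fail, mem_filter]
    refine ⟨mem_univ _, ?_⟩
    intro i hi hs
    obtain ⟨x, hx, hne⟩ := he i hi
    exact hne (hs x hx)
  have h1 : Fintype.card (X → V) ≤ ∑ e : E, (fail (x0 e) (P e) (dem e) m).card := by
    rw [← Finset.card_univ]
    exact (Finset.card_le_card hcov).trans Finset.card_biUnion_le
  set q := (Fintype.card V) ^ C with hq
  have h2 : Fintype.card (X → V) * q ^ m ≤ Fintype.card E * (Fintype.card (X → V) * (q - 1) ^ m) := by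
    calc Fintype.card (X → V) * q ^ m ≤ (∑ e : E, (fail (x0 e) (P e) (dem e) m).card) * q ^ m :=
          Nat.mul_le_mul_right _ h1
      _ = ∑ e : E, (fail (x0 e) (P e) (dem e) m).card * q ^ m := by rw [Finset.sum_mul]
      _ ≤ ∑ _e : E, Fintype.card (X → V) * (q - 1) ^ m := by
          refine Finset.sum_le_sum (fun e _ => ?_)
          exact fail_card (x0 e) C (P e) (dem e) m (hx0 e) (hC e) (hd e)
      _ = Fintype.card E * (Fintype.card (X → V) * (q - 1) ^ m) := by
          rw [Finset.sum_const, Finset.card_univ, smul_eq_mul]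
  have hpos : 0 < Fintype.card (X → V) := by
    rw [Fintype.card_fun]; exact pow_pos Fintype.card_pos _
  have h3 : Fintype.card (X → V) * q ^ m ≤ Fintype.card (X → V) * (Fintype.card E * (q - 1) ^ m) := by
    calc _ ≤ _ := h2
      _ = _ := by ring
  have h4 := Nat.le_of_mul_le_mul_left h3 hpos
  omega

/-- enough phases: for every polynomial bound on `|E|` some `m` works (here: `|E| ≤ A (m+1)^k`). -/
theorem exists_m (q : ℕ) (hq : 1 ≤ q) (A k : ℕ) :
    ∃ m0 : ℕ, ∀ m ≥ m0, A * (m + 1) ^ k * (q - 1) ^ m < q ^ m := by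
  rcases Nat.eq_or_lt_of_le hq with h | h
  · subst h
    refine ⟨1, fun m hm => ?_⟩
    have : (1 - 1 : ℕ) ^ m = 0 := by
      simp only [Nat.sub_self]; exact zero_pow (by omega)
    rw [this]; simp
  · -- ratio r = (q-1)/q < 1
    have hq0 : (0:ℝ) < q := by exact_mod_cast (by omega : 0 < q)
    set r : ℝ := ((q:ℝ) - 1) / q with hr
    have hr0 : 0 ≤ r := by
      apply div_nonneg _ hq0.le
      have : (1:ℝ) ≤ q := by exact_mod_cast hq
      linarith
    have hr1 : r < 1 := by
      rw [hr, div_lt_one hq0]; linarith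
    have hlim : Filter.Tendsto (fun n : ℕ => (n:ℝ) ^ k * r ^ n) Filter.atTop (nhds 0) := by
      exact tendsto_pow_const_mul_const_pow_of_abs_lt_one k (by rw [abs_of_nonneg hr0]; exact hr1)
    have hlim2 : Filter.Tendsto (fun n : ℕ => ((n + 1 : ℕ):ℝ) ^ k * r ^ (n + 1)) Filter.atTop (nhds 0) :=
      hlim.comp (Filter.tendsto_add_atTop_nat 1)
    have hlt : ∀ᶠ n : ℕ in Filter.atTop, ((n + 1 : ℕ):ℝ) ^ k * r ^ (n + 1) < r / (A + 1) := by
      have hpos : 0 < r / ((A:ℝ) + 1) := by
        apply div_pos _ (by positivity)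
        rw [hr]; apply div_pos _ hq0
        have : (1:ℝ) < q := by exact_mod_cast h
        linarith
      exact hlim2.eventually_lt_const hpos
    obtain ⟨m0, hm0⟩ := Filter.eventually_atTop.1 hlt
    refine ⟨m0, fun m hm => ?_⟩
    have h1 := hm0 m hm
    have hrpos : 0 < r := by
      rw [hr]; apply div_pos _ hq0
      have : (1:ℝ) < q := by exact_mod_cast h
      linarith
    have h2 : (A:ℝ) * ((m + 1 : ℕ):ℝ) ^ k * r ^ m < 1 := by
      have hA : (0:ℝ) < (A:ℝ) + 1 := by positivity
      rw [lt_div_iff₀ hA] at h1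
      have h3 : ((m + 1 : ℕ):ℝ) ^ k * r ^ m * (A + 1) < 1 := by
        have : ((m + 1 : ℕ):ℝ) ^ k * r ^ (m + 1) * (A + 1) = (((m + 1 : ℕ):ℝ) ^ k * r ^ m * (A + 1)) * r := by
          ring
        rw [this] at h1
        nlinarith [mul_pos hrpos hrpos]
      have h4 : 0 ≤ ((m + 1 : ℕ):ℝ) ^ k * r ^ m := by positivity
      nlinarith
    have h5 : (A:ℝ) * ((m + 1 : ℕ):ℝ) ^ k * ((q:ℝ) - 1) ^ m < (q:ℝ) ^ m := by
      have hqm : (0:ℝ) < (q:ℝ) ^ m := by positivity
      have : r ^ m = ((q:ℝ) - 1) ^ m / (q:ℝ) ^ m := by rw [hr, div_pow]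
      rw [this] at h2
      have h6 : (A:ℝ) * ((m + 1 : ℕ):ℝ) ^ k * (((q:ℝ) - 1) ^ m / (q:ℝ) ^ m)
          = ((A:ℝ) * ((m + 1 : ℕ):ℝ) ^ k * ((q:ℝ) - 1) ^ m) / (q:ℝ) ^ m := by ring
      rw [h6, div_lt_one hqm] at h2
      exact h2
    have h7 : ((A * (m + 1) ^ k * (q - 1) ^ m : ℕ) : ℝ) < ((q ^ m : ℕ) : ℝ) := by
      push_cast [Nat.cast_sub hq]
      push_cast at h5
      exact h5
    exact_mod_cast h7

end

end Crest.Agent.R320.GoodF_137
end

-- ▼ part R320/ExactR_237
section

/-!
Row 320, item (6) in the form needed by 132 #12664 (5) / 811 #12631 (3):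
the exact gadget (237 #12538) with arbitrary increasing places, redundancy `R` and a tail letter.
-/

set_option autoImplicit false

namespace Crest.Agent.R320.ExactR_237

open Finset

/-! ### weights -/

/-- the weight of content `z` in hole `i` -/
def ew {S : Type} (N : ℕ) (nuS : S → ZMod N) (i : ℕ) (z : S) : ZMod N × ZMod N :=
  (nuS z, (i : ZMod N) * nuS z)

/-- core: random noise with a super-good direction for every point and token. -/
theorem core (S V : Type) [Fintype S] [DecidableEq S] [Nonempty S] [Fintype V] [DecidableEq V]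
    [AddCommGroup V] (act : V → S → V) :
    ∃ (m N : ℕ) (nuS : S → ZMod N) (F : S × (ZMod N × ZMod N) → V),
      0 < m ∧ N ≠ 0 ∧
      ∀ (s : S) (w : ZMod N × ZMod N) (v : V), ∃ i < m,
        ∀ (s' : S) (x z : S), (z = x → s' = s) →
          F (s', w - ew N nuS i x + ew N nuS i z) + act v s' = F (s, w) + act v s := by
  classical
  -- parameters
  set c0 : ℕ := Fintype.card S with hc0
  set q : ℕ := (Fintype.card V) ^ (c0 * (c0 * c0)) with hq
  have hV : 0 < Fintype.card V := Fintype.card_pos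
  have hq1 : 1 ≤ q := Nat.one_le_iff_ne_zero.2 (pow_ne_zero _ hV.ne')
  obtain ⟨m0, hm0⟩ := GoodF_137.exists_m q hq1
    (c0 * ((2 * (c0 + 1)) * (2 * (c0 + 1))) * Fintype.card V) 2
  set m : ℕ := max m0 1 with hm
  have hmpos : 0 < m := lt_of_lt_of_le one_pos (le_max_right _ _)
  -- prime N
  obtain ⟨N, hNp, hN1, hN2⟩ := Nat.exists_prime_lt_and_le_two_mul (max m c0)
    (by have := le_max_left m c0; omega)
  haveI : Fact N.Prime := ⟨hNp⟩
  haveI : NeZero N := ⟨hNp.ne_zero⟩
  have hmN : m < N := lt_of_le_of_lt (le_max_left _ _) hN1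
  have hcN : c0 < N := lt_of_le_of_lt (le_max_right _ _) hN1
  -- injection
  let eqv : S ≃ Fin c0 := Fintype.equivFin S
  let nuS : S → ZMod N := fun s => ((eqv s : ℕ) : ZMod N)
  have hinj : ∀ x z : S, nuS x = nuS z → x = z := by
    intro x z h
    have h1 : ((eqv x : ℕ) : ZMod N) = ((eqv z : ℕ) : ZMod N) := h
    rw [ZMod.natCast_eq_natCast_iff'] at h1
    have hx : (eqv x : ℕ) < N := lt_trans (eqv x).2 hcN
    have hz : (eqv z : ℕ) < N := lt_trans (eqv z).2 hcN
    rw [Nat.mod_eq_of_lt hx, Nat.mod_eq_of_lt hz] at h1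
    exact eqv.injective (Fin.ext h1)
  -- demand sets
  let P : (S × (ZMod N × ZMod N)) × V → ℕ → Finset (S × (ZMod N × ZMod N)) := fun e i =>
    (univ : Finset (S × (S × S))).image
      (fun t => (t.1, e.1.2 - ew N nuS i t.2.1 + ew N nuS i t.2.2)) \
      (univ : Finset S).image (fun s' => (s', e.1.2))
  let dem : (S × (ZMod N × ZMod N)) × V → ℕ → V → S × (ZMod N × ZMod N) → V := fun e _ b p =>
    b + act e.2 e.1.1 - act e.2 p.1
  have key := GoodF_137.exists_good (X := S × (ZMod N × ZMod N)) (V := V)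
    (E := (S × (ZMod N × ZMod N)) × V) (fun e => e.1) (c0 * (c0 * c0)) m P dem ?_ ?_ ?_ ?_
  · obtain ⟨F, hF⟩ := key
    refine ⟨m, N, nuS, F, hmpos, hNp.ne_zero, ?_⟩
    intro s w v
    obtain ⟨i, him, hi⟩ := hF ((s, w), v)
    refine ⟨i, him, ?_⟩
    intro s' x z hxz
    by_cases hzx : z = x
    · have hs := hxz hzx
      subst hzx
      subst hs
      simp
    · have hmem : ((s', w - ew N nuS i x + ew N nuS i z) : S × (ZMod N × ZMod N)) ∈
          P ((s, w), v) i := by
        simp only [P, mem_sdiff, mem_image, mem_univ, true_and]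
        refine ⟨⟨(s', (x, z)), rfl⟩, ?_⟩
        rintro ⟨s'', h⟩
        have h2 := (Prod.mk.inj h).2
        have h3 := congrArg Prod.fst h2
        simp only [ew, Prod.fst_add, Prod.fst_sub] at h3
        apply hzx
        apply hinj
        have h4 : nuS z - nuS x = 0 := by
          have h5 : w.1 = w.1 - nuS x + nuS z := h3
          have h6 : w.1 - nuS x + nuS z - w.1 = 0 := by rw [← h5]; ring
          rw [← h6]; ring
        exact sub_eq_zero.1 h4
      have := hi _ hmem
      rw [this]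
      simp only [dem]
      abel
  · intro e i _ h
    simp only [P, mem_sdiff, mem_image, mem_univ, true_and] at h
    exact h.2 ⟨e.1.1, rfl⟩
  · intro e i _
    refine (card_le_card sdiff_subset).trans ?_
    refine card_image_le.trans ?_
    simp [hc0]
  · intro e i hi j hj hij
    rw [Finset.disjoint_left]
    intro p hp hp'
    simp only [P, mem_sdiff, mem_image, mem_univ, true_and] at hp hp'
    obtain ⟨⟨⟨s1, x1, z1⟩, h1⟩, hn⟩ := hp
    obtain ⟨⟨⟨s2, x2, z2⟩, h2⟩, _⟩ := hp'
    apply hn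
    have hw1 : e.1.2 - ew N nuS i x1 + ew N nuS i z1 = p.2 := by rw [← h1]
    have hw2 : e.1.2 - ew N nuS j x2 + ew N nuS j z2 = p.2 := by rw [← h2]
    have ha1 := congrArg Prod.fst hw1
    have ha2 := congrArg Prod.fst hw2
    have hb1 := congrArg Prod.snd hw1
    have hb2 := congrArg Prod.snd hw2
    simp only [ew, Prod.fst_add, Prod.fst_sub, Prod.snd_add, Prod.snd_sub] at ha1 ha2 hb1 hb2
    have hd : nuS z1 - nuS x1 = nuS z2 - nuS x2 := by
      have : e.1.2.1 - nuS x1 + nuS z1 = e.1.2.1 - nuS x2 + nuS z2 := by rw [ha1, ha2]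
      linear_combination this
    have hd2 : ((i : ZMod N) - (j : ZMod N)) * (nuS z1 - nuS x1) = 0 := by
      have h3 : e.1.2.2 - (i : ZMod N) * nuS x1 + (i : ZMod N) * nuS z1
          = e.1.2.2 - (j : ZMod N) * nuS x2 + (j : ZMod N) * nuS z2 := by rw [hb1, hb2]
      have h4 : (i : ZMod N) * (nuS z1 - nuS x1) = (j : ZMod N) * (nuS z2 - nuS x2) := by
        linear_combination h3
      rw [← hd] at h4
      linear_combination h4
    have hij' : ((i : ZMod N) - (j : ZMod N)) ≠ 0 := by
      intro h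
      have h5 : (i : ZMod N) = (j : ZMod N) := sub_eq_zero.1 h
      rw [ZMod.natCast_eq_natCast_iff', Nat.mod_eq_of_lt (hi.trans hmN),
        Nat.mod_eq_of_lt (hj.trans hmN)] at h5
      exact hij h5
    have hz : nuS z1 - nuS x1 = 0 := (mul_eq_zero.1 hd2).resolve_left hij'
    have hzz : nuS z1 = nuS x1 := sub_eq_zero.1 hz
    refine ⟨p.1, ?_⟩
    have hp2 : p.2 = e.1.2 := by
      rw [← hw1]
      simp only [ew, hzz]
      abel
    rw [← hp2]
  · have hcard : Fintype.card ((S × (ZMod N × ZMod N)) × V) = c0 * (N * N) * Fintype.card V := by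
      simp [Fintype.card_prod, ZMod.card, hc0]
    rw [hcard]
    have hNle : N ≤ (2 * (c0 + 1)) * (m + 1) := by
      have : max m c0 ≤ (c0 + 1) * (m + 1) := by
        apply max_le
        · nlinarith
        · nlinarith
      calc N ≤ 2 * max m c0 := hN2
        _ ≤ 2 * ((c0 + 1) * (m + 1)) := Nat.mul_le_mul_left _ this
        _ = _ := by ring
    refine lt_of_le_of_lt ?_ (hm0 m (le_max_left _ _))
    refine Nat.mul_le_mul_right _ ?_
    calc c0 * (N * N) * Fintype.card V
        ≤ c0 * (((2 * (c0 + 1)) * (m + 1)) * ((2 * (c0 + 1)) * (m + 1))) * Fintype.card V := by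
          gcongr
      _ = _ := by ring


/-! ### words -/

/-- product of a word -/
def pr {A S : Type} [Monoid S] (f : A → S) (u : List A) : S := (u.map f).prod

/-- the factor `[a, b)` of a word -/
def seg {A : Type} (u : List A) (a b : ℕ) : List A := (u.drop a).take (b - a)

theorem pr_append {A S : Type} [Monoid S] (f : A → S) (u v : List A) :
    pr f (u ++ v) = pr f u * pr f v := by
  simp [pr]

theorem cut3 {A : Type} (u : List A) (a b : ℕ) (h : a ≤ b) :
    u.take a ++ (seg u a b ++ u.drop b) = u := by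
  have h1 : (u.drop a).drop (b - a) = u.drop b := by
    rw [List.drop_drop]; congr 1; omega
  unfold seg
  rw [← h1, List.take_append_drop, List.take_append_drop]

theorem seg_left {A : Type} (P Q : List A) (a b : ℕ) (hab : a ≤ b) (hb : b ≤ P.length) :
    seg (P ++ Q) a b = seg P a b := by
  unfold seg
  rw [List.drop_append_of_le_length (by omega)]
  rw [List.take_append_of_le_length (by rw [List.length_drop]; omega)]

theorem drop_right {A : Type} (P Q : List A) (a : ℕ) (ha : P.length ≤ a) :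
    (P ++ Q).drop a = Q.drop (a - P.length) := by
  rw [List.drop_append, List.drop_of_length_le ha, List.nil_append]

theorem seg_right {A : Type} (P Q : List A) (a b : ℕ) (hab : a ≤ b) (ha : P.length ≤ a) :
    seg (P ++ Q) a b = seg Q (a - P.length) (b - P.length) := by
  unfold seg
  rw [drop_right P Q a ha]
  congr 1
  omega

section gadget
variable {A S V : Type} [Monoid S] [AddCommGroup V] (f : A → S) (act : V → S → V)
  (m N : ℕ) (nuS : S → ZMod N) (F : S × (ZMod N × ZMod N) → V) (q : ℕ) (c : ℕ → ℕ)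

/-- names: (g, wl, v, h, wr) -/
abbrev Nm (S V : Type) (N : ℕ) : Type := S × (ZMod N × ZMod N) × V × S × (ZMod N × ZMod N)

/-- start of hole `i` -/
def st (i : ℕ) : ℕ := c (i * q)
/-- end of hole `i` -/
def en (i : ℕ) : ℕ := c (i * q + (q - 1))

def WL (i : ℕ) (u : List A) : ZMod N × ZMod N :=
  ∑ j ∈ range i, ew N nuS j (pr f (seg u (st q c j) (en q c j)))

def WR (i d : ℕ) (u : List A) : ZMod N × ZMod N :=
  ∑ j ∈ Ico (i + 1) m, ew N nuS j (pr f (seg u (st q c j - d) (en q c j - d)))

def bval (i : ℕ) (a : Nm S V N) : V :=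
  act a.2.2.1 (a.1 * 1 * a.2.2.2.1) +
    F (a.1 * 1 * a.2.2.2.1, a.2.1 + ew N nuS i 1 + a.2.2.2.2)

def Exact (i : ℕ) (a : Nm S V N) : Prop := ∀ z : S,
  act a.2.2.1 (a.1 * z * a.2.2.2.1) +
    F (a.1 * z * a.2.2.2.1, a.2.1 + ew N nuS i z + a.2.2.2.2) = bval act N nuS F i a

open Classical in
/-- left label at place number `k` with name `a` -/
noncomputable def lam (a : Nm S V N) (k : ℕ) (P : List A) : Option V :=
  if pr f (P.take (st q c (k / q))) = a.1 ∧ WL f N nuS q c (k / q) P = a.2.1 ∧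
      Exact act N nuS F (k / q) a then some a.2.2.1 else none

open Classical in
/-- right label at place number `k` with name `a` -/
noncomputable def rho (a : Nm S V N) (k : ℕ) (Q : List A) (y : S) : Option V :=
  if pr f (Q.drop (en q c (k / q) - c k)) * y = a.2.2.2.1 ∧
      WR f m N nuS q c (k / q) (c k) Q = a.2.2.2.2 ∧
      Exact act N nuS F (k / q) a then some (bval act N nuS F (k / q) a) else none

/-- noise -/
def nz (u : List A) (y : S) : V :=
  F (pr f u * y, ∑ j ∈ range m, ew N nuS j (pr f (seg u (st q c j) (en q c j))))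

theorem sum_split (i : ℕ) (hi : i < m) (g : ℕ → ZMod N × ZMod N) :
    ∑ j ∈ range m, g j = ∑ j ∈ range i, g j + g i + ∑ j ∈ Ico (i + 1) m, g j := by
  rw [← Finset.sum_range_succ, Finset.sum_range_add_sum_Ico _ hi]

variable (hq : 0 < q) (hc : ∀ i j, i < j → j < m * q → c i < c j)

include hq hc

theorem c_le {i j : ℕ} (hij : i ≤ j) (hj : j < m * q) : c i ≤ c j := by
  rcases Nat.lt_or_ge i j with h | h
  · exact (hc i j h hj).le
  · have : i = j := le_antisymm hij h
    rw [this]

theorem idx {k : ℕ} (hk : k < m * q) :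
    k / q < m ∧ k / q * q ≤ k ∧ k ≤ k / q * q + (q - 1) := by
  refine ⟨Nat.div_lt_of_lt_mul (by rwa [Nat.mul_comm] at hk), Nat.div_mul_le_self k q, ?_⟩
  have h1 := Nat.div_add_mod k q
  have h2 := Nat.mod_lt k hq
  rw [Nat.mul_comm] at h1
  omega

theorem st_le {k : ℕ} (hk : k < m * q) : st q c (k / q) ≤ c k := by
  obtain ⟨_, h2, _⟩ := idx m q c hq hc hk
  exact c_le m q c hq hc h2 hk

theorem hole_lt {i : ℕ} (hi : i < m) : i * q + (q - 1) < m * q := by
  have h1 : (i + 1) * q ≤ m * q := Nat.mul_le_mul_right q hi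
  have h2 : (i + 1) * q = i * q + q := by ring
  omega

theorem le_en {k : ℕ} (hk : k < m * q) : c k ≤ en q c (k / q) := by
  obtain ⟨h1, _, h3⟩ := idx m q c hq hc hk
  exact c_le m q c hq hc h3 (hole_lt m q c hq hc h1)

theorem st_le_en {i : ℕ} (hi : i < m) : st q c i ≤ en q c i :=
  c_le m q c hq hc (Nat.le_add_right _ _) (hole_lt m q c hq hc hi)

theorem en_le_st {i j : ℕ} (hij : i < j) (hj : j < m) : en q c i ≤ st q c j := by
  have h1 : (i + 1) * q ≤ j * q := Nat.mul_le_mul_right q hij
  have h2 : (i + 1) * q = i * q + q := by ring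
  refine c_le m q c hq hc (by omega) ?_
  have := hole_lt m q c hq hc hj
  omega

/-- the data read by both sides are data of the whole word -/
theorem data (P Q : List A) (k : ℕ) (hk : k < m * q) (hP : P.length = c k) :
    pr f (P.take (st q c (k / q))) = pr f ((P ++ Q).take (st q c (k / q))) ∧
    WL f N nuS q c (k / q) P = WL f N nuS q c (k / q) (P ++ Q) ∧
    pr f (Q.drop (en q c (k / q) - c k)) = pr f ((P ++ Q).drop (en q c (k / q))) ∧
    WR f m N nuS q c (k / q) (c k) Q = WR f m N nuS q c (k / q) 0 (P ++ Q) := by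
  have hst := st_le m q c hq hc hk
  have hen := le_en m q c hq hc hk
  obtain ⟨him, _, _⟩ := idx m q c hq hc hk
  refine ⟨?_, ?_, ?_, ?_⟩
  · rw [List.take_append_of_le_length (by omega)]
  · unfold WL
    refine Finset.sum_congr rfl ?_
    intro j hj
    rw [mem_range] at hj
    have h1 := en_le_st m q c hq hc hj him
    rw [seg_left P Q _ _ (st_le_en m q c hq hc (hj.trans him)) (by omega)]
  · rw [drop_right P Q _ (by omega), hP]
  · unfold WR
    refine Finset.sum_congr rfl ?_
    intro j hj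
    rw [mem_Ico] at hj
    have h1 := en_le_st m q c hq hc (show k / q < j by omega) hj.2
    have h2 := st_le_en m q c hq hc hj.2
    rw [Nat.sub_zero, Nat.sub_zero, seg_right P Q _ _ h2 (by omega), hP]

/-- the total type of a word, cut at hole `i` -/
theorem total (u : List A) (y : S) (i : ℕ) (hi : i < m) :
    nz f m N nuS F q c u y =
      F (pr f (u.take (st q c i)) * pr f (seg u (st q c i) (en q c i)) *
          (pr f (u.drop (en q c i)) * y),
        WL f N nuS q c i u + ew N nuS i (pr f (seg u (st q c i) (en q c i))) +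
          WR f m N nuS q c i 0 u) ∧
    pr f u * y = pr f (u.take (st q c i)) * pr f (seg u (st q c i) (en q c i)) *
          (pr f (u.drop (en q c i)) * y) := by
  have h1 : pr f u * y = pr f (u.take (st q c i)) * pr f (seg u (st q c i) (en q c i)) *
          (pr f (u.drop (en q c i)) * y) := by
    conv_lhs => rw [← cut3 u (st q c i) (en q c i) (st_le_en m q c hq hc hi)]
    rw [pr_append, pr_append]
    simp only [mul_assoc]
  refine ⟨?_, h1⟩
  unfold nz
  rw [h1, sum_split m N i hi]
  simp only [WL, WR, Nat.sub_zero]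

theorem sound (a : Nm S V N) (P Q : List A) (k : ℕ) (hk : k < m * q) (hP : P.length = c k)
    (y : S) (v b : V) (h1 : lam f act N nuS F q c a k P = some v)
    (h2 : rho f act m N nuS F q c a k Q y = some b) :
    b = act v (pr f (P ++ Q) * y) + nz f m N nuS F q c (P ++ Q) y := by
  obtain ⟨him, _, _⟩ := idx m q c hq hc hk
  obtain ⟨d1, d2, d3, d4⟩ := data f m N nuS q c hq hc P Q k hk hP
  obtain ⟨t1, t2⟩ := total f m N nuS F q c hq hc (P ++ Q) y (k / q) him
  unfold lam at h1
  unfold rho at h2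
  split_ifs at h1 with ha
  split_ifs at h2 with hb
  obtain ⟨a1, a2, a3⟩ := ha
  obtain ⟨b1, b2, _⟩ := hb
  have e1 : a.2.2.1 = v := Option.some.inj h1
  have e2 : bval act N nuS F (k / q) a = b := Option.some.inj h2
  rw [t1, t2, ← d1, ← d2, ← d3, ← d4, a1, a2, b1, b2, ← e1, ← e2]
  exact (a3 _).symm

theorem complete (hgood : ∀ (s : S) (w : ZMod N × ZMod N) (v : V), ∃ i < m,
        ∀ (s' : S) (x z : S), (z = x → s' = s) →
          F (s', w - ew N nuS i x + ew N nuS i z) + act v s' = F (s, w) + act v s)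
    (u : List A) (y : S) (v : V) :
    ∃ i < m, ∃ a : Nm S V N, ∀ k, k / q = i → k < m * q → c k ≤ u.length →
      lam f act N nuS F q c a k (u.take (c k)) = some v ∧
      (rho f act m N nuS F q c a k (u.drop (c k)) y).isSome := by
  obtain ⟨i, him, hi⟩ := hgood (pr f u * y)
    (∑ j ∈ range m, ew N nuS j (pr f (seg u (st q c j) (en q c j)))) v
  obtain ⟨t1, t2⟩ := total f m N nuS F q c hq hc u y i him
  refine ⟨i, him, (pr f (u.take (st q c i)), WL f N nuS q c i u, v,
    pr f (u.drop (en q c i)) * y, WR f m N nuS q c i 0 u), ?_⟩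
  have hex : Exact act N nuS F i ((pr f (u.take (st q c i)), WL f N nuS q c i u, v,
    pr f (u.drop (en q c i)) * y, WR f m N nuS q c i 0 u) : Nm S V N) := by
    have main : ∀ z : S, act v (pr f (u.take (st q c i)) * z * (pr f (u.drop (en q c i)) * y)) +
        F (pr f (u.take (st q c i)) * z * (pr f (u.drop (en q c i)) * y),
          WL f N nuS q c i u + ew N nuS i z + WR f m N nuS q c i 0 u) =
        F (pr f u * y, ∑ j ∈ range m, ew N nuS j (pr f (seg u (st q c j) (en q c j)))) +
          act v (pr f u * y) := by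
      intro z
      have h := hi (pr f (u.take (st q c i)) * z * (pr f (u.drop (en q c i)) * y))
        (pr f (seg u (st q c i) (en q c i))) z (by intro hz; rw [hz, t2])
      rw [← h, add_comm]
      congr 3
      rw [sum_split m N i him]
      simp only [WL, WR, Nat.sub_zero]
      abel
    intro z
    unfold bval
    rw [main z, main 1]
  intro k hki hk hlen
  have hP : (u.take (c k)).length = c k := by
    rw [List.length_take]; omega
  obtain ⟨d1, d2, d3, d4⟩ := data f m N nuS q c hq hc (u.take (c k)) (u.drop (c k)) k hk hP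
  rw [List.take_append_drop] at d1 d2 d3 d4
  subst hki
  constructor
  · unfold lam
    rw [if_pos ⟨d1, d2, hex⟩]
  · unfold rho
    rw [if_pos ⟨by rw [d3], d4, hex⟩]
    rfl

end gadget

/-- **Exact gadget** with arbitrary increasing places, redundancy `R` and a tail letter. -/
theorem exact_gadget (A S V : Type) [Monoid S] [Fintype S] [Fintype V] [AddCommGroup V]
    (f : A → S) (act : V → S → V) (R : ℕ) :
    ∃ K : ℕ, ∀ c : ℕ → ℕ, (∀ i j, i < j → j < K → c i < c j) →
      ∃ (lam : ℕ → List A → Option V) (rho : ℕ → List A → S → Option V) (nu : List A → S → V),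
        (∀ k < K, ∀ (P Q : List A) (y : S) (v b : V), P.length = c k →
          lam k P = some v → rho k Q y = some b → b = act v (pr f (P ++ Q) * y) + nu (P ++ Q) y) ∧
        (∀ (u : List A) (y : S) (v : V), (∀ k < K, c k ≤ u.length) →
          ∃ I : Finset ℕ, R ≤ I.card ∧ ∀ k ∈ I, k < K ∧ lam k (u.take (c k)) = some v ∧
            (rho k (u.drop (c k)) y).isSome) := by
  classical
  obtain ⟨m, N, nuS, F, hm, hN, hgood⟩ := core S V act
  haveI : NeZero N := ⟨hN⟩
  let κ : Type := Nm S V N × Fin (R + 1)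
  set q : ℕ := Fintype.card κ with hqdef
  have hq : 0 < q := Fintype.card_pos
  let E : κ ≃ Fin q := Fintype.equivFin κ
  -- name of place number k
  let nm : ℕ → Nm S V N := fun k => (E.symm ⟨k % q, Nat.mod_lt k hq⟩).1
  refine ⟨m * q, fun c hc => ⟨fun k P => lam f act N nuS F q c (nm k) k P,
    fun k Q y => rho f act m N nuS F q c (nm k) k Q y,
    fun u y => nz f m N nuS F q c u y, ?_, ?_⟩⟩
  · intro k hk P Q y v b hP h1 h2
    exact sound f act m N nuS F q c hq hc (nm k) P Q k hk hP y v b h1 h2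
  · intro u y v hlen
    obtain ⟨i, him, a, ha⟩ := complete f act m N nuS F q c hq hc hgood u y v
    let g : Fin (R + 1) → ℕ := fun r => i * q + (E (a, r) : ℕ)
    have hdiv : ∀ r, g r / q = i := by
      intro r
      have h := (E (a, r)).2
      show (i * q + (E (a, r) : ℕ)) / q = i
      rw [Nat.mul_comm, Nat.mul_add_div hq, Nat.div_eq_of_lt h, Nat.add_zero]
    have hmod : ∀ r, g r % q = (E (a, r) : ℕ) := by
      intro r
      have h := (E (a, r)).2
      show (i * q + (E (a, r) : ℕ)) % q = _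
      rw [Nat.mul_comm, Nat.mul_add_mod, Nat.mod_eq_of_lt h]
    have hlt : ∀ r, g r < m * q := by
      intro r
      have h := (E (a, r)).2
      have h1 : (i + 1) * q ≤ m * q := Nat.mul_le_mul_right q him
      have h2 : (i + 1) * q = i * q + q := by ring
      show i * q + (E (a, r) : ℕ) < m * q
      omega
    have hnm : ∀ r, nm (g r) = a := by
      intro r
      show (E.symm ⟨g r % q, Nat.mod_lt (g r) hq⟩).1 = a
      have h1 : (⟨g r % q, Nat.mod_lt (g r) hq⟩ : Fin q) = E (a, r) := Fin.ext (hmod r)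
      rw [h1, Equiv.symm_apply_apply]
    refine ⟨univ.image g, ?_, ?_⟩
    · rw [Finset.card_image_of_injective]
      · simp
      · intro r r' h
        have h1 : (E (a, r) : ℕ) = (E (a, r') : ℕ) := by
          rw [← hmod r, ← hmod r', h]
        have h2 := E.injective (Fin.ext h1)
        exact (Prod.mk.inj h2).2
    · intro k hk
      obtain ⟨r, _, rfl⟩ := Finset.mem_image.1 hk
      refine ⟨hlt r, ?_⟩
      have h := ha (g r) (hdiv r) (hlt r) (hlen _ (hlt r))
      show lam f act N nuS F q c (nm (g r)) (g r) _ = some v ∧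
        (rho f act m N nuS F q c (nm (g r)) (g r) _ y).isSome
      rw [hnm r]
      exact h

end Crest.Agent.R320.ExactR_237
end

-- ▼ part R320/JointSem_814

/-!
Row 320: the joint of scheme 1 (gadget without small walls, 693 / 638 / 219) and scheme 2
(237's exact gadget on a ruler), natural chain rule (block = first wall at distance `>= z`,
left-looking walls of ALL words), in 727's fully semantic form: two completeness statements.
-/

set_option autoImplicit false

namespace Crest.Agent.R320.JointSem_814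

open Finset ExactR_237

variable {α S V : Type}

/-- left-looking wall rule with window `n`, gaps larger than `W`. -/
structure Walls (n W : ℕ) (Wo : List α → Prop) : Prop where
  loc : ∀ P Q : List α, n ≤ Q.length → (Wo (P ++ Q) ↔ Wo Q)
  len : ∀ Q : List α, Wo Q → n ≤ Q.length
  gap : ∀ (X : List α) (s t : ℕ), s < t → t ≤ s + W → t ≤ X.length → Wo (X.take s) → Wo (X.take t) → False

/-- blocks: first wall at distance at least `z`. -/
def XX (Wo : List α → Prop) (z : ℕ) : Set (List α) :=
  {X | Wo X ∧ z ≤ X.length ∧ ∀ t, z ≤ t → t < X.length → ¬ Wo (X.take t)}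

theorem XX_code {Wo : List α → Prop} {z : ℕ} {X Y : List α} (hX : X ∈ XX Wo z)
    (hY : Y ∈ XX Wo z) (h : X <+: Y) : X = Y := by
  have h1 : Y.take X.length = X := (List.prefix_iff_eq_take.1 h).symm
  rcases lt_or_ge X.length Y.length with h2 | h2
  · exact absurd (show Wo (Y.take X.length) by rw [h1]; exact hX.1) (hY.2.2 _ hX.2.1 h2)
  · exact h.eq_of_length_le h2

/-- the text right of a cut sees the same walls. -/
theorem wall_shift {n W : ℕ} {Wo : List α → Prop} (hW : Walls n W Wo) (P P' Q : List α) (j : ℕ)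
    (hj : n ≤ j) (hjQ : j ≤ Q.length) :
    (Wo ((P' ++ Q).take (P'.length + j)) ↔ Wo ((P ++ Q).take (P.length + j))) := by
  have e : ∀ R : List α, (R ++ Q).take (R.length + j) = R ++ Q.take j := by
    intro R
    rw [List.take_append, List.take_of_length_le (by omega)]
    congr 2
    omega
  have h1 : n ≤ (Q.take j).length := by rw [List.length_take]; omega
  rw [e, e, hW.loc P' _ h1, hW.loc P _ h1]

section main

variable (Wo : List α → Prop) (z p0 : ℕ) (φ : List α → S) (act : V → S → V)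
  [AddCommGroup V] (nu1 nu2 : List α → V) (lam : List α → Option V)

/-- the zone map -/
def T (x : V) (X : List α) : V :=
  act (act x (φ (X.take p0)) + nu2 (X.take p0)) (φ (X.drop p0)) + nu1 (X.drop p0)

def L1 (x : V) : Set (List α) :=
  {P | p0 ≤ P.length ∧ lam (P.drop p0) = some (act x (φ (P.take p0)) + nu2 (P.take p0))}

def R1 (TT : V → List α → V) (L : V → Set (List α)) (y : V) : Set (List α) :=
  {Q | ∀ x, ∀ P ∈ L x, P ++ Q ∈ XX Wo z ∧ TT x (P ++ Q) = y}

def Good (TT : V → List α → V) (L : V → Set (List α)) : Set (List α) :=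
  {X | X ∈ XX Wo z ∧ ∀ x, ∃ P ∈ L x, ∃ Q ∈ R1 Wo z TT L (TT x X), P ++ Q = X}

def Bad (TT : V → List α → V) (L : V → Set (List α)) : Set (List α) :=
  {X | X ∈ XX Wo z ∧ X ∉ Good Wo z TT L}

def R2 (TT : V → List α → V) (L L' : V → Set (List α)) (y : V) : Set (List α) :=
  {Q | ∀ x, ∀ P ∈ L' x,
    (∃ X1 ∈ Bad Wo z TT L, ∃ X2 ∈ Bad Wo z TT L, P ++ Q = X1 ++ X2 ∧ TT (TT x X1) X2 = y) ∨
    (∃ X ∈ Good Wo z TT L, X <+: P ++ Q) ∨
    (∃ X1 ∈ Bad Wo z TT L, ∃ X2 ∈ Good Wo z TT L, X1 ++ X2 <+: P ++ Q)}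

variable {Wo z p0 φ act nu1 nu2 lam}

/-- completeness of scheme 1 -/
theorem good_of {n W N N0 : ℕ} (hW : Walls n W Wo) {rho : List α → Option V}
    {BadT : ℕ → Prop} (hz : p0 + N + n ≤ z) (hN0 : p0 + N0 ≤ z)
    (hlam : ∀ p v, lam p = some v → p.length ≤ N)
    (hsound : ∀ p q v r, lam p = some v → rho q = some r →
      r = act v (φ (p ++ q)) + nu1 (p ++ q))
    (hcompl : ∀ u, N0 ≤ u.length → ¬ BadT u.length → ∀ v, ∃ p q, p ++ q = u ∧
      lam p = some v ∧ (rho q).isSome)
    {X : List α} (hX : X ∈ XX Wo z) (h1 : z + N ≤ X.length)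
    (h2 : ∀ t, z ≤ t + N → t < z → ¬ Wo (X.take t)) (h3 : ¬ BadT (X.length - p0)) :
    X ∈ Good Wo z (T p0 φ act nu1 nu2) (L1 p0 φ act nu2 lam) := by
  refine ⟨hX, fun x => ?_⟩
  have hX0 : (X.take p0).length = p0 := by rw [List.length_take]; omega
  have hYl : (X.drop p0).length = X.length - p0 := List.length_drop
  obtain ⟨p, q, hpq, hl, hr⟩ := hcompl (X.drop p0) (by rw [hYl]; omega) (by rw [hYl]; exact h3)
    (act x (φ (X.take p0)) + nu2 (X.take p0))
  obtain ⟨r, hr⟩ := Option.isSome_iff_exists.1 hr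
  have hp := hlam p _ hl
  have hq : p.length + q.length = X.length - p0 := by
    rw [← hYl, ← hpq, List.length_append]
  have hXe : (X.take p0 ++ p) ++ q = X := by
    rw [List.append_assoc, hpq, List.take_append_drop]
  have hPl : (X.take p0 ++ p).length = p0 + p.length := by rw [List.length_append, hX0]
  have hPt : (X.take p0 ++ p).take p0 = X.take p0 := by
    rw [List.take_append_of_le_length (by omega), List.take_of_length_le (by omega)]
  have hPd : (X.take p0 ++ p).drop p0 = p := by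
    rw [List.drop_append, List.drop_eq_nil_of_le (by omega), hX0]
    simp
  -- value
  have val : ∀ x' (P' : List α), P' ∈ L1 p0 φ act nu2 lam x' →
      T p0 φ act nu1 nu2 x' (P' ++ q) = r := by
    rintro x' P' ⟨hP1, hP2⟩
    unfold T
    rw [List.take_append_of_le_length hP1, List.drop_append_of_le_length hP1]
    exact (hsound _ _ _ _ hP2 hr).symm
  have hPL : X.take p0 ++ p ∈ L1 p0 φ act nu2 lam x := by
    refine ⟨by omega, ?_⟩
    rw [hPd, hPt]
    exact hl
  refine ⟨X.take p0 ++ p, hPL, q, ?_, hXe⟩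
  intro x' P' hP'
  have hTX : T p0 φ act nu1 nu2 x X = r := by
    have := val x _ hPL
    rwa [hXe] at this
  refine ⟨?_, by rw [hTX]; exact val x' P' hP'⟩
  obtain ⟨hP1, hP2⟩ := hP'
  have hP'l : P'.length ≤ p0 + N := by
    have := hlam _ _ hP2
    rw [List.length_drop] at this
    omega
  refine ⟨?_, ?_, ?_⟩
  · rw [hW.loc _ _ (by omega), ← hW.loc (X.take p0 ++ p) q (by omega), hXe]
    exact hX.1
  · rw [List.length_append]; omega
  · intro t ht1 ht2 hw
    rw [List.length_append] at ht2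
    obtain ⟨j, rfl⟩ := Nat.exists_eq_add_of_le (show P'.length ≤ t by omega)
    rw [wall_shift hW (X.take p0 ++ p) P' q j (by omega) (by omega), hXe, hPl] at hw
    rcases lt_or_ge (p0 + p.length + j) z with h5 | h5
    · exact h2 _ (by omega) h5 hw
    · exact hX.2.2 _ h5 (by omega) hw

/-- spoiled places of the text `U`. -/
def Spoiled (Wo : List α → Prop) (z p0 N K : ℕ) (c : ℕ → ℕ) (BadT : ℕ → Prop) (U : List α)
    (k : ℕ) : Prop :=
  ∃ k' < K, k' ≠ k ∧ (
    (∃ s, s ≤ U.length ∧ Wo (U.take s) ∧ z + c k ≤ s + c k' + N ∧ s + c k' < z + N + c k) ∨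
    (∃ s, s ≤ U.length ∧ Wo (U.take s) ∧ z + c k ≤ s + c k' ∧
      (∀ t, t < s → Wo (U.take t) → t + c k' < z + c k) ∧ BadT (s + c k' - c k - p0)))

def L2 (K : ℕ) (c : ℕ → ℕ) (lam2 : ℕ → List α → Option V) (x : V) : Set (List α) :=
  {P | ∃ k < K, P.length = c k ∧ lam2 k P = some x}

/-- completeness of scheme 2 -/
theorem compl2 {n W N N0 K R : ℕ} (hW : Walls n W Wo) {rho : List α → Option V}
    {BadT : ℕ → Prop} (hz : p0 + N + n ≤ z) (hN0 : p0 + N0 ≤ z)
    (hlam : ∀ p v, lam p = some v → p.length ≤ N)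
    (hsound : ∀ p q v r, lam p = some v → rho q = some r →
      r = act v (φ (p ++ q)) + nu1 (p ++ q))
    (hcompl : ∀ u, N0 ≤ u.length → ¬ BadT u.length → ∀ v, ∃ p q, p ++ q = u ∧
      lam p = some v ∧ (rho q).isSome)
    {c : ℕ → ℕ} {lam2 rho2 : ℕ → List α → Option V} (hcp : ∀ k < K, c k ≤ p0)
    (hex : ∀ k < K, ∀ (P Q : List α) (v b : V), P.length = c k → lam2 k P = some v →
      rho2 k Q = some b → b = act v (φ (P ++ Q)) + nu2 (P ++ Q))
    (hco : ∀ (u : List α) (v : V), (∀ k < K, c k ≤ u.length) →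
      ∃ I : Finset ℕ, R ≤ I.card ∧ ∀ k ∈ I, k < K ∧ lam2 k (u.take (c k)) = some v ∧
        (rho2 k (u.drop (c k))).isSome)
    (hspoil : ∀ U : List α, 2 * z ≤ U.length → ∃ J : Finset ℕ, J.card < R ∧
      ∀ k < K, Spoiled Wo z p0 N K c BadT U k → k ∈ J)
    {X1 X2 : List α} (hX1 : X1 ∈ XX Wo z)
    (hX2 : X2 ∈ Bad Wo z (T p0 φ act nu1 nu2) (L1 p0 φ act nu2 lam)) (x : V) :
    ∃ P ∈ L2 K c lam2 x, ∃ Q ∈ R2 Wo z (T p0 φ act nu1 nu2) (L1 p0 φ act nu2 lam) (L2 K c lam2)
      (T p0 φ act nu1 nu2 (T p0 φ act nu1 nu2 x X1) X2), P ++ Q = X1 ++ X2 := by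
  classical
  set TT := T p0 φ act nu1 nu2 with hTT
  have hl1 : z ≤ X1.length := hX1.2.1
  have hl2 : z ≤ X2.length := hX2.1.2.1
  have hu0 : (X1.take p0).length = p0 := by rw [List.length_take]; omega
  obtain ⟨I, hI, hIk⟩ := hco (X1.take p0) x (fun k hk => by rw [hu0]; exact hcp k hk)
  obtain ⟨J, hJ, hJk⟩ := hspoil (X1 ++ X2) (by rw [List.length_append]; omega)
  obtain ⟨k, hkI, hkJ⟩ : ∃ k ∈ I, k ∉ J := by
    by_contra h
    push Not at h
    have := Finset.card_le_card (show I ⊆ J from h)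
    omega
  obtain ⟨hk, hlk, hrk⟩ := hIk k hkI
  have hns : ¬ Spoiled Wo z p0 N K c BadT (X1 ++ X2) k := fun h => hkJ (hJk k hk h)
  obtain ⟨b, hb⟩ := Option.isSome_iff_exists.1 hrk
  have hck := hcp k hk
  have hPl : (X1.take (c k)).length = c k := by rw [List.length_take]; omega
  have htt : (X1.take p0).take (c k) = X1.take (c k) := by
    rw [List.take_take, min_eq_left hck]
  rw [htt] at hlk
  have hdt : (X1.take p0).drop (c k) = (X1.drop (c k)).take (p0 - c k) := List.drop_take
  -- value of the zone map on a block with the same tail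
  have val : ∀ (x' : V) (P' : List α), P'.length = c k → lam2 k P' = some x' →
      TT x' (P' ++ X1.drop (c k)) = act b (φ (X1.drop p0)) + nu1 (X1.drop p0) := by
    intro x' P' hP' hl'
    have e1 : (P' ++ X1.drop (c k)).take p0 = P' ++ (X1.take p0).drop (c k) := by
      rw [List.take_append, List.take_of_length_le (by omega), hP', hdt]
    have e2 : (P' ++ X1.drop (c k)).drop p0 = X1.drop p0 := by
      rw [List.drop_append, List.drop_eq_nil_of_le (by omega), List.nil_append, hP',
        List.drop_drop]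
      congr 1
      omega
    have := hex k hk P' _ x' b hP' hl' hb
    rw [hTT]
    unfold T
    rw [e1, e2, ← this]
  have hX1e : X1.take (c k) ++ X1.drop (c k) = X1 := List.take_append_drop _ _
  have hval1 : TT x X1 = act b (φ (X1.drop p0)) + nu1 (X1.drop p0) := by
    have := val x _ hPl hlk
    rwa [hX1e] at this
  refine ⟨X1.take (c k), ⟨k, hk, hPl, hlk⟩, X1.drop (c k) ++ X2, ?_, by
    rw [← List.append_assoc, hX1e]⟩
  rintro x' P' ⟨k', hk', hPl', hl'⟩
  have hck' := hcp k' hk'
  by_cases hkk : k' = k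
  · subst hkk
    -- the same place
    have hB : P' ++ X1.drop (c k') ∈ XX Wo z := by
      refine ⟨?_, ?_, ?_⟩
      · have h1 : n ≤ (X1.drop (c k')).length := by rw [List.length_drop]; omega
        rw [hW.loc _ _ h1, ← hW.loc (X1.take (c k')) _ h1, hX1e]
        exact hX1.1
      · rw [List.length_append, List.length_drop]; omega
      · intro t ht1 ht2 hw
        rw [List.length_append, List.length_drop] at ht2
        obtain ⟨j, rfl⟩ := Nat.exists_eq_add_of_le (show P'.length ≤ t by omega)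
        rw [wall_shift hW (X1.take (c k')) P' _ j (by omega) (by rw [List.length_drop]; omega),
          hX1e, hPl] at hw
        exact hX1.2.2 _ (by omega) (by omega) hw
    by_cases hG : P' ++ X1.drop (c k') ∈ Good Wo z TT (L1 p0 φ act nu2 lam)
    · right; left
      exact ⟨_, hG, ⟨X2, by simp⟩⟩
    · left
      refine ⟨_, ⟨hB, hG⟩, X2, hX2, by simp, ?_⟩
      rw [val x' P' hPl' hl', hval1]
  · -- another place
    right; left
    set U := X1 ++ X2 with hU
    set Q := X1.drop (c k) ++ X2 with hQ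
    have hPQ : X1.take (c k) ++ Q = U := by
      rw [hQ, ← List.append_assoc, hX1e]
    have hQl : Q.length = X1.length + X2.length - c k := by
      rw [hQ, List.length_append, List.length_drop]; omega
    have hUl : U.length = X1.length + X2.length := by rw [hU, List.length_append]
    have hWU : Wo U := by
      rw [hU, hW.loc X1 X2 (by omega)]
      exact hX2.1.1
    have shift : ∀ j, n ≤ j → j ≤ Q.length →
        (Wo ((P' ++ Q).take (c k' + j)) ↔ Wo (U.take (c k + j))) := by
      intro j h1 h2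
      have := wall_shift hW (X1.take (c k)) P' Q j h1 h2
      rwa [hPQ, hPl, hPl'] at this
    have hexw : ∃ t, z ≤ t ∧ Wo ((P' ++ Q).take t) := by
      refine ⟨c k' + Q.length, by omega, ?_⟩
      rw [shift _ (by omega) le_rfl]
      rw [List.take_of_length_le (by omega)]
      exact hWU
    set t0 := Nat.find hexw with ht0
    obtain ⟨hz0, hw0⟩ := Nat.find_spec hexw
    rw [← ht0] at hz0 hw0
    have hmin : ∀ t, z ≤ t → t < t0 → ¬ Wo ((P' ++ Q).take t) := by
      intro t h1 h2 h3
      exact Nat.find_min hexw h2 ⟨h1, h3⟩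
    have ht0l : t0 ≤ c k' + Q.length := by
      apply Nat.find_min' hexw
      refine ⟨by omega, ?_⟩
      rw [shift _ (by omega) le_rfl]
      rw [List.take_of_length_le (by omega)]
      exact hWU
    have hPQl : (P' ++ Q).length = c k' + Q.length := by rw [List.length_append, hPl']
    have hXl : ((P' ++ Q).take t0).length = t0 := by
      rw [List.length_take, hPQl]; omega
    have hX' : (P' ++ Q).take t0 ∈ XX Wo z := by
      refine ⟨hw0, by rw [hXl]; exact hz0, ?_⟩
      intro t h1 h2
      rw [hXl] at h2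
      rw [List.take_take, min_eq_left h2.le]
      exact hmin t h1 h2
    obtain ⟨j0, hj0⟩ := Nat.exists_eq_add_of_le (show c k' ≤ t0 by omega)
    have hw0' : Wo (U.take (c k + j0)) := by
      rw [← shift j0 (by omega) (by omega), ← hj0]
      exact hw0
    refine ⟨(P' ++ Q).take t0, ?_, List.take_prefix _ _⟩
    apply good_of hW hz hN0 hlam hsound hcompl hX'
    · -- end not in the band
      rw [hXl]
      by_contra hlt
      apply hns
      exact ⟨k', hk', hkk, Or.inl ⟨c k + j0, by omega, hw0', by omega, by omega⟩⟩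
    · -- no wall in the band
      intro t h1 h2 hw
      rw [List.take_take, min_eq_left (by omega)] at hw
      obtain ⟨j, rfl⟩ := Nat.exists_eq_add_of_le (show c k' ≤ t by omega)
      rw [shift j (by omega) (by omega)] at hw
      apply hns
      exact ⟨k', hk', hkk, Or.inl ⟨c k + j, by omega, hw, by omega, by omega⟩⟩
    · -- the clock is good
      rw [hXl]
      intro hbt
      apply hns
      refine ⟨k', hk', hkk, Or.inr ⟨c k + j0, by omega, hw0', by omega, ?_, ?_⟩⟩
      · intro t h1 h2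
        by_contra h3
        obtain ⟨j, rfl⟩ := Nat.exists_eq_add_of_le (show c k ≤ t by omega)
        rw [← shift j (by omega) (by omega)] at h2
        exact hmin _ (by omega) (by omega) h2
      · have e : c k + j0 + c k' - c k - p0 = t0 - p0 := by omega
        rw [e]
        exact hbt

end main

end Crest.Agent.R320.JointSem_814
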