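import Crest.Agent.R320.Reg_236
import Mathlib.Computability.MyhillNerode
import Mathlib
import Crest.Agent.R320.Hk2_851
import Crest.Agent.R320.JointSem_814_Mg

-- ▼ part R320/Fib_854
section

/-!
# Row 320: HL 1 of the block languages for the natural chain rule (helper854)

Left-looking wall rule `Wo` with window `n` on all words, blocks = words which end at their first
wall at a place `>= z`.  Every function of a word that is determined by a bounded prefix, the length
modulo `M` and a finite monoid product has fibres of height at most one on the block code.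
-/

set_option autoImplicit false

namespace Crest.Agent.R320.Fib_854

open Crest.RegLang Crest.Agent.R320.Hk_851

universe u

variable {α : Type u}

theorem reg_of_cong {F : Type*} [Finite F] (L : Language α) (τ : List α → F)
    (hstep : ∀ u u' a, τ u = τ u' → τ (u ++ [a]) = τ (u' ++ [a]))
    (hL : ∀ u u', τ u = τ u' → u ∈ L → u' ∈ L) : L.IsRegular := by
  classical
  have happ : ∀ (v u u' : List α), τ u = τ u' → τ (u ++ v) = τ (u' ++ v) := by
    intro v
    induction v with
    | nil => intro u u' h; simpa using h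
    | cons a v ih =>
      intro u u' h
      have := ih (u ++ [a]) (u' ++ [a]) (hstep u u' a h)
      simpa using this
  have key : ∀ u u', τ u = τ u' → L.leftQuotient u = L.leftQuotient u' := by
    intro u u' h
    ext v
    simp only [Language.mem_leftQuotient]
    exact ⟨hL _ _ (happ v u u' h), hL _ _ (happ v u' u h.symm)⟩
  refine Language.IsRegular.of_finite_range_leftQuotient ?_
  let G : F → Language α := fun x => if h : ∃ u, τ u = x then L.leftQuotient h.choose else 0
  refine (Set.finite_range G).subset ?_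
  rintro _ ⟨u, rfl⟩
  refine ⟨τ u, ?_⟩
  have h : ∃ u', τ u' = τ u := ⟨u, rfl⟩
  simp only [G, dif_pos h]
  exact key _ _ h.choose_spec

/-- last `n` letters -/
def lastn (n : ℕ) (X : List α) : List α := X.drop (X.length - n)

theorem lastn_len (n : ℕ) (X : List α) : (lastn n X).length ≤ n := by
  unfold lastn; simp only [List.length_drop]; omega

theorem lastn_step (n : ℕ) (X : List α) (a : α) :
    lastn n (X ++ [a]) = lastn n (lastn n X ++ [a]) := by
  unfold lastn
  simp only [List.length_append, List.length_singleton, List.length_drop]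
  rcases Nat.lt_or_ge X.length n with h | h
  · have e1 : X.length - n = 0 := by omega
    simp [e1]
  · rcases n with _ | n
    · simp only [Nat.sub_zero, List.drop_length, List.nil_append]
      rw [List.drop_eq_nil_of_le (by simp), List.drop_eq_nil_of_le (by simp)]
    · have e1 : X.length + 1 - (n + 1) = (X.length - (n + 1)) + 1 := by omega
      have e2 : X.length - (X.length - (n + 1)) + 1 - (n + 1) = 1 := by omega
      rw [e1, e2, List.drop_append_of_le_length (by omega),
        List.drop_append_of_le_length (by rw [List.length_drop]; omega), List.drop_drop]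

theorem lastn_spec (n : ℕ) (X : List α) : X = X.take (X.length - n) ++ lastn n X :=
  (List.take_append_drop _ _).symm

/-- some wall strictly inside, at a place `>= z` -/
def Fl (Wo : List α → Prop) (z : ℕ) (X : List α) : Prop :=
  ∃ t, z ≤ t ∧ t < X.length ∧ Wo (X.take t)

theorem Fl_step (Wo : List α → Prop) (z : ℕ) (X : List α) (a : α) :
    Fl Wo z (X ++ [a]) ↔ Fl Wo z X ∨ (z ≤ X.length ∧ Wo X) := by
  constructor
  · rintro ⟨t, h1, h2, h3⟩
    simp only [List.length_append, List.length_singleton] at h2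
    rcases Nat.lt_or_ge t X.length with h | h
    · left
      refine ⟨t, h1, h, ?_⟩
      rwa [List.take_append_of_le_length (by omega)] at h3
    · right
      have ht : t = X.length := by omega
      subst ht
      refine ⟨h1, ?_⟩
      simpa using h3
  · rintro (⟨t, h1, h2, h3⟩ | ⟨h1, h2⟩)
    · refine ⟨t, h1, by simp; omega, ?_⟩
      rwa [List.take_append_of_le_length (by omega)]
    · exact ⟨X.length, h1, by simp, by simpa using h2⟩

theorem wo_lastn {Wo : List α → Prop} {n : ℕ}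
    (hloc : ∀ P Q : List α, n ≤ Q.length → (Wo (P ++ Q) ↔ Wo Q)) {X : List α}
    (h : n ≤ X.length) : Wo X ↔ Wo (lastn n X) := by
  conv_lhs => rw [lastn_spec n X]
  apply hloc
  unfold lastn; rw [List.length_drop]; omega

/-- regularity from finite data -/
theorem reg_of_data [Finite α] {S : Type*} [Monoid S] [Finite S] (f : α → S)
    (Wo : List α → Prop) (n z K M : ℕ)
    (hloc : ∀ P Q : List α, n ≤ Q.length → (Wo (P ++ Q) ↔ Wo Q))
    (hnz : n ≤ z) (hzK : z ≤ K) (hM : 0 < M) (L : Language α)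
    (hL : ∀ X Y : List α, X.take K = Y.take K → lastn n X = lastn n Y →
      (Fl Wo z X ↔ Fl Wo z Y) → X.length % M = Y.length % M →
      ((X.drop K).map f).prod = ((Y.drop K).map f).prod → X ∈ L → Y ∈ L) : L.IsRegular := by
  classical
  have i1 : Finite {l : List α // l.length ≤ K} := (List.finite_length_le α K).to_subtype
  have i2 : Finite {l : List α // l.length ≤ n} := (List.finite_length_le α n).to_subtype
  let τ : List α → {l : List α // l.length ≤ K} × {l : List α // l.length ≤ n} × Prop ×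
      Fin M × S := fun X =>
    (⟨X.take K, by simp⟩, ⟨lastn n X, lastn_len n X⟩, Fl Wo z X,
      ⟨X.length % M, Nat.mod_lt _ hM⟩, ((X.drop K).map f).prod)
  have hτ : ∀ X Y, τ X = τ Y ↔ (X.take K = Y.take K ∧ lastn n X = lastn n Y ∧
      (Fl Wo z X ↔ Fl Wo z Y) ∧ X.length % M = Y.length % M ∧
      ((X.drop K).map f).prod = ((Y.drop K).map f).prod) := by
    intro X Y
    simp only [τ, Prod.mk.injEq, Subtype.mk.injEq, Fin.mk.injEq, eq_iff_iff]
  refine reg_of_cong L τ ?_ ?_
  · intro X Y a h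
    rw [hτ] at h ⊢
    obtain ⟨h1, h2, h3, h4, h5⟩ := h
    have hlen : X.length < K ↔ Y.length < K := by
      have := congrArg List.length h1
      simp only [List.length_take] at this
      omega
    have hlen2 : X.length < K → X = Y := by
      intro h
      have e1 : X.take K = X := List.take_of_length_le (by omega)
      have e2 : Y.take K = Y := List.take_of_length_le (by have := hlen.1 h; omega)
      rw [← e1, h1, e2]
    by_cases hX : X.length < K
    · have := hlen2 hX
      subst this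
      exact ⟨rfl, rfl, Iff.rfl, rfl, rfl⟩
    · have hY : ¬ Y.length < K := fun h => hX (hlen.2 h)
      refine ⟨?_, ?_, ?_, ?_, ?_⟩
      · rw [List.take_append_of_le_length (by omega), List.take_append_of_le_length (by omega), h1]
      · rw [lastn_step n X, lastn_step n Y, h2]
      · rw [Fl_step, Fl_step, h3, wo_lastn hloc (X := X) (by omega),
          wo_lastn hloc (X := Y) (by omega), h2]
        have e1 : z ≤ X.length := by omega
        have e2 : z ≤ Y.length := by omega
        simp only [e1, e2]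
      · simp only [List.length_append, List.length_singleton]
        rw [Nat.add_mod, h4, ← Nat.add_mod]
      · rw [List.drop_append_of_le_length (by omega), List.drop_append_of_le_length (by omega),
          List.map_append, List.map_append, List.prod_append, List.prod_append, h5]
  · intro X Y h hX
    rw [hτ] at h
    obtain ⟨h1, h2, h3, h4, h5⟩ := h
    exact hL X Y h1 h2 h3 h4 h5 hX

/-- the words without a wall at `[z, |X|)` are made of boundedly many pieces -/
theorem pieces {Wo : List α → Prop} {n z B : ℕ}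
    (hloc : ∀ P Q : List α, n ≤ Q.length → (Wo (P ++ Q) ↔ Wo Q))
    (hlen : ∀ Q, Wo Q → n ≤ Q.length) (hn : 0 < n) (hnz : n ≤ z)
    (hfew : ∀ X : List α, (∀ t, t < X.length → ¬ Wo (X.take t)) → ∃ (u x : List α) (k : ℕ)
      (v : List α), u.length ≤ B ∧ x.length ≤ B ∧ v.length ≤ B ∧
      X = u ++ (List.replicate k x).flatten ++ v)
    (X : List α) (hX : ¬ Fl Wo z X) :
    ∃ l : List (List α × List α × ℕ), l.length ≤ 3 ∧
      (∀ t ∈ l, t.1.length ≤ z + B ∧ t.2.1.length ≤ z + B) ∧ X = Reg_236.wd l := by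
  have hR : ∀ t, t < (X.drop (z - n)).length → ¬ Wo ((X.drop (z - n)).take t) := by
    intro t ht hw
    rw [List.length_drop] at ht
    have h1 := hlen _ hw
    rw [List.length_take, List.length_drop] at h1
    refine hX ⟨z - n + t, by omega, by omega, ?_⟩
    have e : X.take (z - n + t) = X.take (z - n) ++ (X.drop (z - n)).take t := by
      rw [List.take_add]
    rw [e]
    refine (hloc _ _ ?_).2 hw
    rw [List.length_take, List.length_drop]; omega
  obtain ⟨u, x, k, v, hu, hx, hv, e⟩ := hfew _ hR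
  refine ⟨[(X.take (z - n), [], 0), (u, x, k), (v, [], 0)], by simp, ?_, ?_⟩
  · intro t ht
    simp only [List.mem_cons, List.not_mem_nil, or_false] at ht
    rcases ht with rfl | rfl | rfl
    · simp only [List.length_take, List.length_nil]; omega
    · simp only; omega
    · simp only [List.length_nil]; omega
  · conv_lhs => rw [← List.take_append_drop (z - n) X, e]
    simp [Reg_236.wd, Reg_236.rep]

/-- the block code of the natural chain rule -/
def XX (Wo : List α → Prop) (z : ℕ) : Set (List α) :=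
  {X | z ≤ X.length ∧ Wo X ∧ ∀ t, z ≤ t → t < X.length → ¬ Wo (X.take t)}

/-- `g` is determined by a bounded prefix, the length mod `M` and a monoid product -/
def Key {β : Type*} (g : List α → β) : Prop :=
  ∃ (K M : ℕ) (S : Type) (_ : Monoid S) (_ : Finite S) (f : α → S), 0 < M ∧
    ∀ X Y : List α, K ≤ X.length → K ≤ Y.length → X.take K = Y.take K →
      X.length % M = Y.length % M →
      ((X.drop K).map f).prod = ((Y.drop K).map f).prod → g X = g Y

theorem key_le {S : Type*} [Monoid S] (f : α → S) {K K' : ℕ} (h : K ≤ K') {X Y : List α}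
    (h1 : X.take K' = Y.take K') (h2 : ((X.drop K').map f).prod = ((Y.drop K').map f).prod) :
    X.take K = Y.take K ∧ ((X.drop K).map f).prod = ((Y.drop K).map f).prod := by
  constructor
  · have := congrArg (List.take K) h1
    rwa [List.take_take, List.take_take, Nat.min_eq_left h] at this
  · have e : ∀ Z : List α, Z.drop K = (Z.take K').drop K ++ Z.drop K' := by
      intro Z
      conv_lhs => rw [← List.take_append_drop K' Z]
      rcases Nat.lt_or_ge Z.length K' with hl | hl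
      · rw [List.drop_eq_nil_of_le (show Z.length ≤ K' by omega)]; simp
      · rw [List.drop_append_of_le_length (by rw [List.length_take]; omega)]
    rw [e X, e Y, List.map_append, List.map_append, List.prod_append, List.prod_append, h1, h2]

theorem fib [Finite α] {β : Type*} {Wo : List α → Prop} {n z B : ℕ}
    (hloc : ∀ P Q : List α, n ≤ Q.length → (Wo (P ++ Q) ↔ Wo Q))
    (hlen : ∀ Q, Wo Q → n ≤ Q.length) (hn : 0 < n) (hnz : n ≤ z)
    (hfew : ∀ X : List α, (∀ t, t < X.length → ¬ Wo (X.take t)) → ∃ (u x : List α) (k : ℕ)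
      (v : List α), u.length ≤ B ∧ x.length ≤ B ∧ v.length ≤ B ∧
      X = u ++ (List.replicate k x).flatten ++ v)
    (g : List α → β) (hg : Key g) (y : β) :
    HL 1 ({X | X ∈ XX Wo z ∧ g X = y} : Language α) := by
  obtain ⟨K, M, S, iS, iF, f, hM, hkey⟩ := hg
  refine Reg_236.HL_one_of_bounded ?_ 3 (z + B) ?_
  · refine reg_of_data f Wo n z (K + z + 1) M hloc hnz (by omega) hM _ ?_
    rintro X Y h1 h2 h3 h4 h5 ⟨⟨a1, a2, a3⟩, a4⟩
    have hlenK : ∀ {m}, m ≤ K + z + 1 → (m ≤ X.length ↔ m ≤ Y.length) := by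
      intro m hm
      have := congrArg List.length h1
      simp only [List.length_take] at this
      omega
    have b1 : z ≤ Y.length := (hlenK (by omega)).1 a1
    refine ⟨⟨b1, ?_, ?_⟩, ?_⟩
    · rw [wo_lastn hloc (by omega), ← h2, ← wo_lastn hloc (by omega)]; exact a2
    · intro t t1 t2 t3
      obtain ⟨t', c1, c2, c3⟩ := h3.2 ⟨t, t1, t2, t3⟩
      exact a3 t' c1 c2 c3
    · by_cases hX : K + z + 1 ≤ X.length
      · have hY := (hlenK le_rfl).1 hX
        obtain ⟨k1, k2⟩ := key_le f (show K ≤ K + z + 1 by omega) h1 h5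
        rw [← hkey X Y (by omega) (by omega) k1 h4 k2]; exact a4
      · have hY : ¬ K + z + 1 ≤ Y.length := fun h => hX ((hlenK le_rfl).2 h)
        have e : X = Y := by
          rw [List.take_of_length_le (by omega), List.take_of_length_le (by omega)] at h1
          exact h1
        rw [← e]; exact a4
  · rintro X ⟨⟨a1, a2, a3⟩, -⟩
    refine pieces hloc hlen hn hnz hfew X ?_
    rintro ⟨t, t1, t2, t3⟩
    exact a3 t t1 t2 t3

theorem no_prefix {Wo : List α → Prop} {z : ℕ} (E : List α) :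
    (∀ X ∈ XX Wo z, ¬ X <+: E) ↔ ¬ Fl Wo z E ∧ ¬ (z ≤ E.length ∧ Wo E) := by
  classical
  constructor
  · intro h
    by_contra hcon
    have hex : ∃ t, z ≤ t ∧ t ≤ E.length ∧ Wo (E.take t) := by
      by_contra hno
      apply hcon
      refine ⟨?_, ?_⟩
      · rintro ⟨t, h1, h2, h3⟩
        exact hno ⟨t, h1, by omega, h3⟩
      · rintro ⟨h1, h2⟩
        exact hno ⟨E.length, h1, le_rfl, by simpa using h2⟩
    obtain ⟨h1, h2, h3⟩ := Nat.find_spec hex
    refine h (E.take (Nat.find hex)) ⟨?_, h3, ?_⟩ (List.take_prefix _ _)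
    · rw [List.length_take]; omega
    · intro t t1 t2 t3
      rw [List.length_take] at t2
      rw [List.take_take, Nat.min_eq_left (by omega)] at t3
      exact Nat.find_min hex (by omega) ⟨t1, by omega, t3⟩
  · rintro ⟨h1, h2⟩ X ⟨a1, a2, a3⟩ ⟨R, rfl⟩
    rcases R with _ | ⟨r, R⟩
    · exact h2 ⟨by simpa using a1, by simpa using a2⟩
    · exact h1 ⟨X.length, a1, by simp, by simpa using a2⟩

theorem tail [Finite α] {S : Type*} [Monoid S] [Finite S] (f : α → S)
    {Wo : List α → Prop} {n z B : ℕ}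
    (hloc : ∀ P Q : List α, n ≤ Q.length → (Wo (P ++ Q) ↔ Wo Q))
    (hlen : ∀ Q, Wo Q → n ≤ Q.length) (hn : 0 < n) (hnz : n ≤ z)
    (hfew : ∀ X : List α, (∀ t, t < X.length → ¬ Wo (X.take t)) → ∃ (u x : List α) (k : ℕ)
      (v : List α), u.length ≤ B ∧ x.length ≤ B ∧ v.length ≤ B ∧
      X = u ++ (List.replicate k x).flatten ++ v) (s : S) :
    HL 1 ({E | (∀ X ∈ XX Wo z, ¬ X <+: E) ∧ (E.map f).prod = s} : Language α) := by
  refine Reg_236.HL_one_of_bounded ?_ 3 (z + B) ?_
  · refine reg_of_data f Wo n z (z + 1) 1 hloc hnz (by omega) one_pos _ ?_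
    rintro X Y h1 h2 h3 h4 h5 ⟨a1, a2⟩
    have hlenK : ∀ {m}, m ≤ z + 1 → (m ≤ X.length ↔ m ≤ Y.length) := by
      intro m hm
      have := congrArg List.length h1
      simp only [List.length_take] at this
      omega
    refine ⟨?_, ?_⟩
    · rw [no_prefix] at a1 ⊢
      refine ⟨fun h => a1.1 (h3.2 h), fun h => a1.2 ⟨(hlenK (by omega)).2 h.1, ?_⟩⟩
      rw [wo_lastn hloc (by have := (hlenK (show z ≤ z + 1 by omega)).2 h.1; omega), h2,
        ← wo_lastn hloc (by omega)]
      exact h.2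
    · obtain ⟨-, k2⟩ := key_le f (Nat.zero_le (z + 1)) h1 h5
      rw [← a2]
      simpa using k2.symm
  · rintro X ⟨a1, -⟩
    exact pieces hloc hlen hn hnz hfew X ((no_prefix X).1 a1).1

end Crest.Agent.R320.Fib_854
end

-- ▼ part R320/MarkAll_813
section

set_option autoImplicit false

/-!
Row 320: walls on ALL words (no run-free hypothesis).

A position is a wall when the window (name) there is not periodic (no period `<= W`) and it is a
strict local minimum, among the non-periodic names within distance `W`, for an injective numbering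
of the names.  Walls are more than `W` apart, there is no wall inside a run, and every stretch
without walls is periodic with one period `<= W`, except for `G` letters at both ends.
-/

namespace Crest.Agent.R320.MarkAll_813

open List

variable {A : Type*}

/-- the name of position `c` -/
def nm (l : ℕ) (w : List A) (c : ℕ) : List A := (w.drop c).take l

/-- the name of `c` is periodic -/
def PerN (W l : ℕ) (w : List A) (c : ℕ) : Prop :=
  ∃ p, 0 < p ∧ p ≤ W ∧ (nm l w c).HasPeriod p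

/-- the wall rule, right looking: position `0` is a wall (with centre `W`) -/
def R (enc : List A → ℕ) (W l : ℕ) (Q : List A) : Prop :=
  2 * W + l ≤ Q.length ∧ ¬ PerN W l Q W ∧
    ∀ d, d ≤ 2 * W → d ≠ W → ¬ PerN W l Q d → enc (nm l Q W) < enc (nm l Q d)

theorem nm_drop (l : ℕ) (w : List A) (c d : ℕ) : nm l (w.drop c) d = nm l w (c + d) := by
  simp [nm, List.drop_drop]

theorem PerN_drop (W l : ℕ) (w : List A) (c d : ℕ) :
    PerN W l (w.drop c) d ↔ PerN W l w (c + d) := by
  simp [PerN, nm_drop]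

theorem nm_take (l : ℕ) (w : List A) (n d : ℕ) (h : d + l ≤ n) :
    nm l (w.take n) d = nm l w d := by
  rw [nm, nm, List.drop_take, List.take_take, min_eq_left (by omega)]

theorem PerN_take (W l : ℕ) (w : List A) (n d : ℕ) (h : d + l ≤ n) :
    PerN W l (w.take n) d ↔ PerN W l w d := by
  simp [PerN, nm_take l w n d h]

theorem nm_getElem? (l : ℕ) (w : List A) (c i : ℕ) (h : i < l) :
    (nm l w c)[i]? = w[c + i]? := by
  rw [nm, List.getElem?_take_of_lt h, List.getElem?_drop]

theorem nm_length (l : ℕ) (w : List A) (c : ℕ) (h : c + l ≤ w.length) :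
    (nm l w c).length = l := by
  rw [nm, List.length_take, List.length_drop]
  omega

theorem R_take (enc : List A → ℕ) (W l : ℕ) (Q : List A) :
    R enc W l Q ↔ R enc W l (Q.take (2 * W + l)) := by
  unfold R
  rw [PerN_take W l Q _ W (by omega), nm_take l Q _ W (by omega)]
  constructor
  · rintro ⟨h1, h2, h3⟩
    refine ⟨by rw [List.length_take]; omega, h2, fun d hd hd' hp => ?_⟩
    rw [PerN_take W l Q _ d (by omega)] at hp
    rw [nm_take l Q _ d (by omega)]
    exact h3 d hd hd' hp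
  · rintro ⟨h1, h2, h3⟩
    refine ⟨by rw [List.length_take] at h1; omega, h2, fun d hd hd' hp => ?_⟩
    have := h3 d hd hd' (by rw [PerN_take W l Q _ d (by omega)]; exact hp)
    rwa [nm_take l Q _ d (by omega)] at this

theorem R_sep (enc : List A → ℕ) (W l : ℕ) (Q : List A) (d : ℕ) (hd : 0 < d) (hdW : d ≤ W)
    (h : R enc W l Q) (h' : R enc W l (Q.drop d)) : False := by
  obtain ⟨_, h2, h3⟩ := h
  obtain ⟨_, h2', h3'⟩ := h'
  rw [PerN_drop] at h2'
  have a := h3 (d + W) (by omega) (by omega) h2'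
  have b := h3' (W - d) (by omega) (by omega)
  rw [PerN_drop, nm_drop, nm_drop, show d + (W - d) = W by omega] at b
  have b' := b h2
  omega

theorem R_run (enc : List A → ℕ) (W l : ℕ) (Q : List A) (p : ℕ) (hp : 0 < p) (hpW : p ≤ W)
    (h : (Q.take (2 * W + l)).HasPeriod p) : ¬ R enc W l Q := by
  rintro ⟨_, h2, _⟩
  apply h2
  rw [← PerN_take W l Q (2 * W + l) W (by omega)]
  refine ⟨p, hp, hpW, h.infix ?_⟩
  exact ((List.take_prefix _ _).isInfix).trans (List.drop_suffix _ _).isInfix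

/-- equal names at small distance are periodic -/
theorem per_of_eq (l : ℕ) (w : List A) (c d : ℕ) (hl : c + d + l ≤ w.length)
    (h : nm l w c = nm l w (c + d)) : (nm l w c).HasPeriod d := by
  rw [List.hasPeriod_iff_getElem?, nm_length l w c (by omega)]
  intro i hi
  rw [nm_getElem? l w c (i + d) (by omega), h, nm_getElem? l w (c + d) i (by omega)]
  congr 1
  omega

theorem per_of_eq' (l : ℕ) (w : List A) (c d : ℕ) (hl : c + d + l ≤ w.length)
    (h : nm l w c = nm l w (c + d)) : (nm l w (c + d)).HasPeriod d := by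
  rw [← h]
  exact per_of_eq l w c d hl h

/-- descent: near every non-periodic position there is a wall -/
theorem descent (enc : List A → ℕ) (henc : Function.Injective enc) (W l : ℕ) (w : List A)
    (k : ℕ) : ∀ c : ℕ, enc (nm l w c) < k → W * k ≤ c → c + W * k + l ≤ w.length →
      ¬ PerN W l w c → ∃ j, c ≤ j + W * k ∧ j ≤ c + W * k ∧ R enc W l (w.drop j) := by
  induction k with
  | zero => intro c h; omega
  | succ k ih =>
    intro c hc h1 h2 hn
    have hk : W * (k + 1) = W * k + W := by ring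
    by_cases hR : R enc W l (w.drop (c - W))
    · exact ⟨c - W, by omega, by omega, hR⟩
    · have hlen : 2 * W + l ≤ (w.drop (c - W)).length := by
        rw [List.length_drop]; omega
      have hcen : ¬ PerN W l (w.drop (c - W)) W := by
        rw [PerN_drop, show c - W + W = c by omega]; exact hn
      have : ∃ d, d ≤ 2 * W ∧ d ≠ W ∧ ¬ PerN W l (w.drop (c - W)) d ∧
          enc (nm l (w.drop (c - W)) d) ≤ enc (nm l (w.drop (c - W)) W) := by
        by_contra hcon
        push Not at hcon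
        exact hR ⟨hlen, hcen, hcon⟩
      obtain ⟨d, hd, hdW, hdn, hde⟩ := this
      rw [PerN_drop] at hdn
      rw [nm_drop, nm_drop, show c - W + W = c by omega] at hde
      have hlt : enc (nm l w (c - W + d)) < enc (nm l w c) := by
        refine lt_of_le_of_ne hde fun he => ?_
        have he' := henc he
        rcases lt_or_gt_of_ne hdW with h | h
        · apply hn
          have e : c = (c - W + d) + (W - d) := by omega
          refine ⟨W - d, by omega, by omega, ?_⟩
          have := per_of_eq' l w (c - W + d) (W - d) (by omega) (by rw [← e]; exact he')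
          rwa [← e] at this
        · apply hn
          have e : c - W + d = c + (d - W) := by omega
          refine ⟨d - W, by omega, by omega, ?_⟩
          rw [e] at he'
          exact per_of_eq l w c (d - W) (by omega) he'.symm
      obtain ⟨j, hj1, hj2, hj3⟩ := ih (c - W + d) (by omega) (by omega) (by omega) hdn
      exact ⟨j, by omega, by omega, hj3⟩

/-- a stretch of periodic positions has one period -/
theorem stretch (W l : ℕ) (hl : 2 * W + 1 ≤ l) (w : List A) (s : ℕ) (k : ℕ)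
    (hlen : s + k + l ≤ w.length) (h : ∀ i ≤ k, PerN W l w (s + i)) :
    ∃ p, 0 < p ∧ p ≤ W ∧ ∀ i, i + p < k + l → w[s + i]? = w[s + i + p]? := by
  induction k with
  | zero =>
    obtain ⟨p, hp, hpW, hper⟩ := h 0 le_rfl
    refine ⟨p, hp, hpW, fun i hi => ?_⟩
    rw [List.hasPeriod_iff_getElem?, nm_length l w _ (by omega)] at hper
    have := hper i (by omega)
    rw [nm_getElem? l w _ i (by omega), nm_getElem? l w _ (i + p) (by omega)] at this
    simpa [add_assoc] using this
  | succ k ih =>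
    obtain ⟨p, hp, hpW, hper⟩ := ih (by omega) (fun i hi => h i (by omega))
    obtain ⟨q, hq, hqW, hqer⟩ := h (k + 1) le_rfl
    rw [List.hasPeriod_iff_getElem?, nm_length l w _ (by omega)] at hqer
    have hqer' : ∀ i, i + q < l → w[s + (k + 1) + i]? = w[s + (k + 1) + i + q]? := by
      intro i hi
      have := hqer i (by omega)
      rw [nm_getElem? l w _ i (by omega), nm_getElem? l w _ (i + q) (by omega)] at this
      simpa [add_assoc] using this
    refine ⟨p, hp, hpW, fun i hi => ?_⟩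
    by_cases hi' : i + p < k + l
    · exact hper i hi'
    · -- the new letter
      have hie : i + p = k + l := by omega
      set o : List A := nm (l - 1) w (s + k + 1) with ho
      have hol : o.length = l - 1 := nm_length _ _ _ (by omega)
      have hop : o.HasPeriod p := by
        rw [List.hasPeriod_iff_getElem?, hol]
        intro x hx
        rw [ho, nm_getElem? _ w _ x (by omega), nm_getElem? _ w _ (x + p) (by omega)]
        have := hper (k + 1 + x) (by omega)
        simpa [add_assoc] using this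
      have hoq : o.HasPeriod q := by
        rw [List.hasPeriod_iff_getElem?, hol]
        intro x hx
        rw [ho, nm_getElem? _ w _ x (by omega), nm_getElem? _ w _ (x + q) (by omega)]
        have := hqer' x (by omega)
        simpa [add_assoc] using this
      have hg := hop.gcd hoq (by omega)
      have gm := fun x (hx : x < o.length) => hg.getElem?_mod (p.gcd q) x o hx
      have e1 := gm (l - 1 - p) (by omega)
      have e2 := gm (l - 1 - q) (by omega)
      have hmod : (l - 1 - p) % p.gcd q = (l - 1 - q) % p.gcd q := by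
        have a : (l - 1 - p) % p.gcd q = (l - 1) % p.gcd q := by
          conv_rhs => rw [show l - 1 = (l - 1 - p) + p by omega]
          obtain ⟨c, hc⟩ := Nat.gcd_dvd_left p q
          conv_rhs => rw [show (l - 1 - p + p) = (l - 1 - p) + p.gcd q * c by rw [← hc]]
          rw [Nat.add_mul_mod_self_left]
        have b : (l - 1 - q) % p.gcd q = (l - 1) % p.gcd q := by
          conv_rhs => rw [show l - 1 = (l - 1 - q) + q by omega]
          obtain ⟨c, hc⟩ := Nat.gcd_dvd_right p q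
          conv_rhs => rw [show (l - 1 - q + q) = (l - 1 - q) + p.gcd q * c by rw [← hc]]
          rw [Nat.add_mul_mod_self_left]
        rw [a, b]
      have e3 : o[l - 1 - p]? = o[l - 1 - q]? := by rw [← e1, ← e2, hmod]
      rw [ho, nm_getElem? _ w _ _ (by omega), nm_getElem? _ w _ _ (by omega)] at e3
      have e4 := hqer' (l - q - 1) (by omega)
      have i1 : s + i = s + k + 1 + (l - 1 - p) := by omega
      have i2 : s + k + 1 + (l - 1 - q) = s + (k + 1) + (l - q - 1) := by omega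
      have i3 : s + (k + 1) + (l - q - 1) + q = s + i + p := by omega
      rw [i1, e3, i2, e4, i3, ← i1]

/-- **Walls on all words.** -/
theorem exists_marks (A : Type*) [Finite A] (W : ℕ) (hW : 0 < W) :
    ∃ (n G : ℕ) (R : List A → Prop),
      (∀ Q : List A, R Q ↔ R (Q.take n)) ∧
      (∀ Q : List A, R Q → n ≤ Q.length) ∧
      (∀ (Q : List A) (d : ℕ), R Q → 0 < d → d ≤ W → ¬ R (Q.drop d)) ∧
      (∀ (Q : List A) (p : ℕ), 0 < p → p ≤ W → (Q.take n).HasPeriod p → ¬ R Q) ∧
      (∀ (Q : List A) (N : ℕ), N + n ≤ Q.length → (∀ i < N, ¬ R (Q.drop i)) →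
        ∃ p, 0 < p ∧ p ≤ W ∧ ((Q.drop G).take (N - 2 * G)).HasPeriod p) := by
  classical
  have : Countable A := Finite.to_countable
  obtain ⟨enc, henc⟩ := Countable.exists_injective_nat (List A)
  set l := 2 * W + 1 with hl
  obtain ⟨B, hB⟩ : ∃ B, ∀ x : List A, x.length = l → enc x < B := by
    have hf : {x : List A | x.length = l}.Finite := List.finite_length_eq A l
    obtain ⟨b, hb⟩ := (hf.image enc).bddAbove
    exact ⟨b + 1, fun x hx => Nat.lt_succ_of_le (hb ⟨x, hx, rfl⟩)⟩
  refine ⟨2 * W + l, W * B, R enc W l, R_take enc W l, fun Q h => h.1,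
    fun Q d h hd hdW h' => R_sep enc W l Q d hd hdW h h',
    fun Q p hp hpW h => R_run enc W l Q p hp hpW h, fun Q N hN hno => ?_⟩
  by_cases hNG : N ≤ 2 * (W * B)
  · refine ⟨1, one_pos, hW, ?_⟩
    rw [Nat.sub_eq_zero_of_le hNG]
    simp
  · push Not at hNG
    have hper : ∀ c, W * B ≤ c → c + W * B < N → PerN W l Q c := by
      intro c h1 h2
      by_contra hn
      obtain ⟨j, hj1, hj2, hj3⟩ := descent enc henc W l Q B c
        (hB _ (nm_length l Q c (by omega))) h1 (by omega) hn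
      exact hno j (by omega) hj3
    obtain ⟨p, hp, hpW, h⟩ := stretch W l le_rfl Q (W * B) (N - 2 * (W * B) - 1) (by omega)
      (fun i hi => hper _ (by omega) (by omega))
    refine ⟨p, hp, hpW, ?_⟩
    rw [List.hasPeriod_iff_getElem?, List.length_take, List.length_drop]
    intro i hi
    rw [List.getElem?_take_of_lt (by omega), List.getElem?_take_of_lt (by omega),
      List.getElem?_drop, List.getElem?_drop]
    have := h i (by omega)
    rw [this, Nat.add_assoc]

/-- a word with period `p` is a power of its prefix of length `p` and a short rest -/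
theorem per_pow (p : ℕ) (hp : 0 < p) (m : List A) (h : m.HasPeriod p) :
    ∃ k r, r.length < p ∧ m = (List.replicate k (m.take p)).flatten ++ r := by
  induction hm : m.length using Nat.strong_induction_on generalizing m with
  | _ N ih =>
    by_cases hlt : m.length < p
    · exact ⟨0, m, hlt, by simp⟩
    · push Not at hlt
      have hper' : (m.drop p).HasPeriod p := h.infix (List.drop_suffix _ _).isInfix
      obtain ⟨k, r, hr, hk⟩ := ih (m.drop p).length (by rw [List.length_drop]; omega)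
        (m.drop p) hper' rfl
      obtain ⟨z, hz⟩ := h.drop_prefix p
      by_cases h2 : p ≤ (m.drop p).length
      · have ht : (m.drop p).take p = m.take p := by
          conv_rhs => rw [← hz]
          rw [List.take_append_of_le_length h2]
        refine ⟨k + 1, r, hr, ?_⟩
        rw [List.replicate_succ, List.flatten_cons, List.append_assoc, ← ht, ← hk, ht,
          List.take_append_drop]
      · push Not at h2
        refine ⟨1, m.drop p, h2, ?_⟩
        simp


end Crest.Agent.R320.MarkAll_813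
end

-- ▼ part R320/Wall_291
section

set_option autoImplicit false

/-!
Row 320: walls on words without high powers of short words.
-/

namespace Crest.Agent.R320.Wall_291

variable {α : Type*}

/-- no `e`-th power of a nonempty word of length at most `p` is a factor of `Q` -/
def RF (e p : ℕ) (Q : List α) : Prop :=
  ∀ x : List α, x ≠ [] → x.length ≤ p → ¬ (List.replicate e x).flatten <:+: Q

theorem RF.infix {e p : ℕ} {Q Q' : List α} (h : RF e p Q) (hQ : Q' <:+: Q) : RF e p Q' :=
  fun x hx hl hi => h x hx hl (hi.trans hQ)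

theorem RF.drop {e p : ℕ} {Q : List α} (h : RF e p Q) (i : ℕ) : RF e p (Q.drop i) :=
  h.infix (List.drop_suffix i Q).isInfix

theorem RF.take {e p : ℕ} {Q : List α} (h : RF e p Q) (i : ℕ) : RF e p (Q.take i) :=
  h.infix (List.take_prefix i Q).isInfix

theorem RF.mono {e p p' : ℕ} {Q : List α} (h : RF e p Q) (hp : p' ≤ p) : RF e p' Q :=
  fun x hx hl hi => h x hx (hl.trans hp) hi



/-- the wall rule: the name at offset `W` is the strict minimum of the names at offsets `0..2W` -/
def R (enc : List α → ℕ) (W L : ℕ) (Q : List α) : Prop :=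
  2 * W + L ≤ Q.length ∧
    ∀ k, k ≤ 2 * W → k ≠ W → enc ((Q.drop W).take L) < enc ((Q.drop k).take L)





end Crest.Agent.R320.Wall_291
end

-- ▼ part R320/Core1_922
section

/-!
# Row 320, CORE-1 (helper922): left-looking outer walls, the prefix code of zones, junctions

* `walls_left` : left-looking form of 291's wall rule;
* `XX Wo Ok` : zones = shortest non-empty texts which end in a wall at an admissible distance;
* `RQ Wo Ok LL` : right-legal texts up to the next anchor;
* `prefix_code`, `parse_unique`, `junction`, `cover`, `length_le_of_RF`;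
* `rq_of_notE` : thresholds by residue (132): off (E) every comb place is right-legal.
-/

set_option autoImplicit false

namespace Crest.Agent.R320.Core1_922

open Crest.Agent.R320.Wall_291

variable {α : Type*}

/-- left-looking local rule with window `n` -/
structure LW (n : ℕ) (Wo : List α → Prop) : Prop where
  app : ∀ P Q : List α, n ≤ Q.length → (Wo (P ++ Q) ↔ Wo Q)
  len : ∀ Q, Wo Q → n ≤ Q.length



/-- the zones -/
def XX (Wo : List α → Prop) (Ok : ℕ → Prop) : Set (List α) :=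
  {X | Wo X ∧ Ok X.length ∧ ∀ t < X.length, Wo (X.take t) → ¬ Ok t}









/-! ### 132's thresholds by residue -/








end Crest.Agent.R320.Core1_922
end

-- ▼ part R320/LWallAll_922
section

/-!
# Row 320: left-looking walls on ALL words (helper922), over 813's marker rule

`walls_all_left` : one rule `Wo` with window `n` such that
* `LW n Wo` : `Wo (P ++ Q) ↔ Wo Q` for `n ≤ |Q|`, and `Wo Q → n ≤ |Q|`;
* two walls of the same text are more than `W` apart;
* no wall stands at the end of `n` letters of period `≤ W`;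
* a wall-free stretch `(b - N, b]` is periodic, up to `G` letters at both ends, with one period `≤ W`;
* a text without inner walls is `u ++ x^k ++ v` with `|u|, |v| ≤ B`, `|x| ≤ W`.
-/

set_option autoImplicit false

namespace Crest.Agent.R320.LWallAll_922

open Crest.Agent.R320.MarkAll_813 Crest.Agent.R320.Core1_922

variable {α : Type*}

theorem hasPeriod_reverse {w : List α} {p : ℕ} (h : w.HasPeriod p) : w.reverse.HasPeriod p := by
  rw [List.hasPeriod_iff_getElem?] at h ⊢
  intro i hi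
  rw [List.length_reverse] at hi
  rw [List.getElem?_reverse (by omega), List.getElem?_reverse (by omega)]
  have h1 := h (w.length - 1 - (i + p)) (by omega)
  rw [h1]
  congr 1
  omega

theorem hasPeriod_of_reverse {w : List α} {p : ℕ} (h : w.reverse.HasPeriod p) : w.HasPeriod p := by
  have := hasPeriod_reverse h
  rwa [List.reverse_reverse] at this

theorem drop_reverse_take (X : List α) {b i : ℕ} (hb : b ≤ X.length) :
    ((X.take b).reverse).drop i = (X.take (b - i)).reverse := by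
  rw [List.drop_reverse, List.length_take, min_eq_left hb, List.take_take,
    min_eq_left (Nat.sub_le _ _)]

theorem walls_all_left (A : Type*) [Finite A] (W : ℕ) (hW : 0 < W) :
    ∃ (n G B : ℕ) (Wo : List A → Prop), LW n Wo ∧
      (∀ (X : List A) (s t : ℕ), s < t → t ≤ X.length → Wo (X.take s) → Wo (X.take t) →
        W < t - s) ∧
      (∀ (X : List A) (p : ℕ), 0 < p → p ≤ W → Wo X → ¬ (X.drop (X.length - n)).HasPeriod p) ∧
      (∀ (X : List A) (b N : ℕ), N + n ≤ b → b ≤ X.length →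
        (∀ t, b < t + N → t ≤ b → ¬ Wo (X.take t)) →
        ∃ p, 0 < p ∧ p ≤ W ∧ ((X.drop (b - N + G)).take (N - 2 * G)).HasPeriod p) ∧
      (∀ X : List A, (∀ t < X.length, ¬ Wo (X.take t)) →
        ∃ (u x v : List A) (k : ℕ), u.length ≤ B ∧ x.length ≤ W ∧ v.length ≤ B ∧
          X = u ++ (List.replicate k x).flatten ++ v) := by
  obtain ⟨n, G, R, h1, h2, h3, h4, h5⟩ := exists_marks A W hW
  have happ : ∀ P Q : List A, n ≤ Q.length → (R (P ++ Q).reverse ↔ R Q.reverse) := by
    intro P Q hQ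
    rw [List.reverse_append, h1, h1 Q.reverse, List.take_append_of_le_length (by simpa using hQ)]
  have hstr : ∀ (X : List A) (b N : ℕ), N + n ≤ b → b ≤ X.length →
      (∀ t, b < t + N → t ≤ b → ¬ R (X.take t).reverse) →
      ∃ p, 0 < p ∧ p ≤ W ∧ ((X.drop (b - N + G)).take (N - 2 * G)).HasPeriod p := by
    intro X b N hN hb hno
    obtain ⟨p, hp, hpW, hper⟩ := h5 (X.take b).reverse N
      (by rw [List.length_reverse, List.length_take]; omega)
      (fun i hi => by
        rw [drop_reverse_take X hb]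
        exact hno (b - i) (by omega) (by omega))
    refine ⟨p, hp, hpW, ?_⟩
    by_cases hG : N < 2 * G
    · rw [Nat.sub_eq_zero_of_le hG.le, List.take_zero]
      exact List.hasPeriod_empty p
    · push Not at hG
      rw [drop_reverse_take X hb] at hper
      have e1 : ((X.take (b - G)).reverse).take (N - 2 * G) =
          ((X.take (b - G)).drop (b - N + G)).reverse := by
        rw [List.take_reverse, List.length_take, min_eq_left (by omega)]
        congr 2
        omega
      rw [e1] at hper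
      have e2 : (X.drop (b - N + G)).take (N - 2 * G) = (X.take (b - G)).drop (b - N + G) := by
        rw [List.take_drop]
        congr 2
        omega
      rw [e2]
      exact hasPeriod_of_reverse hper
  refine ⟨n, G, n + 2 * G + W + 1, fun X => R X.reverse, ⟨happ, fun Q hQ => by simpa using h2 _ hQ⟩,
    ?_, ?_, hstr, ?_⟩
  · intro X s t hst ht hs hR
    by_contra hW'
    refine h3 (X.take t).reverse (t - s) hR (by omega) (by omega) ?_
    rw [drop_reverse_take X ht, Nat.sub_sub_self hst.le]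
    exact hs
  · intro X p hp hpW hR hper
    refine h4 X.reverse p hp hpW ?_ hR
    rw [List.take_reverse]
    exact hasPeriod_reverse hper
  · intro X hX
    by_cases hs : X.length ≤ n + 1
    · exact ⟨X, [], [], 0, by omega, by simp, by simp, by simp⟩
    push Not at hs
    obtain ⟨p, hp, hpW, hper⟩ := hstr X (X.length - 1) (X.length - 1 - n) (by omega) (by omega)
      (fun t _ ht => hX t (by omega))
    set m := (X.drop (X.length - 1 - (X.length - 1 - n) + G)).take
      (X.length - 1 - n - 2 * G) with hm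
    obtain ⟨k, r, hr, hk⟩ := per_pow p hp m hper
    refine ⟨X.take (X.length - 1 - (X.length - 1 - n) + G), m.take p,
      r ++ (X.drop (X.length - 1 - (X.length - 1 - n) + G)).drop (X.length - 1 - n - 2 * G), k,
      ?_, ?_, ?_, ?_⟩
    · rw [List.length_take]; omega
    · rw [List.length_take]; omega
    · rw [List.length_append, List.length_drop, List.length_drop]; omega
    · rw [List.append_assoc, ← List.append_assoc _ r, ← hk, hm,
        List.take_append_drop, List.take_append_drop]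

end Crest.Agent.R320.LWallAll_922
end

-- ▼ part R320/Names_570
section

set_option autoImplicit false

/-! Name code by CRT (helper755 #12640 (A)+(B)). -/

namespace Crest.Agent.R320.Names_570

/-- sign of a residue modulo an odd number: `true` = lower half, `false` = upper half -/
def SP (m : ℕ) (e : Bool) (x : ℕ) : Prop :=
  if e then (0 < x % m ∧ 2 * (x % m) < m) else (m < 2 * (x % m))

lemma SP_exists {m : ℕ} (hm : m % 2 = 1) {x : ℕ} (hx : ¬ m ∣ x) : ∃ e, SP m e x := by
  have h0 : x % m ≠ 0 := fun h => hx (Nat.dvd_of_mod_eq_zero h)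
  rcases lt_or_ge (2 * (x % m)) m with h | h
  · exact ⟨true, by simp only [SP, if_true]; exact ⟨Nat.pos_of_ne_zero h0, h⟩⟩
  · refine ⟨false, ?_⟩
    simp only [SP, Bool.false_eq_true, if_false]
    omega

lemma SP_not_dvd {m : ℕ} (e : Bool) {x : ℕ} (hm : 0 < m) (h : SP m e x) : ¬ m ∣ x := by
  intro hd
  have h0 := Nat.mod_eq_zero_of_dvd hd
  cases e <;> simp only [SP, Bool.false_eq_true, if_false, if_true] at h <;> omega

lemma SP_unique {m : ℕ} {e e' : Bool} {x : ℕ} (h : SP m e x) (h' : SP m e' x) : e = e' := by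
  cases e <;> cases e' <;>
    simp only [SP, Bool.false_eq_true, if_false, if_true] at h h' <;> first | rfl | omega

/-- two residues of the same sign do not add up to zero -/
lemma SP_add {m : ℕ} (hm : m % 2 = 1) {e : Bool} {x y : ℕ} (h : SP m e x) (h' : SP m e y) :
    ¬ m ∣ x + y := by
  have hm0 : 0 < m := by omega
  intro hd
  have hxy : (x % m + y % m) % m = 0 := by
    rw [← Nat.add_mod]; exact Nat.mod_eq_zero_of_dvd hd
  have hx := Nat.mod_lt x hm0
  have hy := Nat.mod_lt y hm0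
  cases e
  · simp only [SP, Bool.false_eq_true, if_false] at h h'
    have h1 : (x % m + y % m) = m + (x % m + y % m - m) := by omega
    rw [h1, Nat.add_mod_left, Nat.mod_eq_of_lt (by omega)] at hxy
    omega
  · simp only [SP, if_true] at h h'
    rw [Nat.mod_eq_of_lt (by omega)] at hxy
    omega

lemma SP_congr {m : ℕ} {e : Bool} {x y : ℕ} (h : x % m = y % m) : SP m e x ↔ SP m e y := by
  unfold SP; rw [h]

section Core

variable {L J C : Type*} (q q' : L → ℕ) (mo : J → ℕ) (ty : L → J → Bool) (ep : L → J → Bool)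

/-- left side shows the pattern of the name `c` at clock value `t` -/
def LG (c : L) (t : ℕ) : Prop :=
  (∀ l, l ≠ c → ¬ q l ∣ t ∧ q' l ∣ t) ∧ (q c ∣ t ∧ ¬ q' c ∣ t) ∧
  (∀ j, if ty c j then SP (mo j) (ep c j) t else mo j ∣ t)

/-- right side shows the pattern of the name `c` at clock value `t` -/
def RG (c : L) (t : ℕ) : Prop :=
  (∀ l, l ≠ c → q l ∣ t ∧ ¬ q' l ∣ t) ∧ (¬ q c ∣ t ∧ q' c ∣ t) ∧
  (∀ j, if ty c j then mo j ∣ t else SP (mo j) (ep c j) t)

variable {q q' mo ty ep}

lemma LG_unique {c d : L} {t : ℕ} (h : LG q q' mo ty ep c t) (h' : LG q q' mo ty ep d t) :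
    c = d := by
  by_contra hne
  exact (h.1 d (fun e => hne e.symm)).1 h'.2.1.1

lemma RG_unique {c d : L} {t : ℕ} (h : RG q q' mo ty ep c t) (h' : RG q q' mo ty ep d t) :
    c = d := by
  by_contra hne
  exact h'.2.1.1 (h.1 d (fun e => hne e.symm)).1

/-- different names: moduli dividing the total -/
lemma ne_dvd {c c' : L} {t t' : ℕ} (h : LG q q' mo ty ep c t) (h' : RG q q' mo ty ep c' t')
    (hne : c ≠ c') : q c ∣ t + t' ∧ q' c' ∣ t + t' :=
  ⟨dvd_add h.2.1.1 (h'.1 c hne).1, dvd_add (h.1 c' (fun e => hne e.symm)).2 h'.2.1.2⟩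

lemma eq_bit {c c' : L} {t t' : ℕ} (h : LG q q' mo ty ep c t) (h' : RG q q' mo ty ep c' t')
    {l : L} (h1 : l ≠ c) (h2 : l ≠ c') : ¬ q l ∣ t + t' ∧ ¬ q' l ∣ t + t' := by
  refine ⟨fun hd => (h.1 l h1).1 ?_, fun hd => (h'.1 l h2).2 ?_⟩
  · exact (Nat.dvd_add_left (h'.1 l h2).1).1 hd
  · exact (Nat.dvd_add_right (h.1 l h1).2).1 hd

lemma same_not_dvd {c : L} {t t' : ℕ} (h : LG q q' mo ty ep c t) (h' : RG q q' mo ty ep c t')
    (hmo : ∀ j, 0 < mo j) :
    (∀ l, ¬ q l ∣ t + t' ∧ ¬ q' l ∣ t + t') ∧ ∀ j, ¬ mo j ∣ t + t' := by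
  refine ⟨fun l => ?_, fun j hd => ?_⟩
  · by_cases hl : l = c
    · subst hl
      exact ⟨fun hd => h'.2.1.1 ((Nat.dvd_add_right h.2.1.1).1 hd),
        fun hd => h.2.1.2 ((Nat.dvd_add_left h'.2.1.2).1 hd)⟩
    · exact eq_bit h h' hl hl
  · have a := h.2.2 j
    have b := h'.2.2 j
    cases hty : ty c j
    · rw [hty] at a b
      simp only [Bool.false_eq_true, if_false] at a b
      exact SP_not_dvd _ (hmo j) b ((Nat.dvd_add_right a).1 hd)
    · rw [hty] at a b
      simp only [if_true] at a b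
      exact SP_not_dvd _ (hmo j) a ((Nat.dvd_add_left b).1 hd)

/-- swapped pairs at the same total need equal types xor signs -/
lemma swap {c c' : L} {t t' s s' : ℕ} (hT : t + t' = s + s')
    (h1 : LG q q' mo ty ep c t) (h2 : RG q q' mo ty ep c' t')
    (h3 : LG q q' mo ty ep c' s) (h4 : RG q q' mo ty ep c s')
    (hodd : ∀ j, mo j % 2 = 1) (j : J) :
    (xor (ty c j) (ep c j)) = (xor (ty c' j) (ep c' j)) := by
  have a1 := h1.2.2 j
  have a2 := h2.2.2 j
  have a3 := h3.2.2 j
  have a4 := h4.2.2 j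
  have hm0 : 0 < mo j := by have := hodd j; omega
  -- helper: sign of a sum with a multiple
  have key : ∀ (e : Bool) (x y : ℕ), mo j ∣ x → SP (mo j) e y → SP (mo j) e (x + y) := by
    intro e x y hx hy
    refine (SP_congr ?_).2 hy
    rw [Nat.add_mod, Nat.mod_eq_zero_of_dvd hx, zero_add, Nat.mod_mod]
  cases hc : ty c j <;> cases hc' : ty c' j <;> rw [hc] at a1 a4 <;> rw [hc'] at a2 a3 <;>
    simp only [Bool.false_eq_true, if_false, if_true] at a1 a2 a3 a4
  · -- types 0 0 : t ≡ 0, t' ∈ S_{ep c'}, s ≡ 0, s' ∈ S_{ep c}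
    have b1 := key _ _ _ a1 a2
    have b2 := key _ _ _ a3 a4
    rw [hT] at b1
    rw [SP_unique b1 b2]
  · -- ty c = 0, ty c' = 1 : t ≡ 0, t' ≡ 0 ; s ∈ S_{ep c'}, s' ∈ S_{ep c}
    have b1 : mo j ∣ s + s' := hT ▸ dvd_add a1 a2
    by_contra hne
    have he : ep c j = ep c' j := by
      revert hne; cases ep c j <;> cases ep c' j <;> simp
    rw [he] at a4
    exact SP_add (hodd j) a3 a4 b1
  · -- ty c = 1, ty c' = 0 : t ∈ S_{ep c}, t' ∈ S_{ep c'} ; s ≡ 0, s' ≡ 0
    have b1 : mo j ∣ t + t' := hT ▸ dvd_add a3 a4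
    by_contra hne
    have he : ep c j = ep c' j := by
      revert hne; cases ep c j <;> cases ep c' j <;> simp
    rw [he] at a1
    exact SP_add (hodd j) a1 a2 b1
  · -- types 1 1
    have b1 := key _ _ _ a2 a1
    have b2 := key _ _ _ a4 a3
    rw [Nat.add_comm t' t, hT] at b1
    rw [Nat.add_comm s' s] at b2
    rw [SP_unique b1 b2]

end Core

lemma exists_shift (k s M : ℕ) (hM : 0 < M) : ∃ t, s ≤ t ∧ t < s + M ∧ t % M = k % M := by
  refine ⟨s + (k + (M - s % M)) % M, Nat.le_add_right _ _, ?_, ?_⟩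
  · have := Nat.mod_lt (k + (M - s % M)) hM
    omega
  · have h1 : s % M < M := Nat.mod_lt s hM
    have h2 : (s + (k + (M - s % M)) % M) % M = (s + (k + (M - s % M))) % M := by
      rw [Nat.add_mod, Nat.mod_mod, ← Nat.add_mod]
    rw [h2]
    have h3 : s + (k + (M - s % M)) = k + M * (s / M + 1) := by
      have := Nat.div_add_mod s M
      have h4 : M * (s / M + 1) = M * (s / M) + M := by ring
      omega
    rw [h3, Nat.add_mul_mod_self_left]

lemma mod_of_dvd_mod {m M a b : ℕ} (h : m ∣ M) (hab : a % M = b % M) : a % m = b % m := by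
  have := congrArg (· % m) hab
  simpa [Nat.mod_mod_of_dvd _ h] using this

/-- distinct odd primes above a bound, indexed by a finite type -/
lemma exists_primes (I : Type*) [Finite I] (B : ℕ) :
    ∃ p : I → ℕ, Function.Injective p ∧ (∀ i, (p i).Prime) ∧ (∀ i, B < p i) ∧ ∀ i, p i % 2 = 1 := by
  classical
  have hinf : Set.Infinite ({p : ℕ | p.Prime} \ Set.Iic (B + 2)) :=
    Set.Infinite.diff Nat.infinite_setOfPred_prime (Set.finite_Iic (B + 2))
  obtain ⟨n, ⟨e⟩⟩ := Finite.exists_equiv_fin I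
  let f := hinf.natEmbedding
  refine ⟨fun i => (f (e i : ℕ)).1, ?_, ?_, ?_, ?_⟩
  · intro a b hab
    have h1 : f (e a : ℕ) = f (e b : ℕ) := Subtype.ext hab
    have h2 := f.injective h1
    exact e.injective (Fin.ext h2)
  · intro i; exact (f (e i : ℕ)).2.1
  · intro i
    have h := (f (e i : ℕ)).2.2
    simp only [Set.mem_Iic, not_le] at h
    show B < (f (e i : ℕ)).1
    omega
  · intro i
    have hp : ((f (e i : ℕ)).1).Prime := (f (e i : ℕ)).2.1
    have h := (f (e i : ℕ)).2.2
    simp only [Set.mem_Iic, not_le] at h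
    rcases hp.eq_two_or_odd with h2 | h2
    · show ((f (e i : ℕ)).1) % 2 = 1
      omega
    · exact h2

/-- pick the base name of a predicate on names -/
noncomputable def pick {L N : Type*} (b : L → N) (P : L → Prop) : Option N := by
  classical exact if h : ∃ l, P l then some (b h.choose) else none

lemma pick_some {L N : Type*} (b : L → N) (P : L → Prop) (hP : ∀ l l', P l → P l' → l = l')
    {l : L} (h : P l) : pick b P = some (b l) := by
  classical
  have hex : ∃ l, P l := ⟨l, h⟩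
  unfold pick
  rw [dif_pos hex, hP _ _ hex.choose_spec h]

lemma of_pick {L N : Type*} (b : L → N) (P : L → Prop) {n : N} (h : pick b P = some n) :
    ∃ l, P l ∧ b l = n := by
  classical
  unfold pick at h
  split_ifs at h with hex
  exact ⟨hex.choose, hex.choose_spec, by simpa using h⟩

/-- **Name code.** `N` = names, `C` = colours.  `nmL`, `nmR` = name shown by the left / right
clock; `T = t + t'` is unknown to both sides. -/
theorem exists_names {N C : Type*} [Finite N] [Finite C] (col : N → C) :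
    ∃ r : ℕ, ∀ B : ℕ, ∃ (Ms : Finset ℕ) (nmL nmR : ℕ → Option N),
      Ms.card ≤ r ∧ (∀ m ∈ Ms, m.Prime ∧ B < m) ∧
      (∀ t, nmL (t + ∏ m ∈ Ms, m) = nmL t) ∧ (∀ t, nmR (t + ∏ m ∈ Ms, m) = nmR t) ∧
      (∀ t t' c c', (∀ m ∈ Ms, ¬ m ∣ t + t') → nmL t = some c → nmR t' = some c' → c = c') ∧
      (∀ T c s, (∀ m ∈ Ms, ¬ m ∣ T) → s + ∏ m ∈ Ms, m ≤ T + 1 →
        ∃ t, s ≤ t ∧ t < s + ∏ m ∈ Ms, m ∧ t ≤ T ∧ nmL t = some c ∧ nmR (T - t) = some c) ∧
      (∀ t1 t1' t2 t2' c1 c1' c2 c2', t1 + t1' = t2 + t2' → (∃ m ∈ Ms, m ∣ t1 + t1') →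
        nmL t1 = some c1 → nmR t1' = some c1' → nmL t2 = some c2 → nmR t2' = some c2' →
        (c1 = c2 ∧ c1' = c2') ∨ (c1 = c2' ∧ c1' = c2 ∧ col c1 = col c1')) := by
  classical
  haveI := Fintype.ofFinite N
  haveI := Fintype.ofFinite C
  let L := (C → Bool) × N
  let I := L ⊕ L ⊕ C
  refine ⟨Fintype.card I, fun B => ?_⟩
  obtain ⟨p, hpinj, hpp, hpB, hpodd⟩ := exists_primes I B
  let q : L → ℕ := fun l => p (Sum.inl l)
  let q' : L → ℕ := fun l => p (Sum.inr (Sum.inl l))
  let mo : C → ℕ := fun j => p (Sum.inr (Sum.inr j))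
  let code : C → C → Bool := fun c j => decide (c = j)
  let ep : L → C → Bool := fun l j => l.1 j
  let ty : L → C → Bool := fun l j => xor (code (col l.2) j) (l.1 j)
  let Ms : Finset ℕ := Finset.univ.image p
  let nmL : ℕ → Option N := fun t => pick (fun l : L => l.2) (fun l => LG q q' mo ty ep l t)
  let nmR : ℕ → Option N := fun t => pick (fun l : L => l.2) (fun l => RG q q' mo ty ep l t)
  have hMprod : ∏ m ∈ Ms, m = ∏ i, p i := by
    show ∏ m ∈ Finset.univ.image p, m = _
    rw [Finset.prod_image (fun a _ b _ h => hpinj h)]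
  have hpos : ∀ i, 0 < p i := fun i => (hpp i).pos
  have hMpos : 0 < ∏ m ∈ Ms, m := by
    rw [hMprod]; exact Finset.prod_pos (fun i _ => hpos i)
  have hdvdM : ∀ i, p i ∣ ∏ m ∈ Ms, m := by
    intro i; rw [hMprod]; exact Finset.dvd_prod_of_mem p (Finset.mem_univ i)
  have hmem : ∀ i, p i ∈ Ms := fun i => Finset.mem_image_of_mem p (Finset.mem_univ i)
  have hmo : ∀ j, 0 < mo j := fun j => hpos _
  have hodd : ∀ j, mo j % 2 = 1 := fun j => hpodd _
  -- congruence invariance
  have hLGc : ∀ l t t', (∀ i, t % p i = t' % p i) →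
      (LG q q' mo ty ep l t ↔ LG q q' mo ty ep l t') := by
    intro l t t' h
    have hd : ∀ i, (p i ∣ t ↔ p i ∣ t') := by
      intro i; rw [Nat.dvd_iff_mod_eq_zero, Nat.dvd_iff_mod_eq_zero, h i]
    have hs : ∀ j e, (SP (mo j) e t ↔ SP (mo j) e t') := fun j e => SP_congr (h _)
    have hdq : ∀ l, (q l ∣ t ↔ q l ∣ t') := fun l => hd _
    have hdq' : ∀ l, (q' l ∣ t ↔ q' l ∣ t') := fun l => hd _
    have hdm : ∀ j, (mo j ∣ t ↔ mo j ∣ t') := fun l => hd _
    simp only [LG, hdq, hdq', hdm, hs]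
  have hRGc : ∀ l t t', (∀ i, t % p i = t' % p i) →
      (RG q q' mo ty ep l t ↔ RG q q' mo ty ep l t') := by
    intro l t t' h
    have hd : ∀ i, (p i ∣ t ↔ p i ∣ t') := by
      intro i; rw [Nat.dvd_iff_mod_eq_zero, Nat.dvd_iff_mod_eq_zero, h i]
    have hs : ∀ j e, (SP (mo j) e t ↔ SP (mo j) e t') := fun j e => SP_congr (h _)
    have hdq : ∀ l, (q l ∣ t ↔ q l ∣ t') := fun l => hd _
    have hdq' : ∀ l, (q' l ∣ t ↔ q' l ∣ t') := fun l => hd _
    have hdm : ∀ j, (mo j ∣ t ↔ mo j ∣ t') := fun l => hd _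
    simp only [RG, hdq, hdq', hdm, hs]
  have hper : ∀ t i, (t + ∏ m ∈ Ms, m) % p i = t % p i := by
    intro t i
    obtain ⟨k, hk⟩ := hdvdM i
    rw [hk, Nat.add_mul_mod_self_left]
  have hLu : ∀ t, ∀ l l' : L, LG q q' mo ty ep l t → LG q q' mo ty ep l' t → l = l' :=
    fun t l l' h h' => LG_unique h h'
  have hRu : ∀ t, ∀ l l' : L, RG q q' mo ty ep l t → RG q q' mo ty ep l' t → l = l' :=
    fun t l l' h h' => RG_unique h h'
  refine ⟨Ms, nmL, nmR, ?_, ?_, ?_, ?_, ?_, ?_, ?_⟩
  · exact Finset.card_image_le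
  · intro m hm
    obtain ⟨i, -, rfl⟩ := Finset.mem_image.1 hm
    exact ⟨hpp i, hpB i⟩
  · intro t
    show pick _ _ = pick _ _
    congr 1
    funext l
    exact propext (hLGc l _ _ (hper t))
  · intro t
    show pick _ _ = pick _ _
    congr 1
    funext l
    exact propext (hRGc l _ _ (hper t))
  · intro t t' c c' hT h h'
    obtain ⟨l, hl, rfl⟩ := of_pick _ _ h
    obtain ⟨l', hl', rfl⟩ := of_pick _ _ h'
    by_contra hne
    have hne' : l ≠ l' := fun e => hne (by rw [e])
    exact hT _ (hmem (Sum.inl l)) (ne_dvd hl hl' hne').1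
  · intro T c s hT hs
    have hTi : ∀ i, ¬ p i ∣ T := fun i => hT _ (hmem i)
    choose eps heps using fun j => SP_exists (hodd j) (hTi (Sum.inr (Sum.inr j)))
    let l0 : L := (eps, c)
    let ρ : I → ℕ := fun i => match i with
      | Sum.inl l => if l = l0 then 0 else T
      | Sum.inr (Sum.inl l) => if l = l0 then T else 0
      | Sum.inr (Sum.inr j) => if ty l0 j then T else 0
    obtain ⟨k, hk⟩ := Nat.chineseRemainderOfFinset ρ p Finset.univ
      (fun i _ => (hpos i).ne') (by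
        intro a _ b _ hab
        exact (Nat.coprime_primes (hpp a) (hpp b)).2 (fun e => hab (hpinj e)))
    obtain ⟨t, ht1, ht2, ht3⟩ := exists_shift k s _ hMpos
    have htT : t ≤ T := by omega
    have htm : ∀ i, t % p i = ρ i % p i := by
      intro i
      rw [mod_of_dvd_mod (hdvdM i) ht3]
      exact hk i (Finset.mem_univ i)
    have hz : ∀ i, ρ i = 0 → p i ∣ t := by
      intro i hi
      have := htm i
      rw [hi, Nat.zero_mod] at this
      exact Nat.dvd_of_mod_eq_zero this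
    have hTT : ∀ i, ρ i = T → p i ∣ T - t := by
      intro i hi
      have := htm i
      rw [hi] at this
      exact (Nat.modEq_iff_dvd' htT).1 this
    have hsum : t + (T - t) = T := Nat.add_sub_cancel' htT
    have hnz : ∀ i, p i ∣ t → ¬ p i ∣ T - t := fun i h h' => hTi i (hsum ▸ dvd_add h h')
    have hnz' : ∀ i, p i ∣ T - t → ¬ p i ∣ t := fun i h h' => hnz i h' h
    have hmodT : ∀ i, p i ∣ T - t → t % p i = T % p i := by
      intro i h
      exact (Nat.modEq_iff_dvd' htT).2 h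
    have hmodT' : ∀ i, p i ∣ t → (T - t) % p i = T % p i := by
      intro i h
      conv_rhs => rw [← hsum]
      rw [Nat.add_mod, Nat.mod_eq_zero_of_dvd h, zero_add, Nat.mod_mod]
    have hq : ∀ l, l ≠ l0 → q l ∣ T - t := by
      intro l hl; exact hTT (Sum.inl l) (by simp [ρ, hl])
    have hq0 : q l0 ∣ t := hz (Sum.inl l0) (by simp [ρ])
    have hq' : ∀ l, l ≠ l0 → q' l ∣ t := by
      intro l hl; exact hz (Sum.inr (Sum.inl l)) (by simp [ρ, hl])
    have hq'0 : q' l0 ∣ T - t := hTT (Sum.inr (Sum.inl l0)) (by simp [ρ])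
    have hLG : LG q q' mo ty ep l0 t := by
      refine ⟨fun l hl => ⟨hnz' _ (hq l hl), hq' l hl⟩, ⟨hq0, hnz' _ hq'0⟩, fun j => ?_⟩
      cases hty : ty l0 j
      · simp only [Bool.false_eq_true, if_false]
        exact hz (Sum.inr (Sum.inr j)) (by simp [ρ, hty])
      · simp only [if_true]
        have h1 : mo j ∣ T - t := hTT (Sum.inr (Sum.inr j)) (by simp [ρ, hty])
        exact (SP_congr (hmodT (Sum.inr (Sum.inr j)) h1)).2 (heps j)
    have hRG : RG q q' mo ty ep l0 (T - t) := by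
      refine ⟨fun l hl => ⟨hq l hl, hnz _ (hq' l hl)⟩, ⟨hnz _ hq0, hq'0⟩, fun j => ?_⟩
      cases hty : ty l0 j
      · simp only [Bool.false_eq_true, if_false]
        have h1 : mo j ∣ t := hz (Sum.inr (Sum.inr j)) (by simp [ρ, hty])
        exact (SP_congr (hmodT' (Sum.inr (Sum.inr j)) h1)).2 (heps j)
      · simp only [if_true]
        exact hTT (Sum.inr (Sum.inr j)) (by simp [ρ, hty])
    exact ⟨t, ht1, ht2, htT, pick_some _ _ (hLu t) hLG, pick_some _ _ (hRu _) hRG⟩
  · intro t1 t1' t2 t2' c1 c1' c2 c2' hT hbad h1 h1' h2 h2'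
    obtain ⟨l1, hl1, rfl⟩ := of_pick _ _ h1
    obtain ⟨l1', hl1', rfl⟩ := of_pick _ _ h1'
    obtain ⟨l2, hl2, rfl⟩ := of_pick _ _ h2
    obtain ⟨l2', hl2', rfl⟩ := of_pick _ _ h2'
    have hbad' : ∀ (l : L) (t t' : ℕ), LG q q' mo ty ep l t → RG q q' mo ty ep l t' →
        (∃ m ∈ Ms, m ∣ t + t') → False := by
      intro l t t' h h' ⟨m, hm, hd⟩
      obtain ⟨i, -, rfl⟩ := Finset.mem_image.1 hm
      have hs := same_not_dvd h h' hmo
      rcases i with l | l | j
      · exact (hs.1 l).1 hd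
      · exact (hs.1 l).2 hd
      · exact hs.2 j hd
    have hne1 : l1 ≠ l1' := by
      rintro rfl; exact hbad' _ _ _ hl1 hl1' hbad
    have hne2 : l2 ≠ l2' := by
      rintro rfl; exact hbad' _ _ _ hl2 hl2' (hT ▸ hbad)
    have hd1 := ne_dvd hl1 hl1' hne1
    have hd2 := ne_dvd hl2 hl2' hne2
    -- l2 ∈ {l1, l1'}
    have hm2 : l2 = l1 ∨ l2 = l1' := by
      by_contra hcon
      push_neg at hcon
      exact (eq_bit hl1 hl1' hcon.1 hcon.2).1 (hT ▸ hd2.1)
    have hm2' : l2' = l1 ∨ l2' = l1' := by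
      by_contra hcon
      push_neg at hcon
      exact (eq_bit hl1 hl1' hcon.1 hcon.2).2 (hT ▸ hd2.2)
    rcases hm2 with e | e
    · have e' : l2' = l1' := by
        rcases hm2' with e' | e'
        · exact absurd (e.trans e'.symm) hne2
        · exact e'
      left; exact ⟨by rw [e], by rw [e']⟩
    · have e' : l2' = l1 := by
        rcases hm2' with e' | e'
        · exact e'
        · exact absurd (e.trans e'.symm) hne2
      right
      refine ⟨by rw [e'], by rw [e], ?_⟩
      have hcode : code (col l1.2) = code (col l1'.2) := by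
        funext j
        have := swap hT hl1 hl1' (e ▸ hl2) (e' ▸ hl2') hodd j
        simpa [ty, ep] using this
      have := congrFun hcode (col l1.2)
      simp only [code, decide_true] at this
      exact (of_decide_eq_true this.symm).symm

end Crest.Agent.R320.Names_570
end

-- ▼ part R320/RandF_808
section

/-!
Row 320: the random noise lemma (237 #12538, 755 #12640 (C)).
Pure finite combinatorics.
-/

set_option autoImplicit false

namespace Crest.Agent.R320.RandF808

open Finset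

section Count

variable {T V : Type*} [Fintype T] [DecidableEq T] [Fintype V] [DecidableEq V]

/-- functions which differ from `t` somewhere on `P i`, for every `i ∈ I`. -/
def bad (P : ℕ → Finset T) (t : T → V) (I : Finset ℕ) : Finset (T → V) :=
  univ.filter (fun F => ∀ i ∈ I, ∃ p ∈ P i, F p ≠ t p)

theorem bad_step (P : ℕ → Finset T) (t : T → V) (I : Finset ℕ) (i : ℕ)
    (hd : ∀ j ∈ I, Disjoint (P j) (P i)) :
    (bad P t I).card ≤ (Fintype.card V) ^ (P i).card *
      ((bad P t I).filter (fun F => ∀ p ∈ P i, F p = t p)).card := by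
  classical
  let B := (bad P t I).filter (fun F => ∀ p ∈ P i, F p = t p)
  let f : (T → V) → ((↥(P i) → V) × (T → V)) :=
    fun F => (fun p => F p.1, fun p => if p ∈ P i then t p else F p)
  have hmaps : ∀ F ∈ bad P t I, f F ∈ (univ : Finset (↥(P i) → V)) ×ˢ B := by
    intro F hF
    rw [mem_product]
    refine ⟨mem_univ _, ?_⟩
    simp only [B, bad, mem_filter, mem_univ, true_and] at hF ⊢
    refine ⟨?_, ?_⟩
    · intro j hj
      obtain ⟨p, hp, hne⟩ := hF j hj
      refine ⟨p, hp, ?_⟩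
      have : p ∉ P i := Finset.disjoint_left.mp (hd j hj) hp
      simp [f, this, hne]
    · intro p hp
      simp [f, hp]
  have hinj : Set.InjOn f (bad P t I : Set (T → V)) := by
    intro F _ G _ hFG
    have h1 := congrArg Prod.fst hFG
    have h2 := congrArg Prod.snd hFG
    funext p
    by_cases hp : p ∈ P i
    · exact congrFun h1 ⟨p, hp⟩
    · have := congrFun h2 p
      simpa [f, hp] using this
  have hle := Finset.card_le_card_of_injOn f hmaps hinj
  rw [Finset.card_product] at hle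
  simpa [B, Fintype.card_fun] using hle

theorem bad_insert (P : ℕ → Finset T) (t : T → V) (I : Finset ℕ) (i : ℕ)
    (hd : ∀ j ∈ I, Disjoint (P j) (P i)) (C : ℕ) (hC : (P i).card ≤ C) (hV : 0 < Fintype.card V) :
    ((bad P t (insert i I)).card : ℝ) ≤
      (1 - ((Fintype.card V : ℝ) ^ C)⁻¹) * (bad P t I).card := by
  classical
  have hstep := bad_step P t I i hd
  set A := bad P t I with hA
  set B := A.filter (fun F => ∀ p ∈ P i, F p = t p) with hB
  have hsplit : (bad P t (insert i I)).card + B.card = A.card := by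
    have h1 : bad P t (insert i I) = A.filter (fun F => ¬ ∀ p ∈ P i, F p = t p) := by
      ext F
      simp only [hA, bad, mem_filter, mem_univ, true_and, mem_insert, forall_eq_or_imp, not_forall]
      constructor
      · rintro ⟨⟨p, hp, hne⟩, h⟩
        exact ⟨h, p, hp, hne⟩
      · rintro ⟨h, p, hp, hne⟩
        exact ⟨⟨p, hp, hne⟩, h⟩
    rw [h1, hB, add_comm]
    exact Finset.card_filter_add_card_filter_not (s := A) (fun F => ∀ p ∈ P i, F p = t p)
  have hq : (1 : ℝ) ≤ (Fintype.card V : ℝ) := by exact_mod_cast hV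
  have hpow : (Fintype.card V : ℝ) ^ (P i).card ≤ (Fintype.card V : ℝ) ^ C :=
    pow_le_pow_right₀ hq hC
  have hpos : (0 : ℝ) < (Fintype.card V : ℝ) ^ C := by positivity
  have h2 : (A.card : ℝ) ≤ (Fintype.card V : ℝ) ^ C * B.card := by
    calc (A.card : ℝ) ≤ (Fintype.card V : ℝ) ^ (P i).card * B.card := by exact_mod_cast hstep
      _ ≤ (Fintype.card V : ℝ) ^ C * B.card := by gcongr
  have h3 : ((Fintype.card V : ℝ) ^ C)⁻¹ * A.card ≤ B.card := by
    rw [inv_mul_le_iff₀ hpos]
    exact h2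
  have h4 : ((bad P t (insert i I)).card : ℝ) = A.card - B.card := by
    have : ((bad P t (insert i I)).card : ℝ) + B.card = A.card := by exact_mod_cast hsplit
    linarith
  rw [h4]
  nlinarith

theorem bad_le (P : ℕ → Finset T) (t : T → V) (C : ℕ) (hV : 0 < Fintype.card V) (I : Finset ℕ)
    (hd : ∀ i ∈ I, ∀ j ∈ I, i ≠ j → Disjoint (P j) (P i)) (hC : ∀ i ∈ I, (P i).card ≤ C) :
    ((bad P t I).card : ℝ) ≤
      (1 - ((Fintype.card V : ℝ) ^ C)⁻¹) ^ I.card * (Fintype.card (T → V) : ℝ) := by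
  classical
  induction I using Finset.induction_on with
  | empty =>
    simp only [card_empty, pow_zero, one_mul]
    exact_mod_cast Finset.card_le_univ _
  | insert i I hi ih =>
    have hq : (1 : ℝ) ≤ (Fintype.card V : ℝ) := by exact_mod_cast hV
    have h1 : (0 : ℝ) ≤ 1 - ((Fintype.card V : ℝ) ^ C)⁻¹ := by
      have : ((Fintype.card V : ℝ) ^ C)⁻¹ ≤ 1 := inv_le_one_of_one_le₀ (one_le_pow₀ hq)
      linarith
    have h2 := bad_insert P t I i (fun j hj => hd i (mem_insert_self _ _) j (mem_insert_of_mem hj)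
      (fun h => hi (h ▸ hj))) C (hC i (mem_insert_self _ _)) hV
    have h3 := ih (fun a ha b hb hab => hd a (mem_insert_of_mem ha) b (mem_insert_of_mem hb) hab)
      (fun a ha => hC a (mem_insert_of_mem ha))
    rw [card_insert_of_notMem hi, pow_succ]
    calc ((bad P t (insert i I)).card : ℝ)
        ≤ (1 - ((Fintype.card V : ℝ) ^ C)⁻¹) * (bad P t I).card := h2
      _ ≤ (1 - ((Fintype.card V : ℝ) ^ C)⁻¹) *
            ((1 - ((Fintype.card V : ℝ) ^ C)⁻¹) ^ I.card * (Fintype.card (T → V) : ℝ)) := by gcongr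
      _ = _ := by ring

end Count

/-- numerical choice of the number of levels. -/
theorem exists_m (n q C : ℕ) (hq : 0 < q) :
    ∃ m : ℕ, (n : ℝ) * ((2 * m * n + 1 : ℕ) : ℝ) ^ 2 * q * q * (1 - ((q : ℝ) ^ C)⁻¹) ^ m < 1 := by
  have hq1 : (1 : ℝ) ≤ (q : ℝ) := by exact_mod_cast hq
  set r : ℝ := 1 - ((q : ℝ) ^ C)⁻¹ with hr
  have hr0 : 0 ≤ r := by
    have : ((q : ℝ) ^ C)⁻¹ ≤ 1 := inv_le_one_of_one_le₀ (one_le_pow₀ hq1)
    linarith
  have hr1 : r < 1 := by
    have : 0 < ((q : ℝ) ^ C)⁻¹ := by positivity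
    linarith
  have habs : |r| < 1 := by rw [abs_of_nonneg hr0]; exact hr1
  have t0 := tendsto_pow_const_mul_const_pow_of_abs_lt_one 0 habs
  have t1 := tendsto_pow_const_mul_const_pow_of_abs_lt_one 1 habs
  have t2 := tendsto_pow_const_mul_const_pow_of_abs_lt_one 2 habs
  have t : Filter.Tendsto (fun m : ℕ =>
      (4 * n ^ 3 * q * q : ℝ) * ((m : ℝ) ^ 2 * r ^ m) + (4 * n ^ 2 * q * q : ℝ) * ((m : ℝ) ^ 1 * r ^ m)
        + (n * q * q : ℝ) * ((m : ℝ) ^ 0 * r ^ m)) Filter.atTop (nhds
          ((4 * n ^ 3 * q * q : ℝ) * 0 + (4 * n ^ 2 * q * q : ℝ) * 0 + (n * q * q : ℝ) * 0)) :=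
    ((t2.const_mul _).add (t1.const_mul _)).add (t0.const_mul _)
  simp only [mul_zero, add_zero] at t
  have hev := t.eventually (gt_mem_nhds (show (0 : ℝ) < 1 by norm_num))
  obtain ⟨m, hm⟩ := hev.exists
  refine ⟨m, ?_⟩
  have : (n : ℝ) * ((2 * m * n + 1 : ℕ) : ℝ) ^ 2 * q * q * r ^ m =
      (4 * n ^ 3 * q * q : ℝ) * ((m : ℝ) ^ 2 * r ^ m) + (4 * n ^ 2 * q * q : ℝ) * ((m : ℝ) ^ 1 * r ^ m)
        + (n * q * q : ℝ) * ((m : ℝ) ^ 0 * r ^ m) := by
    push_cast
    ring
  rw [this]
  exact hm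

section Main

/-- the weight of an element `z` of `S` at level `i`: `(ν z, i * ν z)`. -/
noncomputable def wt (S : Type*) [Fintype S] (N : ℕ) (i : ℕ) (z : S) : ZMod N × ZMod N :=
  (((Fintype.equivFin S z : ℕ) : ZMod N), ((i * (Fintype.equivFin S z : ℕ) : ℕ) : ZMod N))

theorem int_of_zmod {N : ℕ} {a b c d : ℤ} (hN : |a - b - (c - d)| < (N : ℤ))
    (h : (a : ZMod N) - (b : ZMod N) = (c : ZMod N) - (d : ZMod N)) : a - b = c - d := by
  have h1 : ((a - b - (c - d) : ℤ) : ZMod N) = 0 := by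
    push_cast
    rw [h]
    ring
  have h2 : (N : ℤ) ∣ (a - b - (c - d)) := (ZMod.intCast_zmod_eq_zero_iff_dvd _ _).mp h1
  have := Int.eq_zero_of_abs_lt_dvd h2 hN
  linarith

theorem wt_sep (S : Type*) [Fintype S] (m : ℕ) {i j : ℕ} (hi : i < m) (hj : j < m)
    {x z x' z' : S} (hxz : x ≠ z)
    (h : wt S (2 * m * Fintype.card S + 1) i z - wt S (2 * m * Fintype.card S + 1) i x =
      wt S (2 * m * Fintype.card S + 1) j z' - wt S (2 * m * Fintype.card S + 1) j x') : i = j := by
  classical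
  set n := Fintype.card S with hn
  set N := 2 * m * n + 1 with hN
  have hm : 1 ≤ m := by omega
  obtain ⟨a, ha⟩ : ∃ a : ℕ, a = (Fintype.equivFin S z : ℕ) := ⟨_, rfl⟩
  obtain ⟨b, hb⟩ : ∃ a : ℕ, a = (Fintype.equivFin S x : ℕ) := ⟨_, rfl⟩
  obtain ⟨c, hc⟩ : ∃ a : ℕ, a = (Fintype.equivFin S z' : ℕ) := ⟨_, rfl⟩
  obtain ⟨d, hd⟩ : ∃ a : ℕ, a = (Fintype.equivFin S x' : ℕ) := ⟨_, rfl⟩
  have ha' : a < n := ha ▸ (Fintype.equivFin S z).isLt
  have hb' : b < n := hb ▸ (Fintype.equivFin S x).isLt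
  have hc' : c < n := hc ▸ (Fintype.equivFin S z').isLt
  have hd' : d < n := hd ▸ (Fintype.equivFin S x').isLt
  have hab : a ≠ b := by
    intro hab
    apply hxz
    have : (Fintype.equivFin S z) = (Fintype.equivFin S x) := by
      apply Fin.ext
      omega
    exact ((Fintype.equivFin S).injective this).symm
  have h1 : ((a : ℤ) : ZMod N) - ((b : ℤ) : ZMod N) = ((c : ℤ) : ZMod N) - ((d : ℤ) : ZMod N) := by
    have := congrArg Prod.fst h
    simpa [wt, ← ha, ← hb, ← hc, ← hd] using this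
  have h2 : (((i * a : ℕ) : ℤ) : ZMod N) - (((i * b : ℕ) : ℤ) : ZMod N) =
      (((j * c : ℕ) : ℤ) : ZMod N) - (((j * d : ℕ) : ℤ) : ZMod N) := by
    have := congrArg Prod.snd h
    simpa [wt, ← ha, ← hb, ← hc, ← hd] using this
  have hNn : (2 * n : ℤ) < N := by
    have : 2 * n < N := by
      rw [hN]
      nlinarith
    exact_mod_cast this
  have e1 : (a : ℤ) - b = c - d := by
    apply int_of_zmod _ h1
    rw [abs_lt]
    constructor <;> omega
  have e2 : ((i * a : ℕ) : ℤ) - ((i * b : ℕ) : ℤ) = ((j * c : ℕ) : ℤ) - ((j * d : ℕ) : ℤ) := by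
    apply int_of_zmod _ h2
    have k1 : i * a ≤ m * n := Nat.mul_le_mul hi.le ha'.le
    have k2 : i * b ≤ m * n := Nat.mul_le_mul hi.le hb'.le
    have k3 : j * c ≤ m * n := Nat.mul_le_mul hj.le hc'.le
    have k4 : j * d ≤ m * n := Nat.mul_le_mul hj.le hd'.le
    have k5 : N = 2 * (m * n) + 1 := by rw [hN]; ring
    rw [abs_lt]
    constructor <;> omega
  push_cast at e2
  have e3 : ((i : ℤ) - j) * ((a : ℤ) - b) = 0 := by
    have : (i : ℤ) * a - i * b = j * (c - d) := by linarith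
    rw [← e1] at this
    linarith
  rcases mul_eq_zero.mp e3 with h' | h'
  · omega
  · exfalso
    apply hab
    omega

/-- the demand points of level `i` around `w`. -/
noncomputable def pts (S : Type*) [Fintype S] [DecidableEq S] (N : ℕ) (w : ZMod N × ZMod N) (i : ℕ) :
    Finset (S × (ZMod N × ZMod N)) :=
  (univ.filter (fun a : S × S × S => a.2.1 ≠ a.2.2)).image
    (fun a => (a.1, w - wt S N i a.2.1 + wt S N i a.2.2))

theorem mem_pts {S : Type*} [Fintype S] [DecidableEq S] {N : ℕ} {w : ZMod N × ZMod N} {i : ℕ}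
    {p : S × (ZMod N × ZMod N)} :
    p ∈ pts S N w i ↔ ∃ x z : S, x ≠ z ∧ p.2 = w - wt S N i x + wt S N i z := by
  simp only [pts, mem_image, mem_filter, mem_univ, true_and, Prod.exists]
  constructor
  · rintro ⟨a, x, z, h, rfl⟩
    exact ⟨x, z, h, rfl⟩
  · rintro ⟨x, z, h, hp⟩
    exact ⟨p.1, x, z, h, by rw [← hp]⟩

theorem card_pts (S : Type*) [Fintype S] [DecidableEq S] (N : ℕ) (w : ZMod N × ZMod N) (i : ℕ) :
    (pts S N w i).card ≤ Fintype.card S * (Fintype.card S * Fintype.card S) := by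
  refine card_image_le.trans ((card_filter_le _ _).trans ?_)
  simp [Fintype.card_prod]

theorem disjoint_pts (S : Type*) [Fintype S] [DecidableEq S] (m : ℕ)
    (w : ZMod (2 * m * Fintype.card S + 1) × ZMod (2 * m * Fintype.card S + 1)) {i j : ℕ}
    (hi : i < m) (hj : j < m) (hij : i ≠ j) :
    Disjoint (pts S (2 * m * Fintype.card S + 1) w i) (pts S (2 * m * Fintype.card S + 1) w j) := by
  rw [Finset.disjoint_left]
  intro p hp hp'
  obtain ⟨x, z, h, e⟩ := mem_pts.mp hp
  obtain ⟨x', z', h', e'⟩ := mem_pts.mp hp'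
  apply hij
  apply wt_sep S m hi hj h (x' := x') (z' := z')
  rw [e] at e'
  have := congrArg (fun u => u - w) e'
  rw [show w - wt S (2 * m * Fintype.card S + 1) i x + wt S (2 * m * Fintype.card S + 1) i z - w =
    wt S (2 * m * Fintype.card S + 1) i z - wt S (2 * m * Fintype.card S + 1) i x by abel,
    show w - wt S (2 * m * Fintype.card S + 1) j x' + wt S (2 * m * Fintype.card S + 1) j z' - w =
    wt S (2 * m * Fintype.card S + 1) j z' - wt S (2 * m * Fintype.card S + 1) j x' by abel] at this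
  exact this

/-- **Random noise lemma.** -/
theorem exists_noise (S V : Type*) [Monoid S] [Fintype S] [AddCommGroup V] [Fintype V]
    (act : V → S → V) :
    ∃ (m N : ℕ) (e : ℕ → S → ZMod N × ZMod N) (F : S → ZMod N × ZMod N → V), 0 < N ∧
      ∀ (s : S) (w : ZMod N × ZMod N) (v : V), ∃ i < m, ∀ g x h : S, g * x * h = s → ∀ z : S,
        F (g * z * h) (w - e i x + e i z) + act v (g * z * h) = F s w + act v s := by
  classical
  set n := Fintype.card S with hn
  set q := Fintype.card V with hq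
  have hq0 : 0 < q := Fintype.card_pos
  obtain ⟨m, hm⟩ := exists_m n q (n * (n * n)) hq0
  set N := 2 * m * n + 1 with hN
  have : NeZero N := ⟨by omega⟩
  let tgt : S → V → V → (S × (ZMod N × ZMod N) → V) := fun s v c p => c + act v s - act v p.1
  let B : (S × (ZMod N × ZMod N) × V × V) → Finset ((S × (ZMod N × ZMod N)) → V) :=
    fun a => bad (fun i => pts S N a.2.1 i) (tgt a.1 a.2.2.1 a.2.2.2) (range m)
  have hB : ∀ a, ((B a).card : ℝ) ≤ (1 - ((q : ℝ) ^ (n * (n * n)))⁻¹) ^ m *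
      (Fintype.card ((S × (ZMod N × ZMod N)) → V) : ℝ) := by
    intro a
    have := bad_le (fun i => pts S N a.2.1 i) (tgt a.1 a.2.2.1 a.2.2.2) (n * (n * n)) hq0 (range m)
      (fun i hi j hj hij => disjoint_pts S m a.2.1 (mem_range.mp hj) (mem_range.mp hi) (Ne.symm hij))
      (fun i _ => card_pts S N a.2.1 i)
    simpa using this
  have hex : ∃ F : (S × (ZMod N × ZMod N)) → V, ∀ a, F ∉ B a := by
    by_contra hcon
    push Not at hcon
    have hsub : (univ : Finset ((S × (ZMod N × ZMod N)) → V)) ⊆ (univ : Finset (S × (ZMod N × ZMod N) × V × V)).biUnion B := by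
      intro F _
      obtain ⟨a, ha⟩ := hcon F
      exact mem_biUnion.mpr ⟨a, mem_univ _, ha⟩
    have hc1 := (card_le_card hsub).trans card_biUnion_le
    have hc2 : (Fintype.card ((S × (ZMod N × ZMod N)) → V) : ℝ) ≤
        ∑ a : (S × (ZMod N × ZMod N) × V × V), ((B a).card : ℝ) := by
      have : Fintype.card ((S × (ZMod N × ZMod N)) → V) ≤ ∑ a : (S × (ZMod N × ZMod N) × V × V), (B a).card := by
        simpa [Finset.card_univ] using hc1
      exact_mod_cast this
    have hc3 : ∑ a : (S × (ZMod N × ZMod N) × V × V), ((B a).card : ℝ) ≤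
        ∑ _a : (S × (ZMod N × ZMod N) × V × V), (1 - ((q : ℝ) ^ (n * (n * n)))⁻¹) ^ m *
      (Fintype.card ((S × (ZMod N × ZMod N)) → V) : ℝ) := Finset.sum_le_sum (fun a _ => hB a)
    rw [Finset.sum_const, nsmul_eq_mul] at hc3
    have hcard : ((univ : Finset (S × (ZMod N × ZMod N) × V × V)).card : ℝ) = (n : ℝ) * ((2 * m * n + 1 : ℕ) : ℝ) ^ 2 * q * q := by
      rw [Finset.card_univ, Fintype.card_prod, Fintype.card_prod, Fintype.card_prod, Fintype.card_prod,
        ZMod.card]
      push_cast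
      simp only [← hn, ← hq, hN]
      push_cast
      ring
    rw [hcard] at hc3
    have hpos : (0 : ℝ) < (Fintype.card ((S × (ZMod N × ZMod N)) → V) : ℝ) := by
      exact_mod_cast Fintype.card_pos
    have : (Fintype.card ((S × (ZMod N × ZMod N)) → V) : ℝ) < (Fintype.card ((S × (ZMod N × ZMod N)) → V) : ℝ) := by
      calc (Fintype.card ((S × (ZMod N × ZMod N)) → V) : ℝ)
          ≤ ((n : ℝ) * ((2 * m * n + 1 : ℕ) : ℝ) ^ 2 * q * q * (1 - ((q : ℝ) ^ (n * (n * n)))⁻¹) ^ m) *
              (Fintype.card ((S × (ZMod N × ZMod N)) → V) : ℝ) := by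
            refine hc2.trans (hc3.trans (le_of_eq ?_))
            ring
        _ < 1 * (Fintype.card ((S × (ZMod N × ZMod N)) → V) : ℝ) :=
            mul_lt_mul_of_pos_right hm hpos
        _ = _ := one_mul _
    exact lt_irrefl _ this
  obtain ⟨F, hF⟩ := hex
  refine ⟨m, N, wt S N, fun s w => F (s, w), by omega, ?_⟩
  intro s w v
  have h1 := hF (s, w, v, F (s, w))
  simp only [B, bad, mem_filter, mem_univ, true_and, mem_range, not_forall, not_exists, not_and,
    not_not] at h1
  obtain ⟨i, hi, h2⟩ := h1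
  refine ⟨i, hi, ?_⟩
  intro g x h hs z
  by_cases hxz : x = z
  · subst hxz
    rw [hs]
    simp
  · have h3 := h2 (g * z * h, w - wt S N i x + wt S N i z) (mem_pts.mpr ⟨x, z, hxz, rfl⟩)
    show F (g * z * h, w - wt S N i x + wt S N i z) + act v (g * z * h) = F (s, w) + act v s
    rw [h3]
    simp only [tgt]
    abel

end Main

end Crest.Agent.R320.RandF808
end

-- ▼ part R320/GridG_19
section

/-!
Row 320, helper19: 693's grid gadget (post 13203) on words: scheme 1 without small walls, all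
contents, all totals.
-/

set_option autoImplicit false
set_option linter.unusedSectionVars false

namespace Crest.Agent.R320.GridG_19

open Finset

/-! ### grid geometry -/

/-- start of the range of boundary `k` (`G` grid sizes, `M` name period, `A0` start). -/
def Am (G : ℕ → ℕ) (M A0 : ℕ) : ℕ → ℕ
  | 0 => A0
  | k + 1 => Am G M A0 k + G k + M * G k

/-- start of the cell of level `k` -/
def Ac (G : ℕ → ℕ) (M A0 k : ℕ) : ℕ := Am G M A0 k + G k

theorem Am_succ (G : ℕ → ℕ) (M A0 k : ℕ) : Am G M A0 (k + 1) = Ac G M A0 k + M * G k := rfl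

theorem Am_mono (G : ℕ → ℕ) (M A0 : ℕ) {i j : ℕ} (h : i ≤ j) : Am G M A0 i ≤ Am G M A0 j := by
  induction h with
  | refl => exact le_rfl
  | step _ ih => rw [Am_succ]; unfold Ac; omega

/-- boundary `k` of a zone of length `T` -/
def bt (G : ℕ → ℕ) (M A0 k T : ℕ) : ℕ := Am G M A0 k + (T - Am G M A0 k) % G k

/-- distance of boundary `k` from the end, seen from the right at level `i`. -/
def dr (G : ℕ → ℕ) (M A0 i k o' : ℕ) : ℕ := G k * ((Ac G M A0 i + o' - Am G M A0 k) / G k)

section geom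

variable {G : ℕ → ℕ} {M A0 : ℕ}

theorem bt_ge (k T : ℕ) : Am G M A0 k ≤ bt G M A0 k T := Nat.le_add_right _ _

theorem bt_lt (hG : ∀ k, 0 < G k) (k T : ℕ) : bt G M A0 k T < Ac G M A0 k := by
  unfold bt Ac
  have := Nat.mod_lt (T - Am G M A0 k) (hG k)
  omega

theorem bt_mono (hG : ∀ k, 0 < G k) (k T : ℕ) : bt G M A0 k T ≤ bt G M A0 (k + 1) T := by
  have h1 := bt_lt (M := M) (A0 := A0) hG k T
  have h2 := bt_ge (G := G) (M := M) (A0 := A0) (k + 1) T
  rw [Am_succ] at h2
  omega

theorem bt_mono' (hG : ∀ k, 0 < G k) (T : ℕ) {i j : ℕ} (h : i ≤ j) :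
    bt G M A0 i T ≤ bt G M A0 j T := by
  induction h with
  | refl => exact le_rfl
  | step _ ih => exact ih.trans (bt_mono hG _ _)

/-- the left side knows the boundaries up to its level. -/
theorem bt_left {k i o o' : ℕ} (hd : ∀ a b, a ≤ b → G a ∣ G b) (hki : k ≤ i)
    (ho : Ac G M A0 i ≤ o) (ho' : G i ∣ o') : bt G M A0 k (o + o') = bt G M A0 k o := by
  unfold bt
  obtain ⟨t, ht⟩ := (hd k i hki).trans ho'
  have h1 := Am_mono G M A0 hki
  have h2 : Am G M A0 k ≤ o := by unfold Ac at ho; omega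
  have h3 : o + o' - Am G M A0 k = (o - Am G M A0 k) + G k * t := by omega
  rw [h3, Nat.add_mul_mod_self_left]

/-- the right side knows the boundaries beyond its level. -/
theorem bt_right {k i o o' : ℕ} (_hG : ∀ k, 0 < G k) (hki : i < k)
    (ho : Ac G M A0 i ≤ o) (ho2 : o < Ac G M A0 i + M * G i) (ho' : Am G M A0 k ≤ o')
    (hleg : (Ac G M A0 i + M * G i + o' - Am G M A0 k) / G k =
      (Ac G M A0 i + o' - Am G M A0 k) / G k) :
    bt G M A0 k (o + o') + dr G M A0 i k o' = o + o' ∧ dr G M A0 i k o' ≤ o' ∧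
      o ≤ bt G M A0 k (o + o') := by
  have h1 : Am G M A0 (i + 1) ≤ Am G M A0 k := Am_mono G M A0 hki
  rw [Am_succ] at h1
  have h2 : (o + o' - Am G M A0 k) / G k = (Ac G M A0 i + o' - Am G M A0 k) / G k := by
    apply le_antisymm
    · rw [← hleg]
      exact Nat.div_le_div_right (by omega)
    · exact Nat.div_le_div_right (by omega)
  have h3 : bt G M A0 k (o + o') + dr G M A0 i k o' = o + o' := by
    unfold bt dr
    rw [← h2]
    have := Nat.mod_add_div (o + o' - Am G M A0 k) (G k)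
    omega
  have h4 := bt_ge (G := G) (M := M) (A0 := A0) k (o + o')
  refine ⟨h3, by omega, by omega⟩

end geom

/-! ### words -/

section words

variable {α : Type*}

/-- the factor `[a, b)`. -/
def seg (Y : List α) (a b : ℕ) : List α := (Y.drop a).take (b - a)

theorem seg_left {P Q : List α} {a b : ℕ} (hab : a ≤ b) (hb : b ≤ P.length) :
    seg (P ++ Q) a b = seg P a b := by
  unfold seg
  rw [List.drop_append_of_le_length (by omega),
    List.take_append_of_le_length (by rw [List.length_drop]; omega)]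

theorem drop_app {P Q : List α} {s : ℕ} : (P ++ Q).drop (P.length + s) = Q.drop s := by
  simp [List.drop_append]

theorem seg_right {P Q : List α} {a b : ℕ} :
    seg (P ++ Q) (P.length + a) (P.length + b) = seg Q a b := by
  unfold seg
  rw [show (P ++ Q).drop (P.length + a) = Q.drop a by simp [List.drop_append],
    Nat.add_sub_add_left]

theorem seg_split {Y : List α} {a b : ℕ} (hab : a ≤ b) :
    Y.take a ++ seg Y a b ++ Y.drop b = Y := by
  have : Y.drop b = (Y.drop a).drop (b - a) := by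
    rw [List.drop_drop]; congr 1; omega
  unfold seg
  rw [this, List.append_assoc, List.take_append_drop, List.take_append_drop]

end words

/-! ### the gadget -/

/-- contexts -/
abbrev Ctx (m : ℕ) (S W V : Type*) := Fin m × S × W × S × W × V

/-- The data of the gadget. -/
structure Dat (α S V W : Type*) where
  φ : List α → S
  act : V → S → V
  m : ℕ
  e : ℕ → S → W
  F : S → W → V
  G : ℕ → ℕ
  M : ℕ
  A0 : ℕ
  LN : ℕ → Option (Ctx m S W V)
  RN : ℕ → Option (Ctx m S W V)

variable {α S V W : Type*} [Monoid S] [AddCommGroup V] [AddCommGroup W] (D : Dat α S V W)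

/-- end value of a name. -/
def Dat.bb (c : Ctx D.m S W V) : V :=
  D.F (c.2.1 * 1 * c.2.2.2.1) (c.2.2.1 + D.e c.1 1 + c.2.2.2.2.1) +
    D.act c.2.2.2.2.2 (c.2.1 * 1 * c.2.2.2.1)

/-- good names. -/
def Dat.ok (c : Ctx D.m S W V) : Prop :=
  ∀ z, D.F (c.2.1 * z * c.2.2.2.1) (c.2.2.1 + D.e c.1 z + c.2.2.2.2.1) +
    D.act c.2.2.2.2.2 (c.2.1 * z * c.2.2.2.1) = D.bb c

/-- boundary -/
def Dat.b (k T : ℕ) : ℕ := bt D.G D.M D.A0 k T

/-- cell start -/
def Dat.A (k : ℕ) : ℕ := Ac D.G D.M D.A0 k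

/-- weight of a zone. -/
def Dat.ww (Y : List α) : W :=
  ∑ k ∈ range D.m, D.e k (D.φ (seg Y (D.b k Y.length) (D.b (k + 1) Y.length)))

/-- left legality for a name. -/
def Dat.LL (c : Ctx D.m S W V) (P : List α) : Prop :=
  D.LN P.length = some c ∧ D.ok c ∧ D.A c.1 ≤ P.length ∧ P.length < D.A c.1 + D.M * D.G c.1 ∧
  c.2.1 = D.φ (P.take (D.b c.1 P.length)) ∧
  c.2.2.1 = ∑ k ∈ range (c.1 : ℕ), D.e k (D.φ (seg P (D.b k P.length) (D.b (k + 1) P.length)))

/-- position of boundary `k` in the right word -/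
def Dat.q (i k : ℕ) (Q : List α) : ℕ := Q.length - dr D.G D.M D.A0 i k Q.length

/-- right legality for a name. -/
def Dat.RR (c : Ctx D.m S W V) (Q : List α) : Prop :=
  D.RN Q.length = some c ∧ D.ok c ∧ D.G c.1 ∣ Q.length ∧ Am D.G D.M D.A0 D.m ≤ Q.length ∧
  (∀ k, (c.1 : ℕ) < k → k ≤ D.m →
    (Ac D.G D.M D.A0 c.1 + D.M * D.G c.1 + Q.length - Am D.G D.M D.A0 k) / D.G k =
      (Ac D.G D.M D.A0 c.1 + Q.length - Am D.G D.M D.A0 k) / D.G k) ∧
  c.2.2.2.1 = D.φ (Q.drop (D.q c.1 (c.1 + 1) Q)) ∧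
  c.2.2.2.2.1 = ∑ k ∈ Ico ((c.1 : ℕ) + 1) D.m,
    D.e k (D.φ (seg Q (D.q c.1 k Q) (D.q c.1 (k + 1) Q)))

/-- The geometric hypotheses. -/
structure Geo (D : Dat α S V W) : Prop where
  hφ : ∀ u v, D.φ (u ++ v) = D.φ u * D.φ v
  hG : ∀ k, 0 < D.G k
  hd : ∀ a b, a ≤ b → D.G a ∣ D.G b

variable {D}

theorem b_right (hD : Geo D) {P Q : List α} {c : Ctx D.m S W V} (h1 : D.A c.1 ≤ P.length)
    (h2 : P.length < D.A c.1 + D.M * D.G c.1) (hR : D.RR c Q) {k : ℕ} (hk : (c.1 : ℕ) < k)
    (hkm : k ≤ D.m) :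
    D.b k (P ++ Q).length = P.length + D.q c.1 k Q ∧ P.length ≤ D.b k (P ++ Q).length := by
  obtain ⟨-, -, -, h3, h4, -⟩ := hR
  have h5 := Am_mono D.G D.M D.A0 hkm
  obtain ⟨h6, h7, h8⟩ := bt_right (G := D.G) (M := D.M) (A0 := D.A0) hD.hG hk h1 h2
    (by omega : Am D.G D.M D.A0 k ≤ Q.length) (h4 k hk hkm)
  rw [List.length_append]
  unfold Dat.b Dat.q
  constructor
  · omega
  · exact h8

/-- reading a matched junction. -/
theorem read (hD : Geo D) {P Q : List α} {c : Ctx D.m S W V} (hL : D.LL c P) (hR : D.RR c Q) :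
    ∃ z, D.φ (P ++ Q) = c.2.1 * z * c.2.2.2.1 ∧
      D.ww (P ++ Q) = c.2.2.1 + D.e c.1 z + c.2.2.2.2.1 := by
  obtain ⟨-, -, h1, h2, hg, hwl⟩ := hL
  have hR0 := hR
  obtain ⟨-, -, hG, hlen, hleg, hh, hwr⟩ := hR
  have hi : (c.1 : ℕ) < D.m := c.1.2
  have hbl : ∀ k, k ≤ (c.1 : ℕ) → D.b k (P ++ Q).length = D.b k P.length := by
    intro k hk
    rw [List.length_append]
    exact bt_left hD.hd hk h1 hG
  have hbP : ∀ k, k ≤ (c.1 : ℕ) → D.b k P.length ≤ P.length := by
    intro k hk
    have h3 := bt_mono' (G := D.G) (M := D.M) (A0 := D.A0) hD.hG P.length hk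
    have h4 := bt_lt (G := D.G) (M := D.M) (A0 := D.A0) hD.hG c.1 P.length
    show bt D.G D.M D.A0 k P.length ≤ _
    have h5 : Ac D.G D.M D.A0 c.1 ≤ P.length := h1
    omega
  have hm1 : D.b c.1 (P ++ Q).length ≤ D.b (c.1 + 1) (P ++ Q).length := bt_mono hD.hG _ _
  refine ⟨D.φ (seg (P ++ Q) (D.b c.1 (P ++ Q).length) (D.b (c.1 + 1) (P ++ Q).length)), ?_, ?_⟩
  · have h6 := seg_split (Y := P ++ Q) hm1
    conv_lhs => rw [← h6]
    rw [hD.hφ, hD.hφ, hg, hh]
    congr 1
    · congr 1
      rw [hbl _ le_rfl, List.take_append_of_le_length (hbP _ le_rfl)]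
    · rw [(b_right hD h1 h2 hR0 (Nat.lt_succ_self _) hi).1]
      rw [drop_app]
  · unfold Dat.ww
    rw [← Finset.sum_range_add_sum_Ico _ (show (c.1 : ℕ) + 1 ≤ D.m from hi),
      Finset.sum_range_succ, hwl, hwr]
    congr 1
    · congr 1
      refine Finset.sum_congr rfl fun k hk => ?_
      have hk' := Finset.mem_range.1 hk
      rw [hbl k hk'.le, hbl (k + 1) hk',
        seg_left (show D.b k P.length ≤ D.b (k + 1) P.length from bt_mono hD.hG _ _)
          (hbP (k + 1) hk')]
    · refine Finset.sum_congr rfl fun k hk => ?_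
      obtain ⟨hk1, hk2⟩ := Finset.mem_Ico.1 hk
      rw [(b_right hD h1 h2 hR0 (by omega : (c.1 : ℕ) < k) (by omega)).1,
        (b_right hD h1 h2 hR0 (by omega : (c.1 : ℕ) < k + 1) (by omega)).1, seg_right]


open Classical in
/-- left label. -/
noncomputable def Dat.Lf (D : Dat α S V W) (P : List α) : Option V :=
  if h : ∃ c, D.LL c P then some h.choose.2.2.2.2.2 else none

open Classical in
/-- right label. -/
noncomputable def Dat.Rf (D : Dat α S V W) (Q : List α) : Option V :=
  if h : ∃ c, D.RR c Q then some (D.bb h.choose) else none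

theorem Lf_some {P : List α} {v : V} (h : D.Lf P = some v) : ∃ c, D.LL c P ∧ c.2.2.2.2.2 = v := by
  classical
  unfold Dat.Lf at h
  split_ifs at h with h1
  · rw [Option.some.injEq] at h
    exact ⟨_, h1.choose_spec, h⟩

theorem Rf_some {Q : List α} {r : V} (h : D.Rf Q = some r) : ∃ c, D.RR c Q ∧ r = D.bb c := by
  classical
  unfold Dat.Rf at h
  split_ifs at h with h1
  · rw [Option.some.injEq] at h
    exact ⟨_, h1.choose_spec, h.symm⟩

theorem Lf_of {P : List α} {c : Ctx D.m S W V} (h : D.LL c P) :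
    D.Lf P = some c.2.2.2.2.2 := by
  classical
  have h1 : ∃ c, D.LL c P := ⟨c, h⟩
  unfold Dat.Lf
  rw [dif_pos h1]
  have h2 := h1.choose_spec.1
  rw [h.1, Option.some.injEq] at h2
  rw [← h2]

theorem Rf_of {Q : List α} {c : Ctx D.m S W V} (h : D.RR c Q) : (D.Rf Q).isSome := by
  classical
  unfold Dat.Rf
  rw [dif_pos ⟨c, h⟩]
  rfl

/-- The name system. -/
structure Names (D : Dat α S V W) (good : ℕ → Prop) (v0 r0 : ℕ → V) : Prop where
  n1 : ∀ o o' c c', good (o + o') → D.LN o = some c → D.RN o' = some c' → c = c'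
  n2 : ∀ T, good T → D.M ≤ T → ∀ c, ∃ t, t ≤ T ∧ D.LN t = some c ∧ D.RN (T - t) = some c
  n3 : ∀ o o' c c', ¬ good (o + o') → D.LN o = some c → D.RN o' = some c' →
    c.2.2.2.2.2 = v0 ((o + o') % D.M) ∧ D.bb c' = r0 ((o + o') % D.M)
  pL : ∀ t, D.LN (t + D.M) = D.LN t
  pR : ∀ t, D.RN (t + D.M) = D.RN t
  gp : ∀ T T', T ≡ T' [MOD D.M] → (good T ↔ good T')
  M0 : 0 < D.M
  cop : ∀ k, Nat.Coprime D.M (D.G k)

theorem per {β : Type*} {M : ℕ} {f : ℕ → β} (h : ∀ t, f (t + M) = f t) {a b : ℕ}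
    (hab : a ≡ b [MOD M]) : f a = f b := by
  have h1 : ∀ k t, f (t + k * M) = f t := by
    intro k
    induction k with
    | zero => intro t; simp
    | succ k ih => intro t; rw [Nat.succ_mul, ← add_assoc, h, ih]
  have h2 : ∀ t, f t = f (t % M) := by
    intro t
    conv_lhs => rw [← Nat.mod_add_div t M, mul_comm]
    exact h1 _ _
  rw [h2 a, h2 b, hab]

theorem exists_in_interval (A n k : ℕ) (hn : 0 < n) : ∃ o, A ≤ o ∧ o < A + n ∧ o ≡ k [MOD n] := by
  refine ⟨A + (k + (n - A % n)) % n, Nat.le_add_right _ _, ?_, ?_⟩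
  · have := Nat.mod_lt (k + (n - A % n)) hn
    omega
  · have h1 : A + (k + (n - A % n)) % n ≡ A + (k + (n - A % n)) [MOD n] :=
      Nat.ModEq.add_left _ (Nat.mod_modEq _ _)
    refine h1.trans ?_
    have h2 := Nat.mod_add_div A n
    have h3 := Nat.mod_lt A hn
    have h4 : A + (k + (n - A % n)) = k + n * (A / n + 1) := by
      rw [mul_add, mul_one]; omega
    rw [h4]
    exact (Nat.modEq_iff_dvd' (Nat.le_add_right _ _)).2 (by simp) |>.symm

/-- bad totals -/
def BadG (G : ℕ → ℕ) (M A0 m : ℕ) (T : ℕ) : Prop :=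
  ∃ k, k < m ∧ ((T - Am G M A0 (k + 1)) % G (k + 1) < M * G k ∨
    G (k + 1) ≤ (T - Am G M A0 (k + 1)) % G (k + 1) + M * G k)

/-- the noise. -/
noncomputable def Dat.nu (D : Dat α S V W) (good : ℕ → Prop) (v0 r0 : ℕ → V) (Y : List α) : V :=
  open Classical in
  if good Y.length then D.F (D.φ Y) (D.ww Y) else
    r0 (Y.length % D.M) - D.act (v0 (Y.length % D.M)) (D.φ Y)

theorem sound {good : ℕ → Prop} {v0 r0 : ℕ → V} (hD : Geo D) (hN : Names D good v0 r0)
    {P Q : List α} {v r : V} (hP : D.Lf P = some v) (hQ : D.Rf Q = some r) :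
    r = D.act v (D.φ (P ++ Q)) + D.nu good v0 r0 (P ++ Q) := by
  classical
  obtain ⟨c, hL, hv⟩ := Lf_some hP
  obtain ⟨c', hR, hr⟩ := Rf_some hQ
  have hlen : (P ++ Q).length = P.length + Q.length := List.length_append
  unfold Dat.nu
  by_cases hg : good (P ++ Q).length
  · rw [if_pos hg]
    have hcc := hN.n1 _ _ _ _ (by rw [← hlen]; exact hg) hL.1 hR.1
    subst hcc
    obtain ⟨z, h1, h2⟩ := read hD hL hR
    have h3 := hL.2.1 z
    rw [← h1, ← h2, hv] at h3
    rw [hr, ← h3, add_comm]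
  · rw [if_neg hg]
    obtain ⟨h1, h2⟩ := hN.n3 _ _ _ _ (by rw [← hlen]; exact hg) hL.1 hR.1
    rw [hr, h2, ← hlen, ← hv, h1, ← hlen]
    abel

theorem complete {good : ℕ → Prop} {v0 r0 : ℕ → V} (hD : Geo D) (hN : Names D good v0 r0)
    (hF : ∀ s w v, ∃ i < D.m, ∀ g x h, g * x * h = s → ∀ z,
      D.F (g * z * h) (w - D.e i x + D.e i z) + D.act v (g * z * h) = D.F s w + D.act v s)
    (Y : List α) (hY : 2 * Am D.G D.M D.A0 D.m ≤ Y.length) (hMY : D.M ≤ Y.length)
    (hg : good Y.length) (hB : ¬ BadG D.G D.M D.A0 D.m Y.length) (v : V) :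
    ∃ P Q, P ++ Q = Y ∧ D.Lf P = some v ∧ (D.Rf Q).isSome := by
  classical
  set T := Y.length with hT
  obtain ⟨i, him, hi⟩ := hF (D.φ Y) (D.ww Y) v
  have hm1 : D.b i T ≤ D.b (i + 1) T := bt_mono hD.hG _ _
  set g := D.φ (Y.take (D.b i T)) with hgdef
  set z0 := D.φ (seg Y (D.b i T) (D.b (i + 1) T)) with hz0
  set h := D.φ (Y.drop (D.b (i + 1) T)) with hhdef
  set wl := ∑ k ∈ range i, D.e k (D.φ (seg Y (D.b k T) (D.b (k + 1) T))) with hwldef
  set wr := ∑ k ∈ Ico (i + 1) D.m, D.e k (D.φ (seg Y (D.b k T) (D.b (k + 1) T))) with hwrdef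
  have hprod : D.φ Y = g * z0 * h := by
    have h6 := seg_split (Y := Y) hm1
    conv_lhs => rw [← h6]
    rw [hD.hφ, hD.hφ]
  have hww : D.ww Y = wl + D.e i z0 + wr := by
    unfold Dat.ww
    rw [← Finset.sum_range_add_sum_Ico _ (show i + 1 ≤ D.m from him), Finset.sum_range_succ]
  -- the context
  let c : Ctx D.m S W V := (⟨i, him⟩, g, wl, h, wr, v)
  have hz : ∀ z, D.F (g * z * h) (wl + D.e i z + wr) + D.act v (g * z * h) =
      D.F (D.φ Y) (D.ww Y) + D.act v (D.φ Y) := by
    intro z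
    rw [← hi g z0 h hprod.symm z, hww]
    congr 2
    abel
  have hok : D.ok c := fun z => (hz z).trans (hz 1).symm
  -- the place
  obtain ⟨t0, ht0, hl0, hr0⟩ := hN.n2 T hg hMY c
  obtain ⟨x, hx1, hx2⟩ := Nat.chineseRemainder (hN.cop i) t0 T
  obtain ⟨o, ho1, ho2, ho3⟩ := exists_in_interval (D.A i) (D.M * D.G i) x
    (Nat.mul_pos hN.M0 (hD.hG i))
  have hoM : o ≡ t0 [MOD D.M] := (ho3.of_dvd (Dvd.intro _ rfl)).trans hx1
  have hoG : o ≡ T [MOD D.G i] := (ho3.of_dvd (Dvd.intro_left _ rfl)).trans hx2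
  have hmon : Am D.G D.M D.A0 (i + 1) ≤ Am D.G D.M D.A0 D.m := Am_mono _ _ _ him
  have hom : o < Am D.G D.M D.A0 (i + 1) := by
    rw [Am_succ]; exact ho2
  have hoT : o ≤ T := by omega
  have hGd : D.G i ∣ T - o := (Nat.modEq_iff_dvd' hoT).1 hoG
  set P := Y.take o with hP
  set Q := Y.drop o with hQ
  have hPQ : P ++ Q = Y := List.take_append_drop _ _
  have hPl : P.length = o := by rw [hP, List.length_take]; omega
  have hQl : Q.length = T - o := by rw [hQ, List.length_drop]
  have hLN : D.LN o = some c := by rw [per hN.pL hoM]; exact hl0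
  have hRN : D.RN (T - o) = some c := by
    have h1 : T - o ≡ T - t0 [MOD D.M] := by
      have h2 : (T - o) + o ≡ (T - t0) + o [MOD D.M] := by
        rw [Nat.sub_add_cancel hoT]
        have h3 : (T - t0) + t0 ≡ (T - t0) + o [MOD D.M] := Nat.ModEq.add_left _ hoM.symm
        rw [Nat.sub_add_cancel ht0] at h3
        exact h3
      exact Nat.ModEq.add_right_cancel' _ h2
    rw [per hN.pR h1]; exact hr0
  -- grid condition
  have hleg : ∀ k, i < k → k ≤ D.m →
      (Ac D.G D.M D.A0 i + D.M * D.G i + (T - o) - Am D.G D.M D.A0 k) / D.G k =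
      (Ac D.G D.M D.A0 i + (T - o) - Am D.G D.M D.A0 k) / D.G k := by
    intro k hk hkm
    obtain ⟨k', rfl⟩ : ∃ k', k = k' + 1 := ⟨k - 1, by omega⟩
    have h1 : ¬ ((T - Am D.G D.M D.A0 (k' + 1)) % D.G (k' + 1) < D.M * D.G k' ∨
        D.G (k' + 1) ≤ (T - Am D.G D.M D.A0 (k' + 1)) % D.G (k' + 1) + D.M * D.G k') :=
      fun h => hB ⟨k', by omega, h⟩
    push Not at h1
    obtain ⟨h1, h2⟩ := h1
    have h3 : D.M * D.G i ≤ D.M * D.G k' :=
      Nat.mul_le_mul_left _ (Nat.le_of_dvd (hD.hG _) (hD.hd _ _ (by omega)))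
    have h4 := Am_mono D.G D.M D.A0 hkm
    have h5 := Nat.mod_add_div (T - Am D.G D.M D.A0 (k' + 1)) (D.G (k' + 1))
    set a := (T - Am D.G D.M D.A0 (k' + 1)) % D.G (k' + 1) with ha
    set q := (T - Am D.G D.M D.A0 (k' + 1)) / D.G (k' + 1) with hq
    have ho1' : Ac D.G D.M D.A0 i ≤ o := ho1
    have ho2' : o < Ac D.G D.M D.A0 i + D.M * D.G i := ho2
    have e1 : (Ac D.G D.M D.A0 i + D.M * D.G i + (T - o) - Am D.G D.M D.A0 (k' + 1)) /
        D.G (k' + 1) = q := by
      rw [Nat.div_eq_iff (hD.hG _)]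
      rw [mul_comm (D.G (k' + 1)) q] at h5
      constructor
      · omega
      · have := hD.hG (k' + 1)
        omega
    have e2 : (Ac D.G D.M D.A0 i + (T - o) - Am D.G D.M D.A0 (k' + 1)) / D.G (k' + 1) = q := by
      rw [Nat.div_eq_iff (hD.hG _)]
      rw [mul_comm (D.G (k' + 1)) q] at h5
      constructor
      · omega
      · have := hD.hG (k' + 1)
        omega
    rw [e1, e2]
  have hAo : Ac D.G D.M D.A0 i ≤ o := ho1
  have hbl : ∀ k, k ≤ i → D.b k T = D.b k P.length := by
    intro k hk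
    have h1 := bt_left (A0 := D.A0) (M := D.M) hD.hd hk hAo hGd
    rw [Nat.add_sub_cancel' hoT] at h1
    rw [hPl]
    exact h1
  have hbP : ∀ k, k ≤ i → D.b k P.length ≤ P.length := by
    intro k hk
    have h3 := bt_mono' (G := D.G) (M := D.M) (A0 := D.A0) hD.hG P.length hk
    have h4 := bt_lt (G := D.G) (M := D.M) (A0 := D.A0) hD.hG i P.length
    show bt D.G D.M D.A0 k P.length ≤ _
    omega
  have hbr : ∀ k, i < k → k ≤ D.m → D.b k T = P.length + D.q i k Q := by
    intro k hk hkm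
    have h5 := Am_mono D.G D.M D.A0 hkm
    obtain ⟨h6, h7, h8⟩ := bt_right (G := D.G) (M := D.M) (A0 := D.A0) (o' := T - o) hD.hG hk ho1 ho2
      (by omega) (hleg k hk hkm)
    rw [Nat.add_sub_cancel' hoT] at h6
    unfold Dat.b Dat.q
    rw [hPl, hQl]
    omega
  refine ⟨P, Q, hPQ, ?_, ?_⟩
  · refine Lf_of (c := c) ⟨by rw [hPl]; exact hLN, hok, by rw [hPl]; exact ho1,
      by rw [hPl]; exact ho2, ?_, ?_⟩
    · show g = _
      rw [hgdef, hbl i le_rfl]
      show _ = D.φ (P.take (D.b i P.length))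
      rw [hP, List.take_take, min_eq_left]
      have := hbP i le_rfl
      rw [hPl] at this
      rw [← hP, hPl]; exact this
    · show wl = _
      rw [hwldef]
      refine Finset.sum_congr rfl fun k hk => ?_
      have hk' := Finset.mem_range.1 hk
      have e1 := seg_left (P := P) (Q := Q)
        (show D.b k P.length ≤ D.b (k + 1) P.length from bt_mono hD.hG _ _) (hbP (k + 1) hk')
      rw [hPQ] at e1
      rw [hbl k hk'.le, hbl (k + 1) hk', e1]
  · refine Rf_of (c := c) ⟨by rw [hQl]; exact hRN, hok, by rw [hQl]; exact hGd, by rw [hQl]; omega,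
      by rw [hQl]; exact hleg, ?_, ?_⟩
    · show h = D.φ (Q.drop (D.q i (i + 1) Q))
      rw [hhdef, hbr (i + 1) (Nat.lt_succ_self i) him, ← hPQ, drop_app]
    · show wr = _
      rw [hwrdef]
      refine Finset.sum_congr rfl fun k hk => ?_
      obtain ⟨hk1, hk2⟩ := Finset.mem_Ico.1 hk
      have hk1' : i + 1 ≤ k := hk1
      have hk2' : k < D.m := hk2
      have e1 := seg_right (P := P) (Q := Q) (a := D.q i k Q) (b := D.q i (k + 1) Q)
      rw [hPQ] at e1
      rw [hbr k (by omega) (by omega), hbr (k + 1) (by omega) (by omega), e1]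

theorem Lf_len {P : List α} {v : V} (h : D.Lf P = some v) :
    D.A0 ≤ P.length ∧ P.length < Am D.G D.M D.A0 D.m := by
  obtain ⟨c, hL, -⟩ := Lf_some h
  have h1 := Am_mono D.G D.M D.A0 (show (c.1 : ℕ) + 1 ≤ D.m from c.1.2)
  have h2 := Am_mono D.G D.M D.A0 (Nat.zero_le (c.1 : ℕ))
  have h3 := hL.2.2.1
  have h4 := hL.2.2.2.1
  unfold Dat.A Ac at h3 h4
  rw [Am_succ] at h1
  unfold Ac at h1
  constructor
  · have h5 : Am D.G D.M D.A0 0 = D.A0 := rfl
    omega
  · omega

theorem Rf_len {Q : List α} {r : V} (h : D.Rf Q = some r) :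
    Am D.G D.M D.A0 D.m ≤ Q.length := by
  obtain ⟨c, hR, -⟩ := Rf_some h
  exact hR.2.2.2.1

theorem nu_fin {good : ℕ → Prop} {v0 r0 : ℕ → V} (hD : Geo D) (hN : Names D good v0 r0)
    {Y Y' : List α} (h1 : Ac D.G D.M D.A0 D.m ≤ Y.length) (h2 : Ac D.G D.M D.A0 D.m ≤ Y'.length)
    (h3 : Y.take (Ac D.G D.M D.A0 D.m) = Y'.take (Ac D.G D.M D.A0 D.m))
    (h4 : Y.length ≡ Y'.length [MOD D.M * D.G D.m]) (h5 : D.φ Y = D.φ Y') :
    D.nu good v0 r0 Y = D.nu good v0 r0 Y' := by
  classical
  have hM : Y.length ≡ Y'.length [MOD D.M] := h4.of_dvd (Dvd.intro _ rfl)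
  have hbe : ∀ k, k ≤ D.m → D.b k Y.length = D.b k Y'.length := by
    intro k hk
    have h6 := Am_mono D.G D.M D.A0 hk
    have h7 : Y.length ≡ Y'.length [MOD D.G k] :=
      h4.of_dvd ((hD.hd k _ hk).trans (Dvd.intro_left _ rfl))
    unfold Dat.b bt
    congr 1
    unfold Ac at h1 h2
    have h8 : (Y.length - Am D.G D.M D.A0 k) + Am D.G D.M D.A0 k ≡
        (Y'.length - Am D.G D.M D.A0 k) + Am D.G D.M D.A0 k [MOD D.G k] := by
      rw [Nat.sub_add_cancel (by omega), Nat.sub_add_cancel (by omega)]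
      exact h7
    exact Nat.ModEq.add_right_cancel' _ h8
  have hw : D.ww Y = D.ww Y' := by
    unfold Dat.ww
    refine Finset.sum_congr rfl fun k hk => ?_
    have hk' := Finset.mem_range.1 hk
    rw [hbe k hk'.le, hbe (k + 1) hk']
    congr 2
    have h9 : D.b (k + 1) Y'.length ≤ Ac D.G D.M D.A0 D.m := by
      have h10 := bt_mono' (G := D.G) (M := D.M) (A0 := D.A0) hD.hG Y'.length
        (show k + 1 ≤ D.m from hk')
      have h11 := bt_lt (G := D.G) (M := D.M) (A0 := D.A0) hD.hG D.m Y'.length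
      show bt D.G D.M D.A0 (k + 1) Y'.length ≤ _
      omega
    have h12 : D.b k Y'.length ≤ D.b (k + 1) Y'.length := bt_mono hD.hG _ _
    have e : ∀ X : List α, Ac D.G D.M D.A0 D.m ≤ X.length →
        seg X (D.b k Y'.length) (D.b (k + 1) Y'.length) =
        seg (X.take (Ac D.G D.M D.A0 D.m)) (D.b k Y'.length) (D.b (k + 1) Y'.length) := by
      intro X hX
      have := seg_left (P := X.take (Ac D.G D.M D.A0 D.m)) (Q := X.drop (Ac D.G D.M D.A0 D.m))
        h12 (by rw [List.length_take]; omega)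
      rw [List.take_append_drop] at this
      exact this
    rw [e Y h1, e Y' h2, h3]
  unfold Dat.nu
  rw [hw, h5]
  have hgg : good Y.length ↔ good Y'.length := hN.gp _ _ hM
  have hmm : Y.length % D.M = Y'.length % D.M := hM
  by_cases hg : good Y.length
  · rw [if_pos hg, if_pos (hgg.1 hg)]
  · rw [if_neg hg, if_neg (fun h => hg (hgg.2 h)), hmm]

universe u

/-- **693's grid gadget.** -/
theorem grid (S V : Type) [Monoid S] [Finite S] [AddCommGroup V] [Finite V] (act : V → S → V) :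
    ∃ m r : ℕ, ∀ B : ℕ, ∃ Ms : Finset ℕ, Ms.card ≤ r ∧ (∀ q ∈ Ms, q.Prime ∧ B < q) ∧
      ∀ (G : ℕ → ℕ) (A0 : ℕ), (∀ k, 0 < G k) → (∀ a b, a ≤ b → G a ∣ G b) →
        (∀ k, Nat.Coprime (∏ q ∈ Ms, q) (G k)) →
        ∀ (α : Type u) (φ : List α → S), (∀ u v, φ (u ++ v) = φ u * φ v) →
        ∃ (lam rho : List α → Option V) (nu : List α → V),
          (∀ P Q v b, lam P = some v → rho Q = some b →
            b = act v (φ (P ++ Q)) + nu (P ++ Q)) ∧
          (∀ P v, lam P = some v → A0 ≤ P.length ∧ P.length < Am G (∏ q ∈ Ms, q) A0 m) ∧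
          (∀ Q b, rho Q = some b → Am G (∏ q ∈ Ms, q) A0 m ≤ Q.length) ∧
          (∀ Y : List α, 2 * Am G (∏ q ∈ Ms, q) A0 m ≤ Y.length → (∏ q ∈ Ms, q) ≤ Y.length →
            (∀ q ∈ Ms, ¬ q ∣ Y.length) → ¬ BadG G (∏ q ∈ Ms, q) A0 m Y.length →
            ∀ v, ∃ P Q, P ++ Q = Y ∧ lam P = some v ∧ (rho Q).isSome) ∧
          (∀ Y Y' : List α, Ac G (∏ q ∈ Ms, q) A0 m ≤ Y.length →
            Ac G (∏ q ∈ Ms, q) A0 m ≤ Y'.length →
            Y.take (Ac G (∏ q ∈ Ms, q) A0 m) = Y'.take (Ac G (∏ q ∈ Ms, q) A0 m) →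
            Y.length ≡ Y'.length [MOD (∏ q ∈ Ms, q) * G m] → φ Y = φ Y' → nu Y = nu Y') := by
  classical
  haveI := Fintype.ofFinite S
  haveI := Fintype.ofFinite V
  obtain ⟨m, N, e, F, hNpos, hF⟩ := RandF808.exists_noise S V act
  haveI : NeZero N := ⟨hNpos.ne'⟩
  let W := ZMod N × ZMod N
  let bbf : Ctx m S W V → V := fun c =>
    F (c.2.1 * 1 * c.2.2.2.1) (c.2.2.1 + e c.1 1 + c.2.2.2.2.1) +
      act c.2.2.2.2.2 (c.2.1 * 1 * c.2.2.2.1)
  let col : Ctx m S W V → V × V := fun c => (c.2.2.2.2.2, bbf c)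
  haveI : Finite (Ctx m S W V) := by unfold Ctx; infer_instance
  obtain ⟨r, hr⟩ := Names_570.exists_names col
  refine ⟨m, r, fun B => ?_⟩
  obtain ⟨Ms, nmL, nmR, hcard, hpr, hpL, hpR, hA, hB, hC⟩ := hr B
  refine ⟨Ms, hcard, hpr, fun G A0 hG hd hcop α φ hφ => ?_⟩
  have hM0 : 0 < ∏ q ∈ Ms, q := Finset.prod_pos fun q hq => (hpr q hq).1.pos
  let D : Dat α S V W := ⟨φ, act, m, e, F, G, ∏ q ∈ Ms, q, A0, nmL, nmR⟩
  let good : ℕ → Prop := fun T => ∀ q ∈ Ms, ¬ q ∣ T
  have hgp : ∀ T T', T ≡ T' [MOD ∏ q ∈ Ms, q] → (good T ↔ good T') := by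
    intro T T' h
    have h1 : ∀ q ∈ Ms, (q ∣ T ↔ q ∣ T') := fun q hq =>
      (h.of_dvd (Finset.dvd_prod_of_mem _ hq)).dvd_iff (dvd_refl q)
    exact ⟨fun h2 q hq h3 => h2 q hq ((h1 q hq).2 h3), fun h2 q hq h3 => h2 q hq ((h1 q hq).1 h3)⟩
  -- representatives of the values
  have hn3 : ∀ ρ : ℕ, ∃ v0 r0 : V, ∀ o o' c c', (o + o') % (∏ q ∈ Ms, q) = ρ → ¬ good (o + o') →
      nmL o = some c → nmR o' = some c' → c.2.2.2.2.2 = v0 ∧ bbf c' = r0 := by
    intro ρ
    by_cases hex : ∃ o o' c c', (o + o') % (∏ q ∈ Ms, q) = ρ ∧ ¬ good (o + o') ∧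
      nmL o = some c ∧ nmR o' = some c'
    · obtain ⟨o, o', c, c', h1, h2, h3, h4⟩ := hex
      refine ⟨c.2.2.2.2.2, bbf c', ?_⟩
      intro p p' d d' g1 g2 g3 g4
      -- shift both totals to a common one
      set M := ∏ q ∈ Ms, q with hM
      have key : ∀ x y : ℕ, ∃ y', y' ≡ y [MOD M] ∧ x % M + y' = (x + y) % M + M := by
        intro x y
        have hx := Nat.mod_lt x hM0
        refine ⟨(x + y) % M + M - x % M, ?_, by omega⟩
        have e1 : ((x + y) % M + M - x % M) + x % M ≡ y + x % M [MOD M] := by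
          rw [Nat.sub_add_cancel (by omega)]
          have e2 : (x + y) % M + M ≡ x + y [MOD M] := by
            have : (x + y) % M + M ≡ (x + y) % M + 0 [MOD M] :=
              Nat.ModEq.add_left _ ((Nat.modEq_zero_iff_dvd).2 dvd_rfl)
            rw [add_zero] at this
            exact this.trans (Nat.mod_modEq _ _)
          refine e2.trans ?_
          rw [add_comm x y]
          exact Nat.ModEq.add_left _ (Nat.mod_modEq _ _).symm
        exact Nat.ModEq.add_right_cancel' _ e1
      obtain ⟨y1, a1, a2⟩ := key o o'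
      obtain ⟨y2, b1, b2⟩ := key p p'
      rw [h1] at a2
      rw [g1] at b2
      have hL1 : nmL (o % M) = some c := by rw [← h3]; exact per hpL (Nat.mod_modEq _ _)
      have hL2 : nmL (p % M) = some d := by rw [← g3]; exact per hpL (Nat.mod_modEq _ _)
      have hR1 : nmR y1 = some c' := by rw [← h4]; exact per hpR a1
      have hR2 : nmR y2 = some d' := by rw [← g4]; exact per hpR b1
      have hng : ¬ good (o % M + y1) := by
        intro h5
        apply h2
        refine (hgp _ _ ?_).1 h5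
        exact Nat.ModEq.add (Nat.mod_modEq _ _) a1
      have hex2 : ∃ q ∈ Ms, q ∣ o % M + y1 := by
        by_contra h5
        push Not at h5
        exact hng h5
      rcases hC _ _ _ _ _ _ _ _ (a2.trans b2.symm) hex2 hL1 hR1 hL2 hR2 with ⟨e1, e2⟩ | ⟨e1, e2, e3⟩
      · rw [e1, e2]; exact ⟨rfl, rfl⟩
      · have e4 : c.2.2.2.2.2 = c'.2.2.2.2.2 ∧ bbf c = bbf c' := by
          have := e3
          simp only [col, Prod.mk.injEq] at this
          exact this
        rw [← e1, ← e2]
        exact ⟨e4.1.symm, e4.2⟩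
    · refine ⟨0, 0, ?_⟩
      intro o o' c c' h1 h2 h3 h4
      exact absurd ⟨o, o', c, c', h1, h2, h3, h4⟩ hex
  choose v0 r0 h0 using hn3
  have hDg : Geo D := ⟨hφ, hG, hd⟩
  have hDn : Names D good v0 r0 := by
    refine ⟨?_, ?_, ?_, hpL, hpR, hgp, hM0, hcop⟩
    · intro o o' c c' h1 h2 h3
      exact hA o o' c c' h1 h2 h3
    · intro T hT hMT c
      obtain ⟨t, -, -, h1, h2, h3⟩ := hB T c 0 hT (by
        have : D.M = ∏ q ∈ Ms, q := rfl
        omega)
      exact ⟨t, h1, h2, h3⟩
    · intro o o' c c' h1 h2 h3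
      exact h0 _ o o' c c' rfl h1 h2 h3
  refine ⟨D.Lf, D.Rf, D.nu good v0 r0, ?_, ?_, ?_, ?_, ?_⟩
  · intro P Q v b h1 h2
    exact sound hDg hDn h1 h2
  · intro P v h1
    exact Lf_len h1
  · intro Q b h1
    exact Rf_len h1
  · intro Y h1 h2 h3 h4 v
    exact complete hDg hDn hF Y h1 h2 h3 h4 v
  · intro Y Y' h1 h2 h3 h4 h5
    exact nu_fin hDg hDn h1 h2 h3 h4 h5

end Crest.Agent.R320.GridG_19
end

-- ▼ part R320/Univ_582
section

/-!
# Row 320: universe transfer (helper582)

`final` : the statement of S0495 for every finite alphabet of every universe from the fibres of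
`w ↦ ∏ φ(w_i)` for alphabets and monoids in `Type`.
-/

set_option autoImplicit false

namespace Crest.Agent.R320.Univ_582

open Crest.RegLang Crest.Agent.R320.Hk_851

universe u v

variable {α : Type u} {β : Type v}

/-- rename the letters -/
def ren (f : β → α) : GRegExp β → GRegExp α
  | .zero => .zero
  | .eps => .eps
  | .char b => .char (f b)
  | .union P Q => .union (ren f P) (ren f Q)
  | .cat P Q => .cat (ren f P) (ren f Q)
  | .not P => .not (ren f P)
  | .star P => .star (ren f P)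

theorem ren_height (f : β → α) : ∀ e : GRegExp β, (ren f e).height = e.height
  | .zero => rfl
  | .eps => rfl
  | .char _ => rfl
  | .union P Q => by simp only [ren, GRegExp.height, ren_height f P, ren_height f Q]
  | .cat P Q => by simp only [ren, GRegExp.height, ren_height f P, ren_height f Q]
  | .not P => by simp only [ren, GRegExp.height, ren_height f P]
  | .star P => by simp only [ren, GRegExp.height, ren_height f P]

theorem mem_ren (f : β ≃ α) : ∀ (e : GRegExp β) (w : List β),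
    w.map f ∈ (ren f e).lang ↔ w ∈ e.lang
  | .zero, w => Iff.rfl
  | .eps, w => by
    change w.map f ∈ (1 : Language α) ↔ w ∈ (1 : Language β)
    rw [Language.mem_one, Language.mem_one]
    simp
  | .char b, w => by
    change w.map f = [f b] ↔ w = [b]
    constructor
    · intro h
      have h2 : w.map f = [b].map f := by simpa using h
      exact List.map_injective_iff.2 f.injective h2
    · rintro rfl; rfl
  | .union P Q, w => by
    change w.map f ∈ (ren f P).lang + (ren f Q).lang ↔ w ∈ P.lang + Q.lang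
    rw [Language.mem_add, Language.mem_add, mem_ren f P, mem_ren f Q]
  | .cat P Q, w => by
    change w.map f ∈ (ren f P).lang * (ren f Q).lang ↔ w ∈ P.lang * Q.lang
    rw [Language.mem_mul, Language.mem_mul]
    constructor
    · rintro ⟨a, ha, b, hb, h⟩
      obtain ⟨a', b', rfl, h1, h2⟩ := List.map_eq_append_iff.1 h.symm
      subst h1 h2
      exact ⟨a', (mem_ren f P _).1 ha, b', (mem_ren f Q _).1 hb, rfl⟩
    · rintro ⟨a, ha, b, hb, rfl⟩
      exact ⟨a.map f, (mem_ren f P _).2 ha, b.map f, (mem_ren f Q _).2 hb, by simp⟩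
  | .not P, w => not_congr (mem_ren f P w)
  | .star P, w => by
    change w.map f ∈ KStar.kstar (ren f P).lang ↔ w ∈ KStar.kstar P.lang
    rw [Language.mem_kstar, Language.mem_kstar]
    constructor
    · rintro ⟨S, h, hS⟩
      refine ⟨S.map (List.map f.symm), ?_, ?_⟩
      · have h2 : (w.map f).map f.symm = S.flatten.map f.symm := by rw [h]
        rw [List.map_map, f.symm_comp_self, List.map_id] at h2
        rw [h2, List.map_flatten]
      · intro y hy
        obtain ⟨x, hx, rfl⟩ := List.mem_map.1 hy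
        refine (mem_ren f P _).1 ?_
        rw [List.map_map, f.self_comp_symm, List.map_id]
        exact hS x hx
    · rintro ⟨S, rfl, hS⟩
      refine ⟨S.map (List.map f), by rw [List.map_flatten], ?_⟩
      intro y hy
      obtain ⟨x, hx, rfl⟩ := List.mem_map.1 hy
      exact (mem_ren f P _).2 (hS x hx)

theorem transfer {k : ℕ} (f : β ≃ α) {L : Language α}
    (h : HL k ({w | w.map f ∈ L} : Language β)) : HL k L := by
  obtain ⟨e, h1, h2⟩ := h
  refine ⟨ren f e, by rw [ren_height]; exact h1, ?_⟩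
  ext w
  have hw : (w.map f.symm).map f = w := by rw [List.map_map, f.self_comp_symm, List.map_id]
  rw [← hw, mem_ren f e, h2]
  exact Iff.rfl

theorem reg_comap (f : β → α) {L : Language α} (hL : L.IsRegular) :
    Language.IsRegular ({w | w.map f ∈ L} : Language β) := by
  obtain ⟨σ, hσ, M, rfl⟩ := hL
  exact ⟨σ, hσ, M.comap f, by rw [DFA.accepts_comap]; rfl⟩

/-- all alphabets from the alphabets in `Type` -/
theorem of_type {k : ℕ}
    (h : ∀ (β : Type) [Finite β] (L : Language β), L.IsRegular → HL k L)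
    (α : Type u) [Finite α] (L : Language α) (hL : L.IsRegular) : HL k L := by
  obtain ⟨n, ⟨e⟩⟩ := Finite.exists_equiv_fin α
  exact transfer e.symm (h (Fin n) _ (reg_comap e.symm hL))

/-- **final form**: fibres for alphabets and monoids in `Type`. -/
theorem final {k : ℕ}
    (h : ∀ (β : Type) [Finite β] (S : Type) [Monoid S] [Finite S] (φ : β → S) (s : S),
      HL k ({w | (w.map φ).prod = s} : Language β))
    (α : Type u) [Finite α] (L : Language α) (hL : L.IsRegular) :
    ∃ e : Crest.RegLang.GRegExp α, e.height ≤ k ∧ e.lang = L :=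
  of_type (fun β _ L hL => of_monoid (fun S _ _ φ s => h β S φ s) L hL) α L hL

end Crest.Agent.R320.Univ_582
private theorem rz_a02104344a : type_of% @_root_.Crest.Agent.R320.Univ_582.ren.eq_def := @_root_.Crest.Agent.R320.Univ_582.ren.eq_def -- L21
private theorem rz_19141b3bdb : type_of% @_root_.Crest.Agent.R320.Univ_582.ren.eq_1 := @_root_.Crest.Agent.R320.Univ_582.ren.eq_1 -- L21
private theorem rz_e17fdd2603 : type_of% @_root_.Crest.RegLang.GRegExp.height.eq_def := @_root_.Crest.RegLang.GRegExp.height.eq_def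
private theorem rz_37570c76ce : type_of% @_root_.Crest.RegLang.GRegExp.height.eq_1 := @_root_.Crest.RegLang.GRegExp.height.eq_1
end

-- ▼ part R320/RulerGrid_506
section

/-!
# Row 320: ruler and spoil count for the grid gadget (helper506)
-/

set_option autoImplicit false

namespace Crest.Agent.R320.RulerGrid_506

open Finset

/-- the bad lengths of the grid gadget -/
def Bad (Ms : Finset ℕ) (m M Gam : ℕ) (Am : ℕ → ℤ) (T : ℤ) : Prop :=
  (∃ p ∈ Ms, (p : ℤ) ∣ T) ∨
    ∃ j, 1 ≤ j ∧ j ≤ m ∧ ∃ k : ℤ, |T - Am j - k * (Gam : ℤ) ^ j| ≤ (M : ℤ) * (Gam : ℤ) ^ (j - 1)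

theorem four_aux {i j k l : ℕ} (hil : i ≤ l) (hjk : j ≤ k) (h : 4 ^ i + 4 ^ l = 4 ^ j + 4 ^ k) :
    ¬ i < j := by
  intro hij
  obtain ⟨a, rfl⟩ := Nat.exists_eq_add_of_le hil
  obtain ⟨b, rfl⟩ := Nat.exists_eq_add_of_lt hij
  obtain ⟨c, rfl⟩ := Nat.exists_eq_add_of_le hjk
  have h1 : 4 ^ i * (1 + 4 ^ a) = 4 ^ i * (4 * (4 ^ b + 4 ^ (b + c))) := by
    have e1 : 4 ^ i * (1 + 4 ^ a) = 4 ^ i + 4 ^ (i + a) := by rw [pow_add]; ring
    have e2 : 4 ^ i * (4 * (4 ^ b + 4 ^ (b + c))) = 4 ^ (i + b + 1) + 4 ^ (i + b + 1 + c) := by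
      rw [pow_add, pow_add, pow_add, pow_add, pow_add, pow_add]; ring
    rw [e1, e2, h]
  have h2 : 1 + 4 ^ a = 4 * (4 ^ b + 4 ^ (b + c)) :=
    Nat.eq_of_mul_eq_mul_left (pow_pos (by norm_num) i) h1
  rcases Nat.eq_zero_or_pos a with rfl | ha
  · simp at h2; omega
  · obtain ⟨a', rfl⟩ := Nat.exists_eq_add_of_lt ha
    have : (4:ℕ) ^ (0 + a' + 1) = 4 * 4 ^ a' := by rw [pow_succ]; ring_nf
    omega

theorem four_aux2 {i j k l : ℕ} (hil : i ≤ l) (hjk : j ≤ k) (h : 4 ^ i + 4 ^ l = 4 ^ j + 4 ^ k) :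
    i = j ∧ l = k := by
  have h1 := four_aux hil hjk h
  have h2 := four_aux hjk hil h.symm
  have h3 : i = j := by omega
  subst h3
  refine ⟨rfl, ?_⟩
  have : 4 ^ l = 4 ^ k := by omega
  exact Nat.pow_right_injective (le_refl 2 |>.trans (by norm_num)) this

theorem four_uniq {i j k l : ℕ} (h : 4 ^ i + 4 ^ l = 4 ^ j + 4 ^ k) :
    (i = j ∧ l = k) ∨ (i = k ∧ l = j) := by
  rcases le_total i l with hil | hil <;> rcases le_total j k with hjk | hjk
  · exact Or.inl (four_aux2 hil hjk h)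
  · exact Or.inr (four_aux2 hil hjk (by rw [h]; ring))
  · obtain ⟨a, b⟩ := four_aux2 hil hjk (by rw [← h]; ring)
    exact Or.inr ⟨b, a⟩
  · obtain ⟨a, b⟩ := four_aux2 hil hjk (by rw [add_comm, h]; ring)
    exact Or.inl ⟨b, a⟩

/-- second differences of the ruler `4 ^ i` -/
theorem diff_ne {i j k l : ℕ} (hij : i ≠ j) (hne : ¬ (i = k ∧ j = l)) :
    ((4:ℤ) ^ i - 4 ^ j) - (4 ^ k - 4 ^ l) ≠ 0 := by
  intro h
  have h1 : 4 ^ i + 4 ^ l = 4 ^ j + 4 ^ k := by
    have : ((4 ^ i + 4 ^ l : ℕ) : ℤ) = ((4 ^ j + 4 ^ k : ℕ) : ℤ) := by push_cast; linarith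
    exact_mod_cast this
  rcases four_uniq h1 with ⟨a, _⟩ | ⟨a, b⟩
  · exact hij a
  · exact hne ⟨a, b.symm⟩

theorem diff_le {K i j k l : ℕ} (hi : i < K) (hj : j < K) (hk : k < K) (hl : l < K) :
    |((4:ℤ) ^ i - 4 ^ j) - (4 ^ k - 4 ^ l)| ≤ 2 * 4 ^ K := by
  have b : ∀ t, t < K → (0:ℤ) < 4 ^ t ∧ (4:ℤ) ^ t ≤ 4 ^ K := fun t ht =>
    ⟨by positivity, pow_le_pow_right₀ (by norm_num) ht.le⟩
  obtain ⟨h1, h1'⟩ := b i hi
  obtain ⟨h2, h2'⟩ := b j hj
  obtain ⟨h3, h3'⟩ := b k hk
  obtain ⟨h4, h4'⟩ := b l hl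
  rw [abs_le]
  constructor <;> linarith

/-- the sum `∑_{i ≤ m} M Gam^i` modulo `Gam^j` is the partial sum below `j`. -/
theorem sum_mod (M Gam : ℤ) (m j : ℕ) (hj : j ≤ m) :
    Gam ^ j ∣ (∑ i ∈ range (m + 1), M * Gam ^ i) - ∑ i ∈ range j, M * Gam ^ i := by
  rw [← Finset.sum_range_add_sum_Ico _ (show j ≤ m + 1 by omega), add_sub_cancel_left]
  refine Finset.dvd_sum fun i hi => ?_
  exact Dvd.dvd.mul_left (pow_dvd_pow _ (Finset.mem_Ico.1 hi).1) _

theorem partial_le (M Gam : ℤ) (hM : 0 ≤ M) (hG : 2 ≤ Gam) (j : ℕ) :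
    ∑ i ∈ range (j + 1), M * Gam ^ i ≤ 2 * (M * Gam ^ j) := by
  induction j with
  | zero => simp; linarith
  | succ j ih =>
    rw [Finset.sum_range_succ]
    have h1 : 0 ≤ M * Gam ^ j := mul_nonneg hM (pow_nonneg (by linarith) _)
    have h2 : 2 * (M * Gam ^ j) ≤ M * Gam ^ (j + 1) := by
      have : M * Gam ^ (j + 1) = Gam * (M * Gam ^ j) := by rw [pow_succ]; ring
      rw [this]
      exact mul_le_mul_of_nonneg_right hG h1
    linarith

theorem partial_ge (M Gam : ℤ) (hM : 0 ≤ M) (hG : 0 ≤ Gam) (j : ℕ) :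
    M * Gam ^ j ≤ ∑ i ∈ range (j + 1), M * Gam ^ i := by
  rw [Finset.sum_range_succ]
  have : 0 ≤ ∑ i ∈ range j, M * Gam ^ i :=
    Finset.sum_nonneg fun i _ => mul_nonneg hM (pow_nonneg hG _)
  linarith

/-- key: `U * D` is far from the multiples of `Gam ^ (j+1)` -/
theorem far {M Gam D : ℤ} {K : ℕ} (hM : 0 < M) (hGam : 100 * 4 ^ (K + 1) * M ≤ Gam) {m j : ℕ}
    (hj : j + 1 ≤ m) {B : ℤ} (hB : Gam ^ m ∣ B) (hD0 : D ≠ 0) (hD : |D| ≤ 2 * 4 ^ K) (k : ℤ) :
    2 * (M * Gam ^ j) <
      |(8 * (1 + ∑ i ∈ range (m + 1), M * Gam ^ i) + B) * D - k * Gam ^ (j + 1)| := by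
  have h4 : (1:ℤ) ≤ 4 ^ K := one_le_pow₀ (by norm_num)
  have h4' : (4:ℤ) ^ (K + 1) = 4 * 4 ^ K := by rw [pow_succ]; ring
  have hG2 : 2 ≤ Gam := by nlinarith
  obtain ⟨q, hq⟩ := sum_mod M Gam m (j + 1) hj
  obtain ⟨r, hr⟩ := (pow_dvd_pow Gam hj).trans hB
  set s := ∑ i ∈ range (j + 1), M * Gam ^ i with hs
  have e1 : (8 * (1 + ∑ i ∈ range (m + 1), M * Gam ^ i) + B) * D - k * Gam ^ (j + 1) =
      8 * (1 + s) * D - (k - 8 * q * D - r * D) * Gam ^ (j + 1) := by
    have : ∑ i ∈ range (m + 1), M * Gam ^ i = s + Gam ^ (j + 1) * q := by linarith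
    rw [this, hr]; ring
  rw [e1]
  set k' := k - 8 * q * D - r * D with hk'
  have hs1 := partial_le M Gam hM.le hG2 j
  have hs2 := partial_ge M Gam hM.le (by linarith) j
  rw [← hs] at hs1 hs2
  set c := M * Gam ^ j with hc
  have hgj : 0 < Gam ^ j := pow_pos (by linarith) _
  have hcpos : 0 < c := mul_pos hM hgj
  have hc1 : 1 ≤ c := hcpos
  have hGj : Gam ^ (j + 1) = Gam * Gam ^ j := by rw [pow_succ]; ring
  have hbig : 100 * 4 ^ (K + 1) * c ≤ Gam ^ (j + 1) := by
    rw [hGj, hc]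
    have := mul_le_mul_of_nonneg_right hGam hgj.le
    linarith
  have hD1 : 1 ≤ |D| := Int.one_le_abs hD0
  have hX1 : 8 * c < |8 * (1 + s) * D| := by
    rw [abs_mul, abs_of_pos (show (0:ℤ) < 8 * (1 + s) by linarith)]
    nlinarith
  have hX2 : |8 * (1 + s) * D| ≤ 24 * c * (2 * 4 ^ K) := by
    rw [abs_mul, abs_of_pos (show (0:ℤ) < 8 * (1 + s) by linarith)]
    have : 8 * (1 + s) ≤ 24 * c := by linarith
    exact mul_le_mul this hD (abs_nonneg _) (by linarith)
  rcases eq_or_ne k' 0 with h0 | h0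
  · rw [h0, zero_mul, sub_zero]; linarith
  · have hk1 : 1 ≤ |k'| := Int.one_le_abs h0
    have h5 : Gam ^ (j + 1) ≤ |k' * Gam ^ (j + 1)| := by
      rw [abs_mul, abs_of_pos (show (0:ℤ) < Gam ^ (j + 1) by rw [hGj]; positivity)]
      have : 0 < Gam ^ (j + 1) := by rw [hGj]; positivity
      nlinarith
    have h6 := abs_sub_abs_le_abs_sub (k' * Gam ^ (j + 1)) (8 * (1 + s) * D)
    rw [abs_sub_comm] at h6
    have h7 : 100 * 4 ^ (K + 1) * c = 400 * 4 ^ K * c := by rw [h4']; ring
    have h8 : c ≤ 4 ^ K * c := by nlinarith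
    nlinarith

theorem exists_ruler (K m N M Gam : ℕ) (Ms : Finset ℕ) (Am : ℕ → ℤ) (hM : 0 < M)
    (hMs : ∀ p ∈ Ms, p.Prime ∧ 8 * 4 ^ (K + 1) < p ∧ p ∣ M)
    (hGam : (100 * 4 ^ (K + 1)) * M ≤ Gam) :
    ∃ x : ℕ → ℕ, StrictMono x ∧
      (∀ i j k l, i < K → j < K → k < K → l < K → i ≠ j → k ≠ l → ¬ (i = k ∧ j = l) →
        (N:ℤ) < |((x i:ℤ) - x j) - ((x k:ℤ) - x l)|) ∧
      ∀ T : ℤ, ∀ [DecidablePred fun ab : ℕ × ℕ =>
          ab.1 ≠ ab.2 ∧ Bad Ms m M Gam Am (T + x ab.2 - x ab.1)],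
        ((range K ×ˢ range K).filter fun ab : ℕ × ℕ =>
          ab.1 ≠ ab.2 ∧ Bad Ms m M Gam Am (T + x ab.2 - x ab.1)).card ≤ Ms.card + m := by
  classical
  have hMz : (0:ℤ) < M := by exact_mod_cast hM
  have hGz : 100 * 4 ^ (K + 1) * (M:ℤ) ≤ (Gam:ℤ) := by exact_mod_cast hGam
  have hGpos : 0 < Gam := lt_of_lt_of_le (by positivity) hGam
  set U : ℕ := 8 * (1 + ∑ i ∈ range (m + 1), M * Gam ^ i) + M * Gam ^ m * (N + 1) with hU
  have hUz : (U:ℤ) = 8 * (1 + ∑ i ∈ range (m + 1), (M:ℤ) * (Gam:ℤ) ^ i) +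
      (M:ℤ) * (Gam:ℤ) ^ m * (N + 1) := by rw [hU]; push_cast; ring
  have hUN : N < U := by
    have h1 : N + 1 ≤ M * Gam ^ m * (N + 1) := Nat.le_mul_of_pos_left _ (by positivity)
    omega
  have hUpos : 0 < U := by omega
  have hUD : ∀ i j k l : ℕ, ((((U * 4 ^ i : ℕ) : ℤ) - ((U * 4 ^ j : ℕ) : ℤ)) -
      (((U * 4 ^ k : ℕ) : ℤ) - ((U * 4 ^ l : ℕ) : ℤ))) =
      U * (((4:ℤ) ^ i - 4 ^ j) - (4 ^ k - 4 ^ l)) := by
    intro i j k l; push_cast; ring
  refine ⟨fun i => U * 4 ^ i, ?_, ?_, ?_⟩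
  · intro a b hab
    exact Nat.mul_lt_mul_of_pos_left (Nat.pow_lt_pow_right (by norm_num) hab) hUpos
  · intro i j k l hi hj hk hl hij hkl hne
    rw [hUD, abs_mul, abs_of_pos (by exact_mod_cast hUpos : (0:ℤ) < U)]
    have := Int.one_le_abs (diff_ne hij hne)
    have h2 : (N:ℤ) < U := by exact_mod_cast hUN
    nlinarith
  · intro T _
    -- injection of the bad pairs into the modes
    let P : ℕ × ℕ → Prop := fun ab =>
      ab.1 ≠ ab.2 ∧ Bad Ms m M Gam Am (T + ((U * 4 ^ ab.2 : ℕ) : ℤ) - ((U * 4 ^ ab.1 : ℕ) : ℤ))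
    let mode : ℕ ⊕ ℕ → ℤ → Prop := fun o t => match o with
      | Sum.inl p => (p:ℤ) ∣ t
      | Sum.inr j => ∃ k : ℤ, |t - Am (j + 1) - k * (Gam : ℤ) ^ (j + 1)| ≤ (M : ℤ) * (Gam : ℤ) ^ j
    have hmode : ∀ ab, P ab → ∃ o ∈ Ms.disjSum (range m),
        mode o (T + ((U * 4 ^ ab.2 : ℕ) : ℤ) - ((U * 4 ^ ab.1 : ℕ) : ℤ)) := by
      rintro ab ⟨_, ⟨p, hp, hd⟩ | ⟨j, hj1, hj2, k, hk⟩⟩
      · exact ⟨Sum.inl p, Finset.inl_mem_disjSum.2 hp, hd⟩
      · obtain ⟨j', rfl⟩ := Nat.exists_eq_add_of_le hj1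
        refine ⟨Sum.inr j', Finset.inr_mem_disjSum.2 (Finset.mem_range.2 (by omega)), k, ?_⟩
        rw [show 1 + j' = j' + 1 by ring] at hk
        simpa using hk
    have huniq : ∀ o ∈ Ms.disjSum (range m), ∀ i j k l : ℕ, i < K → j < K → k < K → l < K →
        i ≠ j → k ≠ l →
        mode o (T + ((U * 4 ^ j : ℕ) : ℤ) - ((U * 4 ^ i : ℕ) : ℤ)) →
        mode o (T + ((U * 4 ^ l : ℕ) : ℤ) - ((U * 4 ^ k : ℕ) : ℤ)) → i = k ∧ j = l := by
      intro o ho i j k l hi hj hk hl hij hkl h1 h2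
      by_contra hne
      have hD0 := diff_ne hij hne
      have hD := diff_le hi hj hk hl
      set D := ((4:ℤ) ^ i - 4 ^ j) - (4 ^ k - 4 ^ l) with hDdef
      have hdiff : (T + ((U * 4 ^ l : ℕ) : ℤ) - ((U * 4 ^ k : ℕ) : ℤ)) -
          (T + ((U * 4 ^ j : ℕ) : ℤ) - ((U * 4 ^ i : ℕ) : ℤ)) = U * D := by
        rw [hDdef]; push_cast; ring
      rcases o with p | j0
      · obtain ⟨hp, hpK, hpM⟩ := hMs p (Finset.inl_mem_disjSum.1 ho)
        have hd : (p:ℤ) ∣ U * D := by rw [← hdiff]; exact dvd_sub h2 h1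
        have hpz : Prime (p:ℤ) := Nat.prime_iff_prime_int.1 hp
        have hpMz : (p:ℤ) ∣ (M:ℤ) := by exact_mod_cast hpM
        rcases hpz.dvd_or_dvd hd with h | h
        · have h8 : (p:ℤ) ∣ 8 := by
            have e : (8:ℤ) = U - (8 * ∑ i ∈ range (m + 1), (M:ℤ) * (Gam:ℤ) ^ i +
                (M:ℤ) * (Gam:ℤ) ^ m * (N + 1)) := by rw [hUz]; ring
            rw [e]
            refine dvd_sub h (dvd_add (Dvd.dvd.mul_left (Finset.dvd_sum fun i _ =>
              Dvd.dvd.mul_right hpMz _) _) ?_)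
            rw [mul_assoc]; exact Dvd.dvd.mul_right hpMz _
          have h9 : p ∣ 8 := by exact_mod_cast h8
          have := Nat.le_of_dvd (by norm_num) h9
          have : 1 ≤ 4 ^ (K + 1) := Nat.one_le_pow _ _ (by norm_num)
          omega
        · have h9 := Int.le_of_dvd (abs_pos.2 hD0) ((dvd_abs _ _).2 h)
          have h10 : (8 * 4 ^ (K + 1) : ℤ) < p := by exact_mod_cast hpK
          have h11 : (4:ℤ) ^ (K + 1) = 4 * 4 ^ K := by rw [pow_succ]; ring
          have h12 : (0:ℤ) < 4 ^ K := by positivity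
          linarith
      · obtain ⟨k1, hk1⟩ := h1
        obtain ⟨k2, hk2⟩ := h2
        have hj0 : j0 < m := Finset.mem_range.1 (Finset.inr_mem_disjSum.1 ho)
        have hB : (Gam:ℤ) ^ m ∣ (M:ℤ) * (Gam:ℤ) ^ m * (N + 1) :=
          Dvd.dvd.mul_right (Dvd.dvd.mul_left dvd_rfl _) _
        have hf := far (M := (M:ℤ)) (Gam := (Gam:ℤ)) (D := D) (K := K) hMz hGz
          (show j0 + 1 ≤ m from hj0) hB hD0 hD (k2 - k1)
        rw [← hUz, ← hdiff] at hf
        rw [abs_le] at hk1 hk2
        rw [lt_abs] at hf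
        rcases hf with hf | hf
        · linarith [hk1.1, hk1.2, hk2.1, hk2.2]
        · linarith [hk1.1, hk1.2, hk2.1, hk2.2]
    choose! f hf1 hf2 using hmode
    calc _ ≤ (Ms.disjSum (range m)).card := by
          refine Finset.card_le_card_of_injOn f ?_ ?_
          · intro ab hab
            exact hf1 ab (Finset.mem_filter.1 hab).2
          · rintro ⟨i, j⟩ h1 ⟨k, l⟩ h2 hfe
            obtain ⟨h1a, h1b⟩ := Finset.mem_filter.1 (Finset.mem_coe.1 h1)
            obtain ⟨h2a, h2b⟩ := Finset.mem_filter.1 (Finset.mem_coe.1 h2)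
            rw [Finset.mem_product, Finset.mem_range, Finset.mem_range] at h1a h2a
            have m1 := hf2 (i, j) h1b
            have m2 := hf2 (k, l) h2b
            rw [← hfe] at m2
            obtain ⟨a, b⟩ := huniq _ (hf1 (i, j) h1b) i j k l h1a.1 h1a.2 h2a.1 h2a.2
              h1b.1 h2b.1 m1 m2
            rw [a, b]
      _ = Ms.card + m := by rw [Finset.card_disjSum, Finset.card_range]

end Crest.Agent.R320.RulerGrid_506
end

-- ▼ part R320/Fin_506

/-!
# Row 320, final assembly (helper506)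

Semantic top (727) + joint of the two schemes (814) + regularity (854) + left-looking walls (922)
+ grid gadget (19) + exact gadget (237) + ruler (506).
-/

set_option autoImplicit false

namespace Crest.Agent.R320.Fin_506

open Finset Crest.Agent.R320.Hk_851

/-- bad grid totals are bad in the sense of the ruler -/
theorem badG_bad {Gam M m T : ℕ} (hG : 0 < Gam)
    (hT : GridG_19.Am (fun k => Gam ^ k) M 0 m ≤ T)
    (h : GridG_19.BadG (fun k => Gam ^ k) M 0 m T) :
    ∃ j, 1 ≤ j ∧ j ≤ m ∧ ∃ k : ℤ,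
      |(T : ℤ) - ((GridG_19.Am (fun k => Gam ^ k) M 0 j : ℕ) : ℤ) - k * (Gam : ℤ) ^ j| ≤
        (M : ℤ) * (Gam : ℤ) ^ (j - 1) := by
  obtain ⟨k, hk, h⟩ := h
  have h1 : GridG_19.Am (fun k => Gam ^ k) M 0 (k + 1) ≤ T :=
    (GridG_19.Am_mono _ _ _ (by omega)).trans hT
  refine ⟨k + 1, by omega, by omega, ?_⟩
  simp only at h
  set A := GridG_19.Am (fun k => Gam ^ k) M 0 (k + 1) with hA
  obtain ⟨D, hD⟩ := Nat.exists_eq_add_of_le h1
  have hTD : T - A = D := by omega
  rw [hTD] at h
  have hg : 0 < Gam ^ (k + 1) := pow_pos hG _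
  have hmod := Nat.mod_add_div D (Gam ^ (k + 1))
  have hlt := Nat.mod_lt D hg
  have hTz : (T : ℤ) - (A : ℤ) = D := by rw [hD]; push_cast; ring
  have hmz : ((D % Gam ^ (k + 1) : ℕ) : ℤ) + (Gam : ℤ) ^ (k + 1) * ((D / Gam ^ (k + 1) : ℕ) : ℤ) =
      (D : ℤ) := by
    exact_mod_cast hmod
  have hk1 : k + 1 - 1 = k := by omega
  rw [hk1, hTz]
  rcases h with h | h
  · refine ⟨((D / Gam ^ (k + 1) : ℕ) : ℤ), ?_⟩
    have h2 : (D : ℤ) - ((D / Gam ^ (k + 1) : ℕ) : ℤ) * (Gam : ℤ) ^ (k + 1) =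
        ((D % Gam ^ (k + 1) : ℕ) : ℤ) := by linarith
    rw [h2, abs_of_nonneg (by positivity)]
    exact_mod_cast h.le
  · refine ⟨((D / Gam ^ (k + 1) : ℕ) : ℤ) + 1, ?_⟩
    have h2 : (D : ℤ) - (((D / Gam ^ (k + 1) : ℕ) : ℤ) + 1) * (Gam : ℤ) ^ (k + 1) =
        ((D % Gam ^ (k + 1) : ℕ) : ℤ) - (Gam : ℤ) ^ (k + 1) := by linarith
    have h3 : ((D % Gam ^ (k + 1) : ℕ) : ℤ) < (Gam : ℤ) ^ (k + 1) := by exact_mod_cast hlt
    have h4 : (Gam : ℤ) ^ (k + 1) ≤ ((D % Gam ^ (k + 1) : ℕ) : ℤ) + (M : ℤ) * (Gam : ℤ) ^ k := by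
      exact_mod_cast h
    rw [h2, abs_le]
    constructor <;> linarith

theorem uniq {P : ℕ → Prop} (h : ∀ s t, P s → P t → s = t) : ∃ s0, ∀ s, P s → s = s0 := by
  by_cases hex : ∃ s, P s
  · obtain ⟨s0, h0⟩ := hex
    exact ⟨s0, fun s hs => h s s0 hs h0⟩
  · exact ⟨0, fun s hs => (hex ⟨s, hs⟩).elim⟩

/-- **the spoil count** -/
theorem spoil {α : Type} {Wo : List α → Prop} {n W z p0 N K C0 : ℕ} {c : ℕ → ℕ}
    {BadT : ℕ → Prop} (hW : JointSem_814.Walls n W Wo) (hWbig : 2 * p0 + 2 * N ≤ W)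
    (hc : ∀ k < K, c k ≤ p0) (hz : p0 + N ≤ z)
    (hgol : ∀ i j k l, i < K → j < K → k < K → l < K → i ≠ j → k ≠ l → ¬ (i = k ∧ j = l) →
        ((2 * N : ℕ) : ℤ) < |((c i : ℤ) - c j) - ((c k : ℤ) - c l)|)
    (hthin : ∀ T : ℤ, ∃ J : Finset ℕ, J.card ≤ C0 ∧ ∀ k < K, ∀ k' < K, k' ≠ k → ∀ t : ℕ,
      (t : ℤ) = T + c k' - c k → z - p0 ≤ t → BadT t → k ∈ J)
    (U : List α) :
    ∃ J : Finset ℕ, J.card ≤ 2 * C0 + 1 ∧ ∀ k < K,
      JointSem_814.Spoiled Wo z p0 N K c BadT U k → k ∈ J := by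
  classical
  have same : ∀ s t, (s ≤ U.length ∧ Wo (U.take s) ∧ z ≤ s + p0 + N ∧ s < z + p0 + N) →
      (t ≤ U.length ∧ Wo (U.take t) ∧ z ≤ t + p0 + N ∧ t < z + p0 + N) → s = t := by
    rintro s t ⟨s1, s2, s3, s4⟩ ⟨t1, t2, t3, t4⟩
    rcases Nat.lt_trichotomy s t with h | h | h
    · exact (hW.gap U s t h (by omega) t1 s2 t2).elim
    · exact h
    · exact (hW.gap U t s h (by omega) s1 t2 s2).elim
  obtain ⟨s0, hs0⟩ := uniq same
  obtain ⟨s1, hs1⟩ := uniq (P := fun s => s ≤ U.length ∧ Wo (U.take s) ∧ z + p0 + N ≤ s ∧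
      ∀ t, t < s → Wo (U.take t) → t < z + p0 + N) (by
    rintro s t ⟨a1, a2, a3, a4⟩ ⟨b1, b2, b3, b4⟩
    rcases Nat.lt_trichotomy s t with h | h | h
    · have := b4 s h a2; omega
    · exact h
    · have := a4 t h b2; omega)
  obtain ⟨J0, hJ0, hJ0'⟩ := hthin ((s0 : ℤ) - p0)
  obtain ⟨J1, hJ1, hJ1'⟩ := hthin ((s1 : ℤ) - p0)
  let JE : Finset ℕ := (range K).filter (fun k => ∃ k' < K, k' ≠ k ∧ ∃ s, s ≤ U.length ∧
    Wo (U.take s) ∧ z + c k ≤ s + c k' + N ∧ s + c k' < z + N + c k)
  have hJE : JE.card ≤ 1 := by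
    rw [Finset.card_le_one]
    intro k hk l hl
    simp only [JE, Finset.mem_filter, Finset.mem_range] at hk hl
    obtain ⟨hkK, k', hk'K, hne, s, a1, a2, a3, a4⟩ := hk
    obtain ⟨hlK, l', hl'K, hne', t, b1, b2, b3, b4⟩ := hl
    have h1 := hc k hkK
    have h2 := hc k' hk'K
    have h3 := hc l hlK
    have h4 := hc l' hl'K
    have hst : s = t := same s t ⟨a1, a2, by omega, by omega⟩ ⟨b1, b2, by omega, by omega⟩
    subst hst
    by_contra hkl
    have h5 := hgol k k' l l' hkK hk'K hlK hl'K (Ne.symm hne) (Ne.symm hne')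
      (fun h => hkl h.1)
    have h6 : |((c k : ℤ) - c k') - ((c l : ℤ) - c l')| ≤ ((2 * N : ℕ) : ℤ) := by
      rw [abs_le]
      constructor <;> omega
    omega
  refine ⟨JE ∪ (J0 ∪ J1), ?_, ?_⟩
  · have h1 := Finset.card_union_le JE (J0 ∪ J1)
    have h2 := Finset.card_union_le J0 J1
    omega
  · rintro k hk ⟨k', hk', hne, h⟩
    have h1 := hc k hk
    have h2 := hc k' hk'
    simp only [Finset.mem_union]
    rcases h with ⟨s, a1, a2, a3, a4⟩ | ⟨s, a1, a2, a3, a4, a5⟩
    · left
      simp only [JE, Finset.mem_filter, Finset.mem_range]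
      exact ⟨hk, k', hk', hne, s, a1, a2, a3, a4⟩
    · right
      rcases Nat.lt_or_ge s (z + p0 + N) with h3 | h3
      · left
        have h4 := hs0 s ⟨a1, a2, by omega, h3⟩
        subst h4
        exact hJ0' k hk k' hk' hne (s + c k' - c k - p0) (by omega) (by omega) a5
      · right
        have h4 := hs1 s ⟨a1, a2, h3, fun t ht htw => by
          have := a4 t ht htw
          omega⟩
        subst h4
        exact hJ1' k hk k' hk' hne (s + c k' - c k - p0) (by omega) (by omega) a5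

theorem fibre (β : Type) [Finite β] (S : Type) [Monoid S] [Finite S] (f : β → S) (s : S) :
    HL 3 ({w | (w.map f).prod = s} : Language β) := by
  classical
  have := Fintype.ofFinite S
  obtain ⟨act, hadd, hone, hmul, hfaith⟩ := Blk467.exists_module S
  obtain ⟨m, r, hgrid⟩ := GridG_19.grid S (S → ZMod 2) act
  obtain ⟨K, hexact⟩ := ExactR_237.exact_gadget β S (S → ZMod 2) f act (2 * (r + m) + 2)
  obtain ⟨Ms, hMc, hMp, hgrid⟩ := hgrid (8 * 4 ^ (K + 1))
  obtain ⟨M, hM⟩ : ∃ M, M = ∏ q ∈ Ms, q := ⟨_, rfl⟩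
  rw [← hM] at hgrid
  have hMpos : 0 < M := by
    rw [hM]; exact Finset.prod_pos fun q hq => (hMp q hq).1.pos
  obtain ⟨Gam, hGam⟩ : ∃ Gam, Gam = 100 * 4 ^ (K + 1) * M + 1 := ⟨_, rfl⟩
  have hGpos : 0 < Gam := by omega
  have hcop : ∀ k, Nat.Coprime M (Gam ^ k) := by
    intro k
    refine Nat.Coprime.pow_right k ?_
    rw [hGam]
    simp
  obtain ⟨lam, rho, nu1, hsound, hlamlen, hrholen, hcompl, hnufin⟩ :=
    hgrid (fun k => Gam ^ k) 0 (fun k => pow_pos hGpos k) (fun a b h => pow_dvd_pow _ h) hcop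
      β (fun w => (w.map f).prod) (by intro u v; simp)
  obtain ⟨N, hN⟩ : ∃ N, N = GridG_19.Am (fun k => Gam ^ k) M 0 m := ⟨_, rfl⟩
  obtain ⟨x, hxmono, hxgol, hxthin⟩ := RulerGrid_506.exists_ruler K m (2 * N) M Gam Ms
    (fun j => ((GridG_19.Am (fun k => Gam ^ k) M 0 j : ℕ) : ℤ)) hMpos
    (fun p hp => ⟨(hMp p hp).1, (hMp p hp).2, hM ▸ Finset.dvd_prod_of_mem _ hp⟩) (by omega)
  obtain ⟨lam2, rho2, nu2, hex2, hco2⟩ := hexact x (fun i j hij _ => hxmono hij)
  obtain ⟨p0, hp0⟩ : ∃ p0, p0 = x K := ⟨_, rfl⟩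
  have hcp : ∀ k < K, x k ≤ p0 := fun k hk => by rw [hp0]; exact (hxmono hk).le
  obtain ⟨n0, G0, B0, Wo, hLW, hgap, hper, -, hfree⟩ :=
    LWallAll_922.walls_all_left β (2 * p0 + 2 * N + 1) (by omega)
  obtain ⟨n, hn⟩ : ∃ n, n = max n0 1 := ⟨_, rfl⟩
  have hlen : ∀ Q, Wo Q → n ≤ Q.length := by
    intro Q hQ
    have h1 := hLW.2 Q hQ
    have h2 : n0 ≠ 0 := by
      rintro rfl
      refine hper Q 1 one_pos (by omega) hQ ?_
      simp
    omega
  have hloc : ∀ P Q : List β, n ≤ Q.length → (Wo (P ++ Q) ↔ Wo Q) :=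
    fun P Q h => hLW.1 P Q (by omega)
  have hWalls : JointSem_814.Walls n (2 * p0 + 2 * N) Wo :=
    ⟨hloc, hlen, fun X s t h1 h2 h3 h4 h5 => by
      have := hgap X s t h1 h3 h4 h5
      omega⟩
  obtain ⟨z, hz⟩ : ∃ z, z = p0 + (2 * N + M) + N + n + 1 := ⟨_, rfl⟩
  have hfew : ∀ X : List β, (∀ t, t < X.length → ¬ Wo (X.take t)) → ∃ (u x : List β) (k : ℕ)
      (v : List β), u.length ≤ B0 + (2 * p0 + 2 * N + 1) ∧ x.length ≤ B0 + (2 * p0 + 2 * N + 1) ∧
      v.length ≤ B0 + (2 * p0 + 2 * N + 1) ∧ X = u ++ (List.replicate k x).flatten ++ v := by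
    intro X hX
    obtain ⟨u, y, v, k, h1, h2, h3, h4⟩ := hfree X hX
    exact ⟨u, y, k, v, by omega, by omega, by omega, h4⟩
  let φ : List β → S := fun w => (w.map f).prod
  let BadT : ℕ → Prop := fun T => (∃ q ∈ Ms, q ∣ T) ∨ GridG_19.BadG (fun k => Gam ^ k) M 0 m T
  let nu2' : List β → (S → ZMod 2) := fun u => nu2 u 1
  let rho2' : ℕ → List β → Option (S → ZMod 2) := fun k Q => rho2 k Q 1
  let D : SemTop_727.Sch β (S → ZMod 2) :=
    ⟨JointSem_814.XX Wo z, JointSem_814.T p0 φ act nu1 nu2',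
      JointSem_814.L1 p0 φ act nu2' lam, JointSem_814.L2 K x lam2⟩
  have hlamN : ∀ p v, lam p = some v → p.length ≤ N := fun p v h => by
    have := (hlamlen p v h).2
    omega
  have hthin : ∀ T : ℤ, ∃ J : Finset ℕ, J.card ≤ r + m ∧ ∀ k < K, ∀ k' < K, k' ≠ k → ∀ t : ℕ,
      (t : ℤ) = T + x k' - x k → z - p0 ≤ t → BadT t → k ∈ J := by
    intro T
    refine ⟨((range K ×ˢ range K).filter fun ab : ℕ × ℕ =>
      ab.1 ≠ ab.2 ∧ RulerGrid_506.Bad Ms m M Gam
        (fun j => ((GridG_19.Am (fun k => Gam ^ k) M 0 j : ℕ) : ℤ))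
        (T + x ab.2 - x ab.1)).image Prod.fst, ?_, ?_⟩
    · have h1 := hxthin T
      have h2 := Finset.card_image_le (s := (range K ×ˢ range K).filter fun ab : ℕ × ℕ =>
        ab.1 ≠ ab.2 ∧ RulerGrid_506.Bad Ms m M Gam
        (fun j => ((GridG_19.Am (fun k => Gam ^ k) M 0 j : ℕ) : ℤ))
        (T + x ab.2 - x ab.1)) (f := Prod.fst)
      omega
    · intro k hk k' hk' hne t ht htz hb
      rw [Finset.mem_image]
      refine ⟨(k, k'), ?_, rfl⟩
      simp only [Finset.mem_filter, Finset.mem_product, Finset.mem_range]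
      refine ⟨⟨hk, hk'⟩, Ne.symm hne, ?_⟩
      rw [← ht]
      rcases hb with ⟨q, hq, hd⟩ | hb
      · exact Or.inl ⟨q, hq, by exact_mod_cast hd⟩
      · exact Or.inr (badG_bad hGpos (by omega) hb)
  have hcomp' : ∀ u : List β, 2 * N + M ≤ u.length → ¬ BadT u.length → ∀ v, ∃ p q, p ++ q = u ∧
      lam p = some v ∧ (rho q).isSome := by
    intro u hu hb v
    have h1 : ∀ q ∈ Ms, ¬ q ∣ u.length := fun q hq hd => hb (Or.inl ⟨q, hq, hd⟩)
    have h2 : ¬ GridG_19.BadG (fun k => Gam ^ k) M 0 m u.length := fun h => hb (Or.inr h)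
    exact hcompl u (by omega) (by omega) h1 h2 v
  have hkey : ∀ v, Fib_854.Key (JointSem_814.T p0 φ act nu1 nu2' v) := by
    intro v
    refine ⟨p0 + GridG_19.Ac (fun k => Gam ^ k) M 0 m, M * Gam ^ m, S, inferInstance,
      inferInstance, f, by positivity, ?_⟩
    intro X Y hX hY h1 h2 h3
    obtain ⟨A, hA⟩ : ∃ A, A = GridG_19.Ac (fun k => Gam ^ k) M 0 m := ⟨_, rfl⟩
    rw [← hA] at hX hY h1 h3 hnufin
    have e0 : X.take p0 = Y.take p0 := by
      have := congrArg (List.take p0) h1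
      rwa [List.take_take, List.take_take, Nat.min_eq_left (by omega)] at this
    have e1 : (X.drop p0).take A = (Y.drop p0).take A := by
      have := congrArg (List.drop p0) h1
      rwa [List.drop_take, List.drop_take, Nat.add_sub_cancel_left] at this
    have e2 : φ (X.drop p0) = φ (Y.drop p0) := by
      have ex : ∀ Z : List β, φ (Z.drop p0) = φ ((Z.drop p0).take A) * φ (Z.drop (p0 + A)) := by
        intro Z
        have : Z.drop p0 = (Z.drop p0).take A ++ Z.drop (p0 + A) := by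
          rw [← List.drop_drop, List.take_append_drop]
        show ((Z.drop p0).map f).prod = _
        conv_lhs => rw [this]
        rw [List.map_append, List.prod_append]
      rw [ex X, ex Y, e1]
      show _ * ((X.drop (p0 + A)).map f).prod = _ * ((Y.drop (p0 + A)).map f).prod
      rw [h3]
    have e3 : nu1 (X.drop p0) = nu1 (Y.drop p0) := by
      refine hnufin _ _ (by rw [List.length_drop]; omega) (by rw [List.length_drop]; omega) e1 ?_ e2
      rw [List.length_drop, List.length_drop]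
      have h4 : X.length ≡ Y.length [MOD M * Gam ^ m] := h2
      have h5 : (X.length - p0) + p0 ≡ (Y.length - p0) + p0 [MOD M * Gam ^ m] := by
        rw [Nat.sub_add_cancel (by omega), Nat.sub_add_cancel (by omega)]; exact h4
      exact Nat.ModEq.add_right_cancel' _ h5
    unfold JointSem_814.T
    rw [e0, e2, e3]
  have hXXe : ∀ X, X ∈ JointSem_814.XX Wo z ↔ X ∈ Fib_854.XX Wo z := fun X =>
    ⟨fun h => ⟨h.2.1, h.1, h.2.2⟩, fun h => ⟨h.2.1, h.1, h.2.2⟩⟩
  refine SemTop_727.top (k := 1) act hadd hone hmul hfaith f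
    (fun X => act (nu2' (X.take p0)) (φ (X.drop p0)) + nu1 (X.drop p0)) D ?_ ?_ ?_ ?_ ?_ ?_ ?_ s
  · intro v X
    show JointSem_814.T p0 φ act nu1 nu2' v X = _
    unfold JointSem_814.T
    rw [hadd, ← hmul]
    have : φ (X.take p0) * φ (X.drop p0) = (X.map f).prod := by
      show ((X.take p0).map f).prod * ((X.drop p0).map f).prod = _
      rw [← List.prod_append, ← List.map_append, List.take_append_drop]
    rw [this, add_assoc]
  · refine ⟨fun h => ?_, fun X hX Y hY h => JointSem_814.XX_code hX hY h⟩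
    have h1 : z ≤ ([] : List β).length := h.2.1
    simp at h1
    omega
  · intro v y
    refine (Fib_854.fib hloc hlen (by omega) (show n ≤ z by omega) hfew
      (JointSem_814.T p0 φ act nu1 nu2' v) (hkey v) y).congr fun w => ?_
    constructor
    · rintro ⟨h1, h2⟩
      exact ⟨(hXXe w).1 h1, h2⟩
    · rintro ⟨h1, h2⟩
      exact ⟨(hXXe w).2 h1, h2⟩
  · intro v
    refine (List.finite_length_le β (p0 + N)).subset ?_
    rintro P ⟨h1, h2⟩
    have := hlamN _ _ h2
    rw [List.length_drop] at this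
    show P.length ≤ p0 + N
    omega
  · intro v
    refine (List.finite_length_le β p0).subset ?_
    rintro P ⟨k, hk, h1, h2⟩
    show P.length ≤ p0
    have := hcp k hk
    omega
  · intro X1 hX1 X2 hX2 v
    refine JointSem_814.compl2 (R := 2 * (r + m) + 2) (N0 := 2 * N + M) (rho := rho)
      (BadT := BadT) (rho2 := rho2') hWalls (by omega) (by omega) hlamN
      (fun p q v r h1 h2 => hsound p q v r h1 h2) hcomp' hcp ?_ ?_ ?_ hX1.1 hX2 v
    · intro k hk P Q v b h1 h2 h3
      have h4 := hex2 k hk P Q 1 v b h1 h2 h3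
      rw [mul_one] at h4
      exact h4
    · intro u v hu
      exact hco2 u 1 v hu
    · intro U _
      obtain ⟨J, h1, h2⟩ := spoil (C0 := r + m) hWalls le_rfl hcp (show p0 + N ≤ z by omega)
        hxgol hthin U
      exact ⟨J, by omega, h2⟩
  · intro t
    refine HL.mono (by norm_num) ((Fib_854.tail f hloc hlen (by omega) (show n ≤ z by omega)
      hfew t).congr fun w => ?_)
    constructor
    · rintro ⟨h1, h2⟩
      exact ⟨fun X hX => h1 X ((hXXe X).2 hX), h2⟩
    · rintro ⟨h1, h2⟩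
      exact ⟨fun X hX => h1 X ((hXXe X).1 hX), h2⟩

universe u

/-- the row -/
theorem final (α : Type u) [Finite α] (L : Language α) (hL : L.IsRegular) :
    ∃ e : Crest.RegLang.GRegExp α, e.height ≤ 3 ∧ e.lang = L :=
  Univ_582.final (fun β _ S _ _ f s => fibre β S f s) α L hL

end Crest.Agent.R320.Fin_506
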